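import Vale.Agent.P171.MathlibUsed
import Vale.Agent.P171.Defs

set_option linter.all false

section

section

/-! Internal objects: full double sums `quad`, Gibbs weights, grand partition functions for a
general pair function `W : E3 → E3 → ℝ`, and the concrete model. -/

open MeasureTheory Filter Topology
open scoped ENNReal

namespace Vale.Agent.P171

/-- Full double sum, diagonal included. -/
noncomputable def quad (W : E3 → E3 → ℝ) {ι : Type} [Fintype ι] (x : ι → E3) : ℝ :=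
  ∑ i, ∑ j, W (x i) (x j)

/-- Gibbs weight `exp (ν N - quad / 2)`. -/
noncomputable def wt (W : E3 → E3 → ℝ) (ν : ℝ) {ι : Type} [Fintype ι] (x : ι → E3) : ℝ≥0∞ :=
  ENNReal.ofReal (Real.exp (ν * Fintype.card ι - quad W x / 2))

/-- Grand partition function on `Λ` for the pair function `W` (diagonal included) and activity
exponent `ν`. -/
noncomputable def GX (Λ : Set E3) (W : E3 → E3 → ℝ) (ν : ℝ) : ℝ≥0∞ :=
  ∑' N : ℕ, (N.factorial : ℝ≥0∞)⁻¹ *
    ∫⁻ x in {x : Fin N → E3 | ∀ i, x i ∈ Λ}, wt W ν x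

/-- Ranges `R_k = 6 * 2^k`. -/
def Rk (k : ℕ) : ℕ := 6 * 2 ^ k

/-- Kac kernel number `k`: `R_k^{-3} 1[r < R_k]`. -/
noncomputable def J (k : ℕ) (r : ℝ) : ℝ := if r < (Rk k : ℝ) then ((Rk k : ℝ) ^ 3)⁻¹ else 0

/-- Radial profile `A 1[r<2] - ∑ a_k J_k(r)`. -/
noncomputable def prof (A : ℝ) (a : ℕ → ℝ) (r : ℝ) : ℝ :=
  (if r < 2 then A else 0) - ∑' k, a k * J k r

/-- The pair function of the model. -/
noncomputable def WA (A : ℝ) (a : ℕ → ℝ) (x y : E3) : ℝ := prof A a ‖x - y‖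

/-- Admissible coefficient sequences of mass at most `T`. -/
def Adm (T : ℝ) (a : ℕ → ℝ) : Prop := (∀ k, 0 ≤ a k) ∧ Summable a ∧ ∑' k, a k ≤ T

/-- log partition function of the box of side `L`; chemical potential normalised so that the
diagonal of the core is removed. -/
noncomputable def gL (A L : ℝ) (a : ℕ → ℝ) (μ : ℝ) : ℝ :=
  Real.log (GX (box L) (WA A a) (μ + A / 2)).toReal

/-- Pressure (as a supremum over boxes). -/
noncomputable def Pr (A : ℝ) (a : ℕ → ℝ) (μ : ℝ) : ℝ :=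
  ⨆ L : {L : ℝ // 0 < L}, gL A L a μ / ((L : ℝ) + 2) ^ 3

/-- Block index of side `l` shifted by `θ` along the diagonal. -/
noncomputable def blk (l θ : ℕ) (x : E3) : Fin 3 → ℤ := fun c => (⌊x c⌋ + (θ : ℤ)) / (l : ℤ)

open Classical in
/-- Same block indicator. -/
noncomputable def same (l θ : ℕ) (x y : E3) : ℝ := if blk l θ x = blk l θ y then 1 else 0

end Vale.Agent.P171
end
end

section

section

open MeasureTheory Filter Topology
open scoped ENNReal

namespace Vale.Agent.P171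

theorem Rk_pos (k : ℕ) : 0 < Rk k := by unfold Rk; positivity

theorem Rk_pos' (k : ℕ) : (0 : ℝ) < (Rk k : ℝ) := by exact_mod_cast Rk_pos k

theorem one_le_Rk (k : ℕ) : 1 ≤ Rk k := Rk_pos k

theorem tendsto_Rk : Tendsto Rk atTop atTop := by
  have h : ∀ k, k ≤ Rk k := by
    intro k
    unfold Rk
    have := (Nat.lt_two_pow_self (n := k)).le
    omega
  exact tendsto_atTop_mono h tendsto_id

theorem J_nonneg (k : ℕ) (r : ℝ) : 0 ≤ J k r := by
  unfold J; split_ifs <;> positivity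

theorem J_le (k : ℕ) (r : ℝ) : J k r ≤ 1 := by
  unfold J
  have h : (1 : ℝ) ≤ (Rk k : ℝ) := by exact_mod_cast one_le_Rk k
  split_ifs
  · apply inv_le_one_of_one_le₀
    exact one_le_pow₀ h
  · norm_num

theorem J_antitone (k : ℕ) : Antitone (J k) := by
  intro r s hrs
  unfold J
  have := Rk_pos' k
  by_cases h1 : s < (Rk k : ℝ)
  · rw [if_pos h1, if_pos (lt_of_le_of_lt hrs h1)]
  · rw [if_neg h1]
    split_ifs <;> positivity

theorem summable_aJ {a : ℕ → ℝ} (ha : ∀ k, 0 ≤ a k) (hs : Summable a) (r : ℝ) :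
    Summable (fun k => a k * J k r) := by
  refine Summable.of_nonneg_of_le (fun k => mul_nonneg (ha k) (J_nonneg k r)) (fun k => ?_) hs
  exact mul_le_of_le_one_right (ha k) (J_le k r)

theorem summable_aJ' {a : ℕ → ℝ} (hs : Summable a) (r : ℝ) :
    Summable (fun k => a k * J k r) := by
  refine Summable.of_norm_bounded (g := fun k => |a k|) hs.abs (fun k => ?_)
  rw [Real.norm_eq_abs, abs_mul, abs_of_nonneg (J_nonneg k r)]
  exact mul_le_of_le_one_right (abs_nonneg _) (J_le k r)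

theorem prof_nonpos (A : ℝ) {a : ℕ → ℝ} (ha : ∀ k, 0 ≤ a k) {r : ℝ} (hr : 2 ≤ r) :
    prof A a r ≤ 0 := by
  unfold prof
  rw [if_neg (not_lt.mpr hr)]
  have : 0 ≤ ∑' k, a k * J k r := tsum_nonneg fun k => mul_nonneg (ha k) (J_nonneg k r)
  linarith

theorem WA_linear (A : ℝ) {a b : ℕ → ℝ} (ha : Summable a) (hb : Summable b) (s : ℝ) (x y : E3) :
    WA A (fun k => (1 - s) * a k + s * b k) x y = (1 - s) * WA A a x y + s * WA A b x y := by
  unfold WA prof
  have h1 := summable_aJ' ha ‖x - y‖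
  have h2 := summable_aJ' hb ‖x - y‖
  have h3 : (∑' k, ((1 - s) * a k + s * b k) * J k ‖x - y‖) =
      (1 - s) * (∑' k, a k * J k ‖x - y‖) + s * (∑' k, b k * J k ‖x - y‖) := by
    rw [← tsum_mul_left, ← tsum_mul_left, ← Summable.tsum_add (h1.mul_left _) (h2.mul_left _)]
    congr 1
    ext k
    ring
  rw [h3]
  ring

theorem prof_measurable (A : ℝ) {a : ℕ → ℝ} (ha : ∀ k, 0 ≤ a k) (hs : Summable a) :
    Measurable (prof A a) := by
  unfold prof
  apply Measurable.sub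
  · exact Measurable.ite measurableSet_Iio measurable_const measurable_const
  · have : Antitone (fun r => ∑' k, a k * J k r) := by
      intro r s hrs
      apply Summable.tsum_le_tsum _ (summable_aJ ha hs s) (summable_aJ ha hs r)
      intro k
      exact mul_le_mul_of_nonneg_left (J_antitone k hrs) (ha k)
    exact this.measurable

theorem measurable_WA (A : ℝ) {a : ℕ → ℝ} (ha : ∀ k, 0 ≤ a k) (hs : Summable a) :
    Measurable (Function.uncurry (WA A a)) := by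
  unfold WA
  have h : Measurable (fun p : E3 × E3 => ‖p.1 - p.2‖) := by fun_prop
  exact (prof_measurable A ha hs).comp h

theorem WA_symm (A : ℝ) (a : ℕ → ℝ) (x y : E3) : WA A a x y = WA A a y x := by
  unfold WA
  rw [norm_sub_rev]

theorem WA_translate (A : ℝ) (a : ℕ → ℝ) (v x y : E3) : WA A a (x + v) (y + v) = WA A a x y := by
  unfold WA
  rw [add_sub_add_right_eq_sub]

/-! ### the counting inequality -/

section counting

variable {ι : Type} [Fintype ι] {G : Type} [DecidableEq G]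

/-- number of points in the block `g` -/
def cnt (κ : ι → G) (g : G) : ℕ := (Finset.univ.filter (fun i => κ i = g)).card

theorem sum_comp_cnt (κ : ι → G) (F : G → ℝ) :
    ∑ i, F (κ i) = ∑ g ∈ Finset.univ.image κ, (cnt κ g : ℝ) * F g := by
  rw [Finset.sum_comp F κ]
  apply Finset.sum_congr rfl
  intro g _
  rw [nsmul_eq_mul]
  rfl

theorem sum_ite_cnt (κ : ι → G) (g : G) : (∑ j, if κ j = g then (1 : ℝ) else 0) = cnt κ g := by
  rw [Finset.sum_boole]
  rfl

theorem cnt_eq_zero (κ : ι → G) {g : G} (h : g ∉ Finset.univ.image κ) : cnt κ g = 0 := by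
  unfold cnt
  rw [Finset.card_eq_zero, Finset.filter_eq_empty_iff]
  intro i _ hi
  exact h (hi ▸ Finset.mem_image_of_mem κ (Finset.mem_univ i))

theorem double_same (κ : ι → G) :
    (∑ i, ∑ j, if κ i = κ j then (1 : ℝ) else 0) = ∑ g ∈ Finset.univ.image κ, (cnt κ g : ℝ) ^ 2 := by
  have : ∀ i, (∑ j, if κ i = κ j then (1 : ℝ) else 0) = cnt κ (κ i) := by
    intro i
    rw [← sum_ite_cnt]
    apply Finset.sum_congr rfl
    intro j _
    congr 1
    exact propext eq_comm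
  simp_rw [this]
  rw [sum_comp_cnt κ (fun g => (cnt κ g : ℝ))]
  apply Finset.sum_congr rfl
  intro g _
  ring

theorem double_shift_le [AddCommGroup G] (κ : ι → G) (w : G) :
    (∑ i, ∑ j, if κ j = κ i + w then (1 : ℝ) else 0) ≤
      ∑ i, ∑ j, if κ i = κ j then (1 : ℝ) else 0 := by
  rw [double_same]
  have h1 : ∀ i, (∑ j, if κ j = κ i + w then (1 : ℝ) else 0) = cnt κ (κ i + w) := by
    intro i
    rw [← sum_ite_cnt]
  simp_rw [h1]
  rw [sum_comp_cnt κ (fun g => (cnt κ (g + w) : ℝ))]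
  have h2 : ∑ g ∈ Finset.univ.image κ, (cnt κ (g + w) : ℝ) ^ 2 ≤
      ∑ g ∈ Finset.univ.image κ, (cnt κ g : ℝ) ^ 2 := by
    have : ∑ g ∈ Finset.univ.image κ, (cnt κ (g + w) : ℝ) ^ 2 =
        ∑ h ∈ (Finset.univ.image κ).image (fun g => g + w), (cnt κ h : ℝ) ^ 2 := by
      refine (Finset.sum_image (f := fun h => (cnt κ h : ℝ) ^ 2) ?_).symm
      intro a _ b _ hab
      exact add_right_cancel hab
    rw [this]
    have h3 : ∑ h ∈ (Finset.univ.image κ).image (fun g => g + w), (cnt κ h : ℝ) ^ 2 ≤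
        ∑ h ∈ (Finset.univ.image κ).image (fun g => g + w) ∪ Finset.univ.image κ,
          (cnt κ h : ℝ) ^ 2 := by
      apply Finset.sum_le_sum_of_subset_of_nonneg Finset.subset_union_left
      intros
      positivity
    refine h3.trans (le_of_eq ?_)
    symm
    apply Finset.sum_subset Finset.subset_union_right
    intro g _ hg
    rw [cnt_eq_zero κ hg]
    simp
  have h4 : ∀ g, (cnt κ g : ℝ) * (cnt κ (g + w) : ℝ) ≤
      ((cnt κ g : ℝ) ^ 2 + (cnt κ (g + w) : ℝ) ^ 2) / 2 := by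
    intro g
    nlinarith [sq_nonneg ((cnt κ g : ℝ) - (cnt κ (g + w) : ℝ))]
  calc ∑ g ∈ Finset.univ.image κ, (cnt κ g : ℝ) * (cnt κ (g + w) : ℝ)
      ≤ ∑ g ∈ Finset.univ.image κ, ((cnt κ g : ℝ) ^ 2 + (cnt κ (g + w) : ℝ) ^ 2) / 2 :=
        Finset.sum_le_sum fun g _ => h4 g
    _ = (∑ g ∈ Finset.univ.image κ, (cnt κ g : ℝ) ^ 2 +
          ∑ g ∈ Finset.univ.image κ, (cnt κ (g + w) : ℝ) ^ 2) / 2 := by
        rw [← Finset.sum_div, Finset.sum_add_distrib]
    _ ≤ ∑ g ∈ Finset.univ.image κ, (cnt κ g : ℝ) ^ 2 := by linarith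

theorem double_near_le [AddCommGroup G] (κ : ι → G) (S : Finset G) :
    (∑ i, ∑ j, if κ j - κ i ∈ S then (1 : ℝ) else 0) ≤
      S.card * ∑ i, ∑ j, if κ i = κ j then (1 : ℝ) else 0 := by
  have h1 : ∀ i j, (if κ j - κ i ∈ S then (1 : ℝ) else 0) =
      ∑ w ∈ S, if κ j = κ i + w then (1 : ℝ) else 0 := by
    intro i j
    have : ∀ w, (κ j = κ i + w) ↔ (κ j - κ i = w) := by
      intro w
      constructor
      · intro h; rw [h]; abel
      · intro h; rw [← h]; abel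
    simp_rw [this]
    rw [Finset.sum_ite_eq]
  simp_rw [h1]
  calc ∑ i, ∑ j, ∑ w ∈ S, (if κ j = κ i + w then (1 : ℝ) else 0)
      = ∑ w ∈ S, ∑ i, ∑ j, (if κ j = κ i + w then (1 : ℝ) else 0) := by
        rw [Finset.sum_comm (s := S)]
        apply Finset.sum_congr rfl
        intro i _
        rw [Finset.sum_comm]
    _ ≤ ∑ w ∈ S, ∑ i, ∑ j, (if κ i = κ j then (1 : ℝ) else 0) :=
        Finset.sum_le_sum fun w _ => double_shift_le κ w
    _ = S.card * ∑ i, ∑ j, if κ i = κ j then (1 : ℝ) else 0 := by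
        rw [Finset.sum_const, nsmul_eq_mul]

end counting

/-! ### blocks -/

theorem abs_coord_le_norm (x : E3) (c : Fin 3) : |x c| ≤ ‖x‖ := by
  have := EuclideanSpace.norm_eq x
  rw [this]
  apply Real.le_sqrt_of_sq_le
  rw [sq_abs]
  have h : x c ^ 2 = ‖x c‖ ^ 2 := by rw [Real.norm_eq_abs, sq_abs]
  rw [h]
  exact Finset.single_le_sum (f := fun i => ‖x i‖ ^ 2) (fun i _ => by positivity)
    (Finset.mem_univ c)

theorem quad_same (l θ : ℕ) {ι : Type} [Fintype ι] (x : ι → E3) :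
    quad (same l θ) x = ∑ i, ∑ j, if blk l θ (x i) = blk l θ (x j) then (1 : ℝ) else 0 := by
  unfold quad same
  congr 1

theorem ediv_diff (l R : ℕ) (hl : 0 < l) (u v : ℤ) (h : u ≤ v + R) :
    u / (l : ℤ) ≤ v / (l : ℤ) + ((R / l : ℕ) : ℤ) + 1 := by
  have hl' : (0 : ℤ) < (l : ℤ) := by exact_mod_cast hl
  have h1 : v < (v / (l : ℤ) + 1) * l := Int.lt_ediv_add_one_mul_self v hl'
  have h2 : (R : ℤ) < ((R / l : ℕ) + 1 : ℤ) * l := by
    have : R < (R / l + 1) * l := by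
      have h5 := Nat.div_add_mod R l
      have h6 := Nat.mod_lt R hl
      nlinarith
    exact_mod_cast this
  have h3 : u < (v / (l : ℤ) + ((R / l : ℕ) : ℤ) + 1 + 1) * l := by nlinarith
  have h4 : u / (l : ℤ) < v / (l : ℤ) + ((R / l : ℕ) : ℤ) + 1 + 1 := Int.ediv_lt_of_lt_mul hl' h3
  omega

theorem blk_diff (l θ R : ℕ) (hl : 0 < l) {x y : E3} (h : ‖x - y‖ < (R : ℝ)) (c : Fin 3) :
    blk l θ y c - blk l θ x c ∈ Finset.Icc (-(((R / l : ℕ) : ℤ) + 1)) (((R / l : ℕ) : ℤ) + 1) := by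
  have h0 : |x c - y c| < (R : ℝ) := by
    have := abs_coord_le_norm (x - y) c
    have h' : (x - y) c = x c - y c := rfl
    rw [h'] at this
    exact lt_of_le_of_lt this h
  obtain ⟨h1, h2⟩ := abs_lt.mp h0
  have hx1 := Int.floor_le (x c)
  have hx2 := Int.lt_floor_add_one (x c)
  have hy1 := Int.floor_le (y c)
  have hy2 := Int.lt_floor_add_one (y c)
  have h3 : ⌊x c⌋ ≤ ⌊y c⌋ + (R : ℤ) := by
    have : (⌊x c⌋ : ℝ) < (⌊y c⌋ : ℝ) + R + 1 := by linarith
    have : ⌊x c⌋ < ⌊y c⌋ + (R : ℤ) + 1 := by exact_mod_cast this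
    omega
  have h4 : ⌊y c⌋ ≤ ⌊x c⌋ + (R : ℤ) := by
    have : (⌊y c⌋ : ℝ) < (⌊x c⌋ : ℝ) + R + 1 := by linarith
    have : ⌊y c⌋ < ⌊x c⌋ + (R : ℤ) + 1 := by exact_mod_cast this
    omega
  have h5 := ediv_diff l R hl (⌊x c⌋ + (θ : ℤ)) (⌊y c⌋ + (θ : ℤ)) (by omega)
  have h6 := ediv_diff l R hl (⌊y c⌋ + (θ : ℤ)) (⌊x c⌋ + (θ : ℤ)) (by omega)
  rw [Finset.mem_Icc]
  unfold blk
  constructor <;> omega

theorem quad_mono {W W' : E3 → E3 → ℝ} {ι : Type} [Fintype ι] (x : ι → E3)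
    (h : ∀ i j, W (x i) (x j) ≤ W' (x i) (x j)) : quad W x ≤ quad W' x :=
  Finset.sum_le_sum fun i _ => Finset.sum_le_sum fun j _ => h i j

theorem quad_nonneg {W : E3 → E3 → ℝ} {ι : Type} [Fintype ι] (x : ι → E3)
    (h : ∀ i j, 0 ≤ W (x i) (x j)) : 0 ≤ quad W x :=
  Finset.sum_nonneg fun i _ => Finset.sum_nonneg fun j _ => h i j

theorem same_nonneg (l θ : ℕ) (x y : E3) : 0 ≤ same l θ x y := by
  unfold same; split_ifs <;> norm_num

theorem quad_near_le (l θ R : ℕ) (hl : 0 < l) (hR : l ≤ R) {ι : Type} [Fintype ι] (x : ι → E3) :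
    quad (fun x y => if ‖x - y‖ < (R : ℝ) then 1 else 0) x ≤
      (5 * (R : ℝ) / l) ^ 3 * quad (same l θ) x := by
  classical
  set q : ℤ := ((R / l : ℕ) : ℤ) + 1 with hq
  set S : Finset (Fin 3 → ℤ) := Fintype.piFinset (fun _ => Finset.Icc (-q) q) with hS
  have h1 : quad (fun x y => if ‖x - y‖ < (R : ℝ) then 1 else 0) x ≤
      ∑ i, ∑ j, if blk l θ (x j) - blk l θ (x i) ∈ S then (1 : ℝ) else 0 := by
    unfold quad
    refine Finset.sum_le_sum fun i _ => Finset.sum_le_sum fun j _ => ?_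
    beta_reduce
    by_cases h : ‖x i - x j‖ < (R : ℝ)
    · have hmem : blk l θ (x j) - blk l θ (x i) ∈ S := by
        rw [hS, Fintype.mem_piFinset]
        intro c
        exact blk_diff l θ R hl h c
      rw [if_pos h, if_pos hmem]
    · rw [if_neg h]
      split_ifs <;> norm_num
  have h2 := double_near_le (fun i => blk l θ (x i)) S
  have h3 : (S.card : ℝ) ≤ (5 * (R : ℝ) / l) ^ 3 := by
    have hc : S.card = (2 * (R / l) + 3) ^ 3 := by
      rw [hS, Fintype.card_piFinset]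
      simp only [Int.card_Icc, Finset.prod_const, Finset.card_univ, Fintype.card_fin]
      congr 1
      rw [hq]
      omega
    rw [hc]
    push_cast
    have hl' : (0 : ℝ) < l := by exact_mod_cast hl
    have h4 : ((R / l : ℕ) : ℝ) ≤ (R : ℝ) / l := Nat.cast_div_le
    have h5 : (1 : ℝ) ≤ (R : ℝ) / l := by
      rw [le_div_iff₀ hl', one_mul]
      exact_mod_cast hR
    apply pow_le_pow_left₀ (by positivity)
    have : 5 * (R : ℝ) / l = 5 * ((R : ℝ) / l) := by ring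
    rw [this]
    linarith
  rw [quad_same]
  refine h1.trans (h2.trans ?_)
  apply mul_le_mul_of_nonneg_right h3
  exact Finset.sum_nonneg fun i _ => Finset.sum_nonneg fun j _ => by split_ifs <;> norm_num

theorem quad_smul (c : ℝ) (W : E3 → E3 → ℝ) {ι : Type} [Fintype ι] (x : ι → E3) :
    quad (fun x y => c * W x y) x = c * quad W x := by
  unfold quad
  rw [Finset.mul_sum]
  refine Finset.sum_congr rfl fun i _ => ?_
  rw [Finset.mul_sum]

theorem quad_add (W W' : E3 → E3 → ℝ) {ι : Type} [Fintype ι] (x : ι → E3) :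
    quad (fun x y => W x y + W' x y) x = quad W x + quad W' x := by
  unfold quad
  simp_rw [Finset.sum_add_distrib]

theorem quad_sub (W W' : E3 → E3 → ℝ) {ι : Type} [Fintype ι] (x : ι → E3) :
    quad (fun x y => W x y - W' x y) x = quad W x - quad W' x := by
  unfold quad
  simp_rw [Finset.sum_sub_distrib]

theorem J_eq (k : ℕ) (r : ℝ) : J k r = ((Rk k : ℝ) ^ 3)⁻¹ * (if r < (Rk k : ℝ) then 1 else 0) := by
  unfold J; split_ifs <;> simp

theorem quad_J_le (l θ k : ℕ) (hl : 0 < l) (hR : l ≤ Rk k) {ι : Type} [Fintype ι] (x : ι → E3) :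
    quad (fun x y => J k ‖x - y‖) x ≤ 125 / (l : ℝ) ^ 3 * quad (same l θ) x := by
  simp_rw [J_eq]
  rw [quad_smul]
  have h := quad_near_le l θ (Rk k) hl hR x
  have hk := Rk_pos' k
  have hl' : (0 : ℝ) < l := by exact_mod_cast hl
  calc ((Rk k : ℝ) ^ 3)⁻¹ * quad (fun x y => if ‖x - y‖ < (Rk k : ℝ) then 1 else 0) x
      ≤ ((Rk k : ℝ) ^ 3)⁻¹ * ((5 * (Rk k : ℝ) / l) ^ 3 * quad (same l θ) x) :=
        mul_le_mul_of_nonneg_left h (by positivity)
    _ = 125 / (l : ℝ) ^ 3 * quad (same l θ) x := by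
        field_simp
        ring

/-- swapping the finite double sum and the series -/
theorem quad_series {a : ℕ → ℝ} (hs : Summable a) {ι : Type} [Fintype ι] (x : ι → E3) :
    quad (fun x y => ∑' k, a k * J k ‖x - y‖) x = ∑' k, a k * quad (fun x y => J k ‖x - y‖) x ∧
      Summable (fun k => a k * quad (fun x y => J k ‖x - y‖) x) := by
  have h1 : ∀ i j : ι, Summable (fun k => a k * J k ‖x i - x j‖) := fun i j => summable_aJ' hs _
  have h2 : ∀ i : ι, Summable (fun k => ∑ j, a k * J k ‖x i - x j‖) :=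
    fun i => summable_sum fun j _ => h1 i j
  have h3 : (fun k => a k * quad (fun x y => J k ‖x - y‖) x) =
      fun k => ∑ i, ∑ j, a k * J k ‖x i - x j‖ := by
    ext k
    unfold quad
    rw [Finset.mul_sum]
    refine Finset.sum_congr rfl fun i _ => ?_
    rw [Finset.mul_sum]
  rw [h3]
  refine ⟨?_, summable_sum fun i _ => h2 i⟩
  rw [Summable.tsum_finsetSum fun i _ => h2 i]
  unfold quad
  refine Finset.sum_congr rfl fun i _ => ?_
  rw [Summable.tsum_finsetSum fun j _ => h1 i j]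

theorem same_one_near {x y : E3} (h : blk 1 0 x = blk 1 0 y) : ‖x - y‖ < 2 := by
  have h1 : ∀ c, |x c - y c| < 1 := by
    intro c
    have hc := congrFun h c
    simp only [blk, Nat.cast_zero, add_zero, Nat.cast_one, Int.ediv_one] at hc
    exact Int.abs_sub_lt_one_of_floor_eq_floor hc
  rw [EuclideanSpace.norm_eq, Real.sqrt_lt' (by norm_num), Fin.sum_univ_three]
  have h2 : ∀ c, ‖(x - y) c‖ ^ 2 < 1 := by
    intro c
    rw [Real.norm_eq_abs]
    have : (x - y) c = x c - y c := rfl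
    rw [this]
    have := h1 c
    have h0 := abs_nonneg (x c - y c)
    nlinarith
  have := h2 0
  have := h2 1
  have := h2 2
  linarith

theorem quad_WA_ge {T A : ℝ} (hA : 125 * T + 1 ≤ A) {a : ℕ → ℝ} (ha : Adm T a) {ι : Type}
    [Fintype ι] (x : ι → E3) :
    quad (same 1 0) x ≤ quad (WA A a) x := by
  obtain ⟨ha0, hs, hT⟩ := ha
  have hT0 : 0 ≤ T := le_trans (tsum_nonneg ha0) hT
  have hA0 : 0 ≤ A := by linarith
  have h1 : quad (WA A a) x = quad (fun x y => if ‖x - y‖ < 2 then A else 0) x -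
      quad (fun x y => ∑' k, a k * J k ‖x - y‖) x := by
    rw [← quad_sub]; rfl
  have h2 : A * quad (same 1 0) x ≤ quad (fun x y => if ‖x - y‖ < 2 then A else 0) x := by
    rw [← quad_smul]
    apply quad_mono
    intro i j
    unfold same
    by_cases h : blk 1 0 (x i) = blk 1 0 (x j)
    · rw [if_pos h, if_pos (same_one_near h)]; simp
    · rw [if_neg h]
      split_ifs <;> simp [hA0]
  obtain ⟨h3, h4⟩ := quad_series hs x
  have hq : 0 ≤ quad (same 1 0) x := quad_nonneg x fun i j => same_nonneg _ _ _ _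
  have h5 : quad (fun x y => ∑' k, a k * J k ‖x - y‖) x ≤ 125 * T * quad (same 1 0) x := by
    rw [h3]
    calc ∑' k, a k * quad (fun x y => J k ‖x - y‖) x
        ≤ ∑' k, a k * (125 * quad (same 1 0) x) := by
          refine Summable.tsum_le_tsum (fun k => ?_) h4 (hs.mul_right _)
          apply mul_le_mul_of_nonneg_left _ (ha0 k)
          have := quad_J_le 1 0 k one_pos (one_le_Rk k) x
          simpa using this
      _ = (∑' k, a k) * (125 * quad (same 1 0) x) := by rw [tsum_mul_right]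
      _ ≤ T * (125 * quad (same 1 0) x) := mul_le_mul_of_nonneg_right hT (by positivity)
      _ = 125 * T * quad (same 1 0) x := by ring
  rw [h1]
  nlinarith

/-- exponent bound in a box -/
theorem exponent_same_le {L : ℝ} (hL : 0 < L) (ν : ℝ) {N : ℕ} (x : Fin N → E3)
    (hx : ∀ i, x i ∈ box L) :
    ν * N - quad (same 1 0) x / 2 ≤ ν ^ 2 / 2 * (L + 1) ^ 3 := by
  classical
  set κ : Fin N → (Fin 3 → ℤ) := fun i => blk 1 0 (x i) with hκ
  have h1 : quad (same 1 0) x = ∑ g ∈ Finset.univ.image κ, (cnt κ g : ℝ) ^ 2 := by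
    rw [quad_same, double_same κ]
  have h2 : (N : ℝ) = ∑ g ∈ Finset.univ.image κ, (cnt κ g : ℝ) := by
    have := sum_comp_cnt κ (fun _ => (1 : ℝ))
    simpa using this
  have h3 : ((Finset.univ.image κ).card : ℝ) ≤ (L + 1) ^ 3 := by
    have hsub : Finset.univ.image κ ⊆ Fintype.piFinset (fun _ : Fin 3 => Finset.Icc (0 : ℤ) ⌊L⌋) := by
      intro g hg
      obtain ⟨i, _, rfl⟩ := Finset.mem_image.mp hg
      rw [Fintype.mem_piFinset]
      intro c
      have hc := hx i c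
      simp only [hκ, blk, Nat.cast_zero, add_zero, Nat.cast_one, Int.ediv_one, Finset.mem_Icc]
      exact ⟨Int.floor_nonneg.mpr hc.1, Int.floor_le_floor hc.2⟩
    have hcard := Finset.card_le_card hsub
    rw [Fintype.card_piFinset] at hcard
    simp only [Int.card_Icc, Finset.prod_const, Finset.card_univ, Fintype.card_fin] at hcard
    have hfl : (((⌊L⌋ + 1 - 0).toNat : ℕ) : ℝ) ≤ L + 1 := by
      have h0 : 0 ≤ ⌊L⌋ := Int.floor_nonneg.mpr hL.le
      have h5 : (((⌊L⌋ + 1 - 0).toNat : ℕ) : ℤ) = ⌊L⌋ + 1 := by omega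
      have h6 : (((⌊L⌋ + 1 - 0).toNat : ℕ) : ℝ) = ((⌊L⌋ + 1 : ℤ) : ℝ) := by exact_mod_cast h5
      rw [h6]
      push_cast
      linarith [Int.floor_le L]
    calc ((Finset.univ.image κ).card : ℝ) ≤ (((⌊L⌋ + 1 - 0).toNat ^ 3 : ℕ) : ℝ) := by
          exact_mod_cast hcard
      _ = (((⌊L⌋ + 1 - 0).toNat : ℕ) : ℝ) ^ 3 := by push_cast; rfl
      _ ≤ (L + 1) ^ 3 := pow_le_pow_left₀ (by positivity) hfl 3
  have h4 : ν * N - quad (same 1 0) x / 2 =
      ∑ g ∈ Finset.univ.image κ, (ν * (cnt κ g : ℝ) - (cnt κ g : ℝ) ^ 2 / 2) := by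
    rw [h1, Finset.sum_sub_distrib, ← Finset.mul_sum, ← Finset.sum_div]
    rw [← h2]
  rw [h4]
  calc ∑ g ∈ Finset.univ.image κ, (ν * (cnt κ g : ℝ) - (cnt κ g : ℝ) ^ 2 / 2)
      ≤ ∑ g ∈ Finset.univ.image κ, ν ^ 2 / 2 := by
        apply Finset.sum_le_sum
        intro g _
        nlinarith [sq_nonneg (ν - (cnt κ g : ℝ))]
    _ = (Finset.univ.image κ).card * (ν ^ 2 / 2) := by rw [Finset.sum_const, nsmul_eq_mul]
    _ ≤ (L + 1) ^ 3 * (ν ^ 2 / 2) := mul_le_mul_of_nonneg_right h3 (by positivity)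
    _ = ν ^ 2 / 2 * (L + 1) ^ 3 := by ring

theorem exponent_le {T A : ℝ} (hA : 125 * T + 1 ≤ A) {a : ℕ → ℝ} (ha : Adm T a) {L : ℝ}
    (hL : 0 < L) (ν : ℝ) {N : ℕ} (x : Fin N → E3) (hx : ∀ i, x i ∈ box L) :
    ν * N - quad (WA A a) x / 2 ≤ ν ^ 2 / 2 * (L + 1) ^ 3 := by
  have h1 := quad_WA_ge hA ha x
  have h2 := exponent_same_le hL ν x hx
  linarith

theorem box_eq (L : ℝ) :
    box L = (fun x : E3 => (x : Fin 3 → ℝ)) ⁻¹' (Set.Icc (0 : Fin 3 → ℝ) (fun _ => L)) := by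
  ext x
  simp only [box, Set.mem_ofPred_eq, Set.mem_preimage, Set.mem_Icc, Pi.le_def, Pi.zero_apply]
  exact forall_and

theorem measurableSet_box (L : ℝ) : MeasurableSet (box L) := by
  rw [box_eq]
  exact (PiLp.volume_preserving_ofLp (Fin 3)).measurable measurableSet_Icc

theorem volume_box {L : ℝ} (hL : 0 ≤ L) : volume (box L) = ENNReal.ofReal (L ^ 3) := by
  rw [box_eq, (PiLp.volume_preserving_ofLp (Fin 3)).measure_preimage
    measurableSet_Icc.nullMeasurableSet, Real.volume_Icc_pi]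
  simp only [Pi.zero_apply, sub_zero, Finset.prod_const, Finset.card_univ, Fintype.card_fin]
  rw [ENNReal.ofReal_pow hL]

end Vale.Agent.P171
end
end

section

section

open MeasureTheory Filter Topology
open scoped ENNReal

namespace Vale.Agent.P171

/-! Elementary facts on the kernels and the bridge to the official definitions. -/

theorem measurable_J (k : ℕ) : Measurable (J k) := by
  unfold J
  exact Measurable.ite measurableSet_Iio measurable_const measurable_const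

theorem measurable_prof (A : ℝ) {a : ℕ → ℝ} (ha : ∀ k, 0 ≤ a k) (hs : Summable a) :
    Measurable (prof A a) := by
  unfold prof
  refine Measurable.sub (Measurable.ite measurableSet_Iio measurable_const measurable_const) ?_
  refine measurable_of_tendsto_metrizable
    (f := fun (n : ℕ) (r : ℝ) => ∑ k ∈ Finset.range n, a k * J k r) (fun n => ?_) ?_
  · exact Finset.measurable_sum _ (fun k _ => (measurable_J k).const_mul _)
  · rw [tendsto_pi_nhds]
    intro r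
    exact (summable_aJ ha hs r).hasSum.tendsto_sum_nat

theorem prof_abs_le (A : ℝ) {a : ℕ → ℝ} (ha : ∀ k, 0 ≤ a k) (hs : Summable a) (r : ℝ) :
    |prof A a r| ≤ |A| + ∑' k, a k := by
  unfold prof
  have h1 : |if r < 2 then A else 0| ≤ |A| := by
    split_ifs
    · exact le_rfl
    · simp
  have h2 : |∑' k, a k * J k r| ≤ ∑' k, a k := by
    rw [abs_of_nonneg (tsum_nonneg (fun k => mul_nonneg (ha k) (J_nonneg k r)))]
    exact (summable_aJ ha hs r).tsum_le_tsum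
      (fun k => mul_le_of_le_one_right (ha k) (J_le k r)) hs
  calc |(if r < 2 then A else 0) - ∑' k, a k * J k r| ≤ _ := abs_sub _ _
    _ ≤ _ := add_le_add h1 h2

theorem isPotential_prof {T A : ℝ} {a : ℕ → ℝ} (ha : Adm T a) :
    IsPotential (prof A a) := by
  refine ⟨(measurable_prof A ha.1 ha.2.1).comp measurable_subtype_coe,
    fun x y _ => ⟨|A| + ∑' k, a k, ?_⟩⟩
  intro r _ _
  exact prof_abs_le A ha.1 ha.2.1 r

theorem tempered_prof {T A : ℝ} {a : ℕ → ℝ} (ha : Adm T a) : Tempered (prof A a) := by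
  refine ⟨1, 1, 2, one_pos, one_pos, two_pos, fun r hr => ?_⟩
  refine (prof_nonpos A ha.1 hr).trans ?_
  have : 0 ≤ r ^ (-(3 + 1) : ℝ) := Real.rpow_nonneg (by linarith) _
  linarith

theorem energy_eq (A : ℝ) (a : ℕ → ℝ) {N : ℕ} (x : Fin N → E3) :
    energy (prof A a) x = (quad (WA A a) x - N * prof A a 0) / 2 := by
  have hsym : ∀ i j : Fin N, prof A a ‖x i - x j‖ = prof A a ‖x j - x i‖ := fun i j => by
    rw [norm_sub_rev]
  have h : quad (WA A a) x = 2 * energy (prof A a) x + N * prof A a 0 := by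
    unfold quad energy WA
    have h1 : ∀ i : Fin N, ∑ j, prof A a ‖x i - x j‖
        = ∑ j ∈ Finset.Ioi i, prof A a ‖x i - x j‖ + ∑ j ∈ Finset.Iio i, prof A a ‖x i - x j‖
          + prof A a 0 := by
      intro i
      have hu : (Finset.univ : Finset (Fin N)) = insert i (Finset.Ioi i ∪ Finset.Iio i) := by
        ext j
        simp only [Finset.mem_univ, Finset.mem_insert, Finset.mem_union, Finset.mem_Ioi,
          Finset.mem_Iio, true_iff]
        rcases lt_trichotomy j i with h | h | h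
        · right; right; exact h
        · left; exact h
        · right; left; exact h
      rw [hu, Finset.sum_insert (by simp), Finset.sum_union]
      · simp; ring
      · rw [Finset.disjoint_left]
        intro j hj hj'
        simp at hj hj'
        exact absurd (hj.trans hj') (lt_irrefl _)
    simp_rw [h1]
    rw [Finset.sum_add_distrib, Finset.sum_add_distrib]
    have h2 : ∑ i : Fin N, ∑ j ∈ Finset.Iio i, prof A a ‖x i - x j‖
        = ∑ i : Fin N, ∑ j ∈ Finset.Ioi i, prof A a ‖x i - x j‖ := by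
      have : ∑ i : Fin N, ∑ j ∈ Finset.Iio i, prof A a ‖x i - x j‖
        = ∑ j : Fin N, ∑ i ∈ Finset.Ioi j, prof A a ‖x i - x j‖ := by
        apply Finset.sum_comm'
        intro i j; simp
      rw [this]
      refine Finset.sum_congr rfl (fun i _ => Finset.sum_congr rfl (fun j _ => hsym _ _))
    rw [h2]; simp; ring
  rw [h]; ring

theorem Xi_eq_GX (A : ℝ) (a : ℕ → ℝ) (z L : ℝ) (hz : 0 < z) :
    Xi (prof A a) 1 z L = GX (box L) (WA A a) (Real.log z + prof A a 0 / 2) := by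
  unfold Xi GX Z
  refine tsum_congr (fun N => ?_)
  rw [← mul_assoc, mul_comm (ENNReal.ofReal (z ^ N)), mul_assoc]
  congr 1
  rw [← lintegral_const_mul' _ _ ENNReal.ofReal_ne_top]
  refine lintegral_congr (fun x => ?_)
  unfold wt
  rw [← ENNReal.ofReal_mul (by positivity)]
  congr 1
  rw [energy_eq, Fintype.card_fin]
  have : z ^ N = Real.exp (Real.log z * N) := by
    rw [Real.exp_mul, Real.exp_log hz, Real.rpow_natCast]
  rw [this, ← Real.exp_add]
  congr 1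
  ring

end Vale.Agent.P171
end
end

section

section

open MeasureTheory Filter Topology
open scoped ENNReal

namespace Vale.Agent.P171

/-! ### Elementary facts on `quad` and `wt` -/

theorem quad_comp_equiv {ι κ : Type} [Fintype ι] [Fintype κ]
    (e : κ ≃ ι) (W : E3 → E3 → ℝ) (x : ι → E3) :
    quad W (fun k => x (e k)) = quad W x := by
  unfold quad
  rw [← e.sum_comp]
  refine Finset.sum_congr rfl fun i _ => ?_
  rw [← e.sum_comp]

theorem wt_comp_equiv {ι κ : Type} [Fintype ι] [Fintype κ]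
    (e : κ ≃ ι) (W : E3 → E3 → ℝ) (ν : ℝ) (x : ι → E3) :
    wt W ν (fun k => x (e k)) = wt W ν x := by
  unfold wt
  rw [quad_comp_equiv, Fintype.card_congr e]

theorem measurable_quad {ι : Type} [Fintype ι] {W : E3 → E3 → ℝ}
    (hW : Measurable (Function.uncurry W)) : Measurable (fun x : ι → E3 => quad W x) := by
  unfold quad
  refine Finset.measurable_sum _ fun i _ => Finset.measurable_sum _ fun j _ => ?_
  have hm : Measurable (fun x : ι → E3 => (x i, x j)) :=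
    (measurable_pi_apply i).prodMk (measurable_pi_apply j)
  exact hW.comp hm

theorem measurable_wt {ι : Type} [Fintype ι] {W : E3 → E3 → ℝ}
    (hW : Measurable (Function.uncurry W)) (ν : ℝ) :
    Measurable (fun x : ι → E3 => wt W ν x) := by
  unfold wt
  exact ENNReal.measurable_ofReal.comp (Real.measurable_exp.comp
    (((measurable_quad hW).div_const 2).const_sub _))

/-- Splitting of the double sum along a subset of indices. -/
theorem quad_split {ι : Type} [Fintype ι] (p : ι → Prop) [DecidablePred p]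
    (W : E3 → E3 → ℝ) (x : ι → E3) :
    quad W x = quad W (fun i : {i // p i} => x i) + quad W (fun i : {i // ¬ p i} => x i)
      + ∑ i : {i // p i}, ∑ j : {j // ¬ p j}, (W (x i) (x j) + W (x j) (x i)) := by
  unfold quad
  rw [← Fintype.sum_subtype_add_sum_subtype p]
  have h1 : ∀ i : ι, ∑ j, W (x i) (x j) = ∑ j : {j // p j}, W (x i) (x j)
      + ∑ j : {j // ¬ p j}, W (x i) (x j) := fun i => (Fintype.sum_subtype_add_sum_subtype p _).symm
  simp only [h1, Finset.sum_add_distrib]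
  rw [Finset.sum_comm (s := (Finset.univ : Finset {j // ¬ p j}))
    (t := (Finset.univ : Finset {j // p j}))]
  ring

theorem wt_split_le {ι : Type} [Fintype ι] (p : ι → Prop) [DecidablePred p]
    (W : E3 → E3 → ℝ) (ν : ℝ) (x : ι → E3)
    (h : ∀ i j, p i → ¬ p j → 0 ≤ W (x i) (x j) + W (x j) (x i)) :
    wt W ν x ≤ wt W ν (fun i : {i // p i} => x i) * wt W ν (fun i : {i // ¬ p i} => x i) := by
  unfold wt
  rw [← ENNReal.ofReal_mul (Real.exp_pos _).le, ← Real.exp_add]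
  apply ENNReal.ofReal_le_ofReal
  apply Real.exp_le_exp.2
  have h1 : (Fintype.card ι : ℝ) = (Fintype.card {i // p i} : ℝ) + (Fintype.card {i // ¬ p i} : ℝ) := by
    rw [← Nat.cast_add, Fintype.card_subtype_compl, Nat.add_sub_cancel' (Fintype.card_subtype_le p)]
  have h2 := quad_split p W x
  have h3 : 0 ≤ ∑ i : {i // p i}, ∑ j : {j // ¬ p j}, (W (x i) (x j) + W (x j) (x i)) :=
    Finset.sum_nonneg fun i _ => Finset.sum_nonneg fun j _ => h _ _ i.2 j.2
  rw [h1]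
  linarith

theorem wt_split_ge {ι : Type} [Fintype ι] (p : ι → Prop) [DecidablePred p]
    (W : E3 → E3 → ℝ) (ν : ℝ) (x : ι → E3)
    (h : ∀ i j, p i → ¬ p j → W (x i) (x j) + W (x j) (x i) ≤ 0) :
    wt W ν (fun i : {i // p i} => x i) * wt W ν (fun i : {i // ¬ p i} => x i) ≤ wt W ν x := by
  unfold wt
  rw [← ENNReal.ofReal_mul (Real.exp_pos _).le, ← Real.exp_add]
  apply ENNReal.ofReal_le_ofReal
  apply Real.exp_le_exp.2
  have h1 : (Fintype.card ι : ℝ) = (Fintype.card {i // p i} : ℝ) + (Fintype.card {i // ¬ p i} : ℝ) := by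
    rw [← Nat.cast_add, Fintype.card_subtype_compl, Nat.add_sub_cancel' (Fintype.card_subtype_le p)]
  have h2 := quad_split p W x
  have h3 : ∑ i : {i // p i}, ∑ j : {j // ¬ p j}, (W (x i) (x j) + W (x j) (x i)) ≤ 0 :=
    Finset.sum_nonpos fun i _ => Finset.sum_nonpos fun j _ => h _ _ i.2 j.2
  rw [h1]
  linarith

/-! ### Canonical integrals with general label types -/

/-- Unnormalised canonical partition function with labels `ι`. -/
noncomputable def Zn (ι : Type) [Fintype ι] (Λ : Set E3) (W : E3 → E3 → ℝ) (ν : ℝ) : ℝ≥0∞ :=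
  ∫⁻ x in {x : ι → E3 | ∀ i, x i ∈ Λ}, wt W ν x

theorem GX_eq_tsum_Zn (Λ : Set E3) (W : E3 → E3 → ℝ) (ν : ℝ) :
    GX Λ W ν = ∑' N : ℕ, (N.factorial : ℝ≥0∞)⁻¹ * Zn (Fin N) Λ W ν := rfl

theorem Zn_congr {ι κ : Type} [Fintype ι] [Fintype κ]
    (e : κ ≃ ι) (Λ : Set E3) (W : E3 → E3 → ℝ) (ν : ℝ) :
    Zn κ Λ W ν = Zn ι Λ W ν := by
  unfold Zn
  have h := (volume_measurePreserving_piCongrLeft (fun _ : ι => E3) e)
  have h2 := h.setLIntegral_comp_preimage_emb
    (MeasurableEquiv.piCongrLeft (fun _ : ι => E3) e).measurableEmbedding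
    (fun x => wt W ν x) {x : ι → E3 | ∀ i, x i ∈ Λ}
  rw [← h2]
  have hx : ∀ (x : κ → E3) (k : κ),
      (MeasurableEquiv.piCongrLeft (fun _ : ι => E3) e) x (e k) = x k := by
    intro x k
    simp [MeasurableEquiv.coe_piCongrLeft]
  have hset : {x : κ → E3 | ∀ i, x i ∈ Λ}
      = (MeasurableEquiv.piCongrLeft (fun _ : ι => E3) e) ⁻¹' {x : ι → E3 | ∀ i, x i ∈ Λ} := by
    ext x
    simp only [Set.mem_ofPred_eq, Set.mem_preimage]
    constructor
    · intro h i
      obtain ⟨k, rfl⟩ := e.surjective i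
      rw [hx]
      exact h k
    · intro h k
      rw [← hx x k]
      exact h (e k)
  rw [hset]
  refine lintegral_congr fun x => ?_
  rw [← wt_comp_equiv e]
  congr 1
  funext k
  exact (hx x k).symm

theorem Zn_card {ι κ : Type} [Fintype ι] [Fintype κ]
    (h : Fintype.card κ = Fintype.card ι) (Λ : Set E3) (W : E3 → E3 → ℝ) (ν : ℝ) :
    Zn κ Λ W ν = Zn ι Λ W ν :=
  Zn_congr (Fintype.equivOfCardEq h) Λ W ν

theorem measurableSet_all {ι : Type} [Fintype ι] {Λ : Set E3} (h : MeasurableSet Λ) :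
    MeasurableSet {x : ι → E3 | ∀ i, x i ∈ Λ} := by
  have : {x : ι → E3 | ∀ i, x i ∈ Λ} = ⋂ i, {x | x i ∈ Λ} := by ext x; simp
  rw [this]
  exact MeasurableSet.iInter fun i => (measurable_pi_apply i) h

/-- Product structure of the integral over `A` for the labels in `p` and `B` for the others. -/
theorem setLIntegral_split {ι : Type} [Fintype ι] (p : ι → Prop) [DecidablePred p]
    {A B : Set E3} (hA : MeasurableSet A) (hB : MeasurableSet B)
    {f : ({i // p i} → E3) → ℝ≥0∞} {g : ({i // ¬ p i} → E3) → ℝ≥0∞}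
    (hf : Measurable f) (hg : Measurable g) :
    ∫⁻ x in {x : ι → E3 | (∀ i : {i // p i}, x i ∈ A) ∧ ∀ i : {i // ¬ p i}, x i ∈ B},
        f (fun i => x i) * g (fun i => x i)
      = (∫⁻ y in {y : {i // p i} → E3 | ∀ i, y i ∈ A}, f y) *
        (∫⁻ z in {z : {i // ¬ p i} → E3 | ∀ i, z i ∈ B}, g z) := by
  have hmS : MeasurableSet {y : {i // p i} → E3 | ∀ i, y i ∈ A} := measurableSet_all hA
  have hmC : MeasurableSet {z : {i // ¬ p i} → E3 | ∀ i, z i ∈ B} := measurableSet_all hB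
  have he := volume_preserving_piEquivPiSubtypeProd (fun _ : ι => E3) p
  have h1 := he.setLIntegral_comp_preimage_emb (MeasurableEquiv.measurableEmbedding _)
    (fun q : ({i // p i} → E3) × ({i // ¬ p i} → E3) => f q.1 * g q.2)
    ({y : {i // p i} → E3 | ∀ i, y i ∈ A} ×ˢ {z : {i // ¬ p i} → E3 | ∀ i, z i ∈ B})
  have h2 : ∫⁻ q in ({y : {i // p i} → E3 | ∀ i, y i ∈ A} ×ˢ
      {z : {i // ¬ p i} → E3 | ∀ i, z i ∈ B}), f q.1 * g q.2
      = (∫⁻ y in {y : {i // p i} → E3 | ∀ i, y i ∈ A}, f y) *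
        (∫⁻ z in {z : {i // ¬ p i} → E3 | ∀ i, z i ∈ B}, g z) := by
    rw [Measure.volume_eq_prod, ← Measure.prod_restrict]
    exact lintegral_prod_mul hf.aemeasurable hg.aemeasurable
  rw [← h2, ← h1]
  rfl

/-- Zone set for the label set `S`. -/
def zone {ι : Type} (Λ₁ Λ₂ : Set E3) (p : ι → Prop) : Set (ι → E3) :=
  {x : ι → E3 | (∀ i : {i // p i}, x i ∈ Λ₁) ∧ ∀ i : {i // ¬ p i}, x i ∈ Λ₂}

theorem measurableSet_zone {ι : Type} [Fintype ι] {Λ₁ Λ₂ : Set E3} (h₁ : MeasurableSet Λ₁)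
    (h₂ : MeasurableSet Λ₂) (p : ι → Prop) : MeasurableSet (zone Λ₁ Λ₂ p) := by
  classical
  unfold zone
  have e1 : {x : ι → E3 | (∀ i : {i // p i}, x i ∈ Λ₁) ∧ ∀ i : {i // ¬ p i}, x i ∈ Λ₂}
      = (⋂ i : {i // p i}, {x : ι → E3 | x i ∈ Λ₁}) ∩ (⋂ i : {i // ¬ p i}, {x : ι → E3 | x i ∈ Λ₂}) := by
    ext x
    simp
  rw [e1]
  exact (MeasurableSet.iInter fun i : {i // p i} => (measurable_pi_apply i.1) h₁).inter
    (MeasurableSet.iInter fun i : {i // ¬ p i} => (measurable_pi_apply i.1) h₂)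

theorem lintegral_union_eq_sum {ι : Type} [Fintype ι] [DecidableEq ι] {Λ₁ Λ₂ : Set E3}
    (h₁ : MeasurableSet Λ₁) (h₂ : MeasurableSet Λ₂) (hd : Disjoint Λ₁ Λ₂)
    (f : (ι → E3) → ℝ≥0∞) :
    ∫⁻ x in {x : ι → E3 | ∀ i, x i ∈ Λ₁ ∪ Λ₂}, f x
      = ∑ S : Finset ι, ∫⁻ x in zone Λ₁ Λ₂ (fun i => i ∈ S), f x := by
  classical
  have hset : {x : ι → E3 | ∀ i, x i ∈ Λ₁ ∪ Λ₂}
      = ⋃ S ∈ (Finset.univ : Finset (Finset ι)), zone Λ₁ Λ₂ (fun i => i ∈ S) := by
    ext x
    simp only [Set.mem_iUnion, Finset.mem_univ, exists_true_left]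
    constructor
    · intro h
      refine ⟨Finset.univ.filter fun i => x i ∈ Λ₁, ?_, ?_⟩
      · rintro ⟨i, hi⟩
        simpa using hi
      · rintro ⟨i, hi⟩
        have h3 : x i ∉ Λ₁ := by simpa using hi
        exact (h i).resolve_left h3
    · rintro ⟨S, hS1, hS2⟩ i
      by_cases hi : i ∈ S
      · exact Or.inl (hS1 ⟨i, hi⟩)
      · exact Or.inr (hS2 ⟨i, hi⟩)
  rw [hset, lintegral_biUnion_finset]
  · intro S _ T _ hST
    rw [Function.onFun, Set.disjoint_left]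
    rintro x ⟨hS1, hS2⟩ ⟨hT1, hT2⟩
    apply hST
    ext i
    constructor
    · intro hi
      by_contra hiT
      exact Set.disjoint_left.1 hd (hS1 ⟨i, hi⟩) (hT2 ⟨i, hiT⟩)
    · intro hi
      by_contra hiS
      exact Set.disjoint_left.1 hd (hT1 ⟨i, hi⟩) (hS2 ⟨i, hiS⟩)
  · intro S _
    exact measurableSet_zone h₁ h₂ _

theorem zone_le {ι : Type} [Fintype ι] {Λ₁ Λ₂ : Set E3}
    (h₁ : MeasurableSet Λ₁) (h₂ : MeasurableSet Λ₂)
    {W : E3 → E3 → ℝ} (hW : Measurable (Function.uncurry W)) (ν : ℝ)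
    (hpos : ∀ x ∈ Λ₁, ∀ y ∈ Λ₂, 0 ≤ W x y + W y x) (p : ι → Prop) [DecidablePred p] :
    ∫⁻ x in zone Λ₁ Λ₂ p, wt W ν x ≤ Zn {i // p i} Λ₁ W ν * Zn {i // ¬ p i} Λ₂ W ν := by
  unfold Zn
  rw [← setLIntegral_split p h₁ h₂ (measurable_wt hW ν) (measurable_wt hW ν)]
  refine setLIntegral_mono' (measurableSet_zone h₁ h₂ _) fun x hx => ?_
  exact wt_split_le p W ν x fun i j hi hj => hpos _ (hx.1 ⟨i, hi⟩) _ (hx.2 ⟨j, hj⟩)

theorem zone_ge {ι : Type} [Fintype ι] {Λ₁ Λ₂ : Set E3}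
    (h₁ : MeasurableSet Λ₁) (h₂ : MeasurableSet Λ₂)
    {W : E3 → E3 → ℝ} (hW : Measurable (Function.uncurry W)) (ν : ℝ)
    (hneg : ∀ x ∈ Λ₁, ∀ y ∈ Λ₂, W x y + W y x ≤ 0) (p : ι → Prop) [DecidablePred p] :
    Zn {i // p i} Λ₁ W ν * Zn {i // ¬ p i} Λ₂ W ν ≤ ∫⁻ x in zone Λ₁ Λ₂ p, wt W ν x := by
  unfold Zn
  rw [← setLIntegral_split p h₁ h₂ (measurable_wt hW ν) (measurable_wt hW ν)]
  refine setLIntegral_mono' (measurableSet_zone h₁ h₂ _) fun x hx => ?_
  exact wt_split_ge p W ν x fun i j hi hj => hneg _ (hx.1 ⟨i, hi⟩) _ (hx.2 ⟨j, hj⟩)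

theorem Zn_mem {ι : Type} (S : Finset ι) (inst : Fintype {i // i ∈ S})
    (Λ : Set E3) (W : E3 → E3 → ℝ) (ν : ℝ) :
    @Zn {i // i ∈ S} inst Λ W ν = Zn (Fin S.card) Λ W ν := by
  refine @Zn_card _ _ _ inst ?_ Λ W ν
  rw [Fintype.card_fin]
  exact Fintype.card_of_subtype S fun _ => Iff.rfl

theorem Zn_not_mem {ι : Type} [Fintype ι] [DecidableEq ι] (S : Finset ι)
    (inst : Fintype {i // ¬ i ∈ S}) (Λ : Set E3) (W : E3 → E3 → ℝ) (ν : ℝ) :
    @Zn {i // ¬ i ∈ S} inst Λ W ν = Zn (Fin (Fintype.card ι - S.card)) Λ W ν := by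
  refine @Zn_card _ _ _ inst ?_ Λ W ν
  rw [Fintype.card_fin, Fintype.card_of_subtype Sᶜ fun _ => Finset.mem_compl, Finset.card_compl]

theorem Zn_union_le {ι : Type} [Fintype ι] [DecidableEq ι] {Λ₁ Λ₂ : Set E3}
    (h₁ : MeasurableSet Λ₁) (h₂ : MeasurableSet Λ₂) (hd : Disjoint Λ₁ Λ₂)
    {W : E3 → E3 → ℝ} (hW : Measurable (Function.uncurry W)) (ν : ℝ)
    (hpos : ∀ x ∈ Λ₁, ∀ y ∈ Λ₂, 0 ≤ W x y + W y x) :
    Zn ι (Λ₁ ∪ Λ₂) W ν ≤ ∑ S : Finset ι, Zn (Fin S.card) Λ₁ W ν *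
      Zn (Fin (Fintype.card ι - S.card)) Λ₂ W ν := by
  have h0 : Zn ι (Λ₁ ∪ Λ₂) W ν = _ := lintegral_union_eq_sum h₁ h₂ hd _
  rw [h0]
  refine Finset.sum_le_sum fun S _ => ?_
  refine (zone_le h₁ h₂ hW ν hpos (fun i => i ∈ S)).trans (le_of_eq ?_)
  exact congrArg₂ _ (Zn_mem S _ Λ₁ W ν) (Zn_not_mem S _ Λ₂ W ν)

theorem Zn_union_ge {ι : Type} [Fintype ι] [DecidableEq ι] {Λ₁ Λ₂ : Set E3}
    (h₁ : MeasurableSet Λ₁) (h₂ : MeasurableSet Λ₂) (hd : Disjoint Λ₁ Λ₂)
    {W : E3 → E3 → ℝ} (hW : Measurable (Function.uncurry W)) (ν : ℝ)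
    (hneg : ∀ x ∈ Λ₁, ∀ y ∈ Λ₂, W x y + W y x ≤ 0) :
    ∑ S : Finset ι, Zn (Fin S.card) Λ₁ W ν *
      Zn (Fin (Fintype.card ι - S.card)) Λ₂ W ν ≤ Zn ι (Λ₁ ∪ Λ₂) W ν := by
  have h0 : Zn ι (Λ₁ ∪ Λ₂) W ν = _ := lintegral_union_eq_sum h₁ h₂ hd _
  rw [h0]
  refine Finset.sum_le_sum fun S _ => ?_
  refine le_trans (le_of_eq ?_) (zone_ge h₁ h₂ hW ν hneg (fun i => i ∈ S))
  exact (congrArg₂ _ (Zn_mem S _ Λ₁ W ν) (Zn_not_mem S _ Λ₂ W ν)).symm

/-! ### Grand canonical products -/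

theorem inv_factorial_mul_sum (a b : ℕ → ℝ≥0∞) (N : ℕ) :
    (N.factorial : ℝ≥0∞)⁻¹ * ∑ S : Finset (Fin N), a S.card * b (N - S.card)
      = ∑ p ∈ Finset.HasAntidiagonal.antidiagonal N, ((p.1.factorial : ℝ≥0∞)⁻¹ * a p.1) *
          ((p.2.factorial : ℝ≥0∞)⁻¹ * b p.2) := by
  have h1 : ∑ S : Finset (Fin N), a S.card * b (N - S.card)
      = ∑ k ∈ Finset.range (N + 1), (N.choose k) • (a k * b (N - k)) := by
    have := Finset.sum_powerset_apply_card (fun k => a k * b (N - k)) (x := (Finset.univ : Finset (Fin N)))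
    simpa using this
  rw [h1, Finset.mul_sum, Finset.Nat.sum_antidiagonal_eq_sum_range_succ_mk]
  refine Finset.sum_congr rfl fun k hk => ?_
  have hk' : k ≤ N := Nat.lt_succ_iff.1 (Finset.mem_range.1 hk)
  have hc : (N.factorial : ℝ≥0∞) = (N.choose k : ℝ≥0∞) * (k.factorial : ℝ≥0∞) * ((N - k).factorial : ℝ≥0∞) := by
    rw [← Nat.cast_mul, ← Nat.cast_mul, Nat.choose_mul_factorial_mul_factorial hk']
  have hk0 : (k.factorial : ℝ≥0∞) ≠ 0 := by exact_mod_cast k.factorial_ne_zero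
  have hk1 : (k.factorial : ℝ≥0∞) ≠ ⊤ := ENNReal.natCast_ne_top _
  have hn0 : ((N - k).factorial : ℝ≥0∞) ≠ 0 := by exact_mod_cast (N - k).factorial_ne_zero
  have hn1 : ((N - k).factorial : ℝ≥0∞) ≠ ⊤ := ENNReal.natCast_ne_top _
  have hch0 : (N.choose k : ℝ≥0∞) ≠ 0 := by exact_mod_cast (Nat.choose_pos hk').ne'
  have hch1 : (N.choose k : ℝ≥0∞) ≠ ⊤ := ENNReal.natCast_ne_top _
  have hinv : (N.factorial : ℝ≥0∞)⁻¹ * (N.choose k : ℝ≥0∞)
      = (k.factorial : ℝ≥0∞)⁻¹ * ((N - k).factorial : ℝ≥0∞)⁻¹ := by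
    rw [hc, ENNReal.mul_inv (Or.inr hn1) (Or.inr hn0), ENNReal.mul_inv (Or.inr hk1) (Or.inr hk0)]
    calc _ = ((N.choose k : ℝ≥0∞)⁻¹ * (N.choose k : ℝ≥0∞)) * ((k.factorial : ℝ≥0∞)⁻¹ *
          ((N - k).factorial : ℝ≥0∞)⁻¹) := by ring
      _ = _ := by rw [ENNReal.inv_mul_cancel hch0 hch1, one_mul]
  rw [nsmul_eq_mul, ← mul_assoc, hinv]
  ring

theorem tsum_mul_tsum_antidiagonal (a b : ℕ → ℝ≥0∞) :
    (∑' n, a n) * (∑' n, b n) = ∑' N, ∑ p ∈ Finset.HasAntidiagonal.antidiagonal N, a p.1 * b p.2 := by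
  rw [← ENNReal.tsum_mul_right]
  simp_rw [← ENNReal.tsum_mul_left]
  rw [← ENNReal.tsum_prod (f := fun i j => a i * b j),
    ← Finset.HasAntidiagonal.sigmaAntidiagonalEquivProd.tsum_eq, ENNReal.tsum_sigma']
  refine tsum_congr fun N => ?_
  rw [tsum_fintype]
  exact Finset.sum_coe_sort (Finset.HasAntidiagonal.antidiagonal N) (fun p => a p.1 * b p.2)

theorem GX_union_le' {Λ₁ Λ₂ : Set E3} (h₁ : MeasurableSet Λ₁) (h₂ : MeasurableSet Λ₂)
    (hd : Disjoint Λ₁ Λ₂) {W : E3 → E3 → ℝ} (hW : Measurable (Function.uncurry W)) (ν : ℝ)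
    (hpos : ∀ x ∈ Λ₁, ∀ y ∈ Λ₂, 0 ≤ W x y + W y x) :
    GX (Λ₁ ∪ Λ₂) W ν ≤ GX Λ₁ W ν * GX Λ₂ W ν := by
  rw [GX_eq_tsum_Zn Λ₁, GX_eq_tsum_Zn Λ₂, GX_eq_tsum_Zn (Λ₁ ∪ Λ₂), tsum_mul_tsum_antidiagonal]
  refine ENNReal.tsum_le_tsum fun N => ?_
  rw [← inv_factorial_mul_sum (fun k => Zn (Fin k) Λ₁ W ν) (fun k => Zn (Fin k) Λ₂ W ν)]
  gcongr
  have := Zn_union_le (ι := Fin N) h₁ h₂ hd hW ν hpos
  rw [Fintype.card_fin] at this
  exact this

theorem GX_le_union' {Λ₁ Λ₂ : Set E3} (h₁ : MeasurableSet Λ₁) (h₂ : MeasurableSet Λ₂)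
    (hd : Disjoint Λ₁ Λ₂) {W : E3 → E3 → ℝ} (hW : Measurable (Function.uncurry W)) (ν : ℝ)
    (hneg : ∀ x ∈ Λ₁, ∀ y ∈ Λ₂, W x y + W y x ≤ 0) :
    GX Λ₁ W ν * GX Λ₂ W ν ≤ GX (Λ₁ ∪ Λ₂) W ν := by
  rw [GX_eq_tsum_Zn Λ₁, GX_eq_tsum_Zn Λ₂, GX_eq_tsum_Zn (Λ₁ ∪ Λ₂), tsum_mul_tsum_antidiagonal]
  refine ENNReal.tsum_le_tsum fun N => ?_
  rw [← inv_factorial_mul_sum (fun k => Zn (Fin k) Λ₁ W ν) (fun k => Zn (Fin k) Λ₂ W ν)]
  gcongr
  have := Zn_union_ge (ι := Fin N) h₁ h₂ hd hW ν hneg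
  rw [Fintype.card_fin] at this
  exact this

/-! ### The statements of the skeleton -/

theorem GX_mono_set {Λ Λ' : Set E3} (h : Λ ⊆ Λ') (W : E3 → E3 → ℝ) (ν : ℝ) :
    GX Λ W ν ≤ GX Λ' W ν := by
  unfold GX
  refine ENNReal.tsum_le_tsum fun N => mul_le_mul' le_rfl ?_
  exact lintegral_mono_set fun x hx i => h (hx i)

theorem one_le_GX (Λ : Set E3) (W : E3 → E3 → ℝ) (ν : ℝ) : 1 ≤ GX Λ W ν := by
  unfold GX
  refine le_trans (le_of_eq ?_) (ENNReal.le_tsum 0)
  have h1 : {x : Fin 0 → E3 | ∀ i, x i ∈ Λ} = Set.univ := by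
    ext x
    simp
  have h2 : ∀ x : Fin 0 → E3, wt W ν x = 1 := by
    intro x
    unfold wt quad
    simp
  simp only [h1, h2]
  simp [volume_pi]

/-- comparison of exponents, configuration by configuration -/
theorem GX_mono {Λ : Set E3} (hΛ : MeasurableSet Λ) {W W' : E3 → E3 → ℝ} {ν ν' : ℝ}
    (h : ∀ (N : ℕ) (x : Fin N → E3), (∀ i, x i ∈ Λ) →
      ν * N - quad W x / 2 ≤ ν' * N - quad W' x / 2) :
    GX Λ W ν ≤ GX Λ W' ν' := by
  unfold GX
  refine ENNReal.tsum_le_tsum fun N => mul_le_mul' le_rfl ?_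
  refine setLIntegral_mono' (measurableSet_all hΛ) fun x hx => ?_
  unfold wt
  apply ENNReal.ofReal_le_ofReal
  apply Real.exp_le_exp.2
  simpa using h N x hx

theorem volume_all {N : ℕ} (Λ : Set E3) :
    volume {x : Fin N → E3 | ∀ i, x i ∈ Λ} = volume Λ ^ N := by
  have : {x : Fin N → E3 | ∀ i, x i ∈ Λ} = Set.univ.pi fun _ => Λ := by
    ext x
    simp
  rw [this, volume_pi_pi]
  simp

theorem tsum_inv_factorial_mul_pow {V : ℝ} (hV : 0 ≤ V) :
    ∑' N : ℕ, (N.factorial : ℝ≥0∞)⁻¹ * ENNReal.ofReal V ^ N = ENNReal.ofReal (Real.exp V) := by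
  have h1 : ∀ N : ℕ, (N.factorial : ℝ≥0∞)⁻¹ * ENNReal.ofReal V ^ N
      = ENNReal.ofReal (V ^ N / N.factorial) := by
    intro N
    rw [div_eq_inv_mul, ENNReal.ofReal_mul (by positivity), ENNReal.ofReal_pow hV,
      ENNReal.ofReal_inv_of_pos (by exact_mod_cast N.factorial_pos), ENNReal.ofReal_natCast]
  simp_rw [h1]
  rw [← ENNReal.ofReal_tsum_of_nonneg (fun N => by positivity) (Real.summable_pow_div_factorial V)]
  congr 1
  rw [Real.exp_eq_exp_ℝ, NormedSpace.exp_eq_tsum_div]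

/-- general upper bound: exponent `≤ C` everywhere gives `GX ≤ exp (C + vol Λ)` -/
theorem GX_le_exp {Λ : Set E3} (hΛ : MeasurableSet Λ) {W : E3 → E3 → ℝ} {ν C V : ℝ}
    (hV0 : 0 ≤ V) (hV : volume Λ ≤ ENNReal.ofReal V)
    (h : ∀ (N : ℕ) (x : Fin N → E3), (∀ i, x i ∈ Λ) → ν * N - quad W x / 2 ≤ C) :
    GX Λ W ν ≤ ENNReal.ofReal (Real.exp (C + V)) := by
  rw [Real.exp_add, ENNReal.ofReal_mul (Real.exp_pos _).le, ← tsum_inv_factorial_mul_pow hV0,
    ← ENNReal.tsum_mul_left]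
  unfold GX
  refine ENNReal.tsum_le_tsum fun N => ?_
  calc (N.factorial : ℝ≥0∞)⁻¹ * ∫⁻ x in {x : Fin N → E3 | ∀ i, x i ∈ Λ}, wt W ν x
      ≤ (N.factorial : ℝ≥0∞)⁻¹ * ∫⁻ x in {x : Fin N → E3 | ∀ i, x i ∈ Λ},
          ENNReal.ofReal (Real.exp C) := by
        refine mul_le_mul' le_rfl ?_
        refine setLIntegral_mono' (measurableSet_all hΛ) fun x hx => ?_
        unfold wt
        apply ENNReal.ofReal_le_ofReal
        apply Real.exp_le_exp.2
        simpa using h N x hx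
    _ = (N.factorial : ℝ≥0∞)⁻¹ * (ENNReal.ofReal (Real.exp C) * volume Λ ^ N) := by
        rw [setLIntegral_const, volume_all]
    _ ≤ (N.factorial : ℝ≥0∞)⁻¹ * (ENNReal.ofReal (Real.exp C) * ENNReal.ofReal V ^ N) := by
        gcongr
    _ = _ := by ring

theorem GX_union_le {Λ₁ Λ₂ : Set E3} (h₁ : MeasurableSet Λ₁) (h₂ : MeasurableSet Λ₂)
    (hd : Disjoint Λ₁ Λ₂) {W : E3 → E3 → ℝ} (hW : Measurable (Function.uncurry W))
    (hs : ∀ x y, W x y = W y x) (ν : ℝ)
    (hpos : ∀ x ∈ Λ₁, ∀ y ∈ Λ₂, 0 ≤ W x y) :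
    GX (Λ₁ ∪ Λ₂) W ν ≤ GX Λ₁ W ν * GX Λ₂ W ν :=
  GX_union_le' h₁ h₂ hd hW ν fun x hx y hy => by
    rw [hs y x]; have := hpos x hx y hy; linarith

theorem GX_le_union {Λ₁ Λ₂ : Set E3} (h₁ : MeasurableSet Λ₁) (h₂ : MeasurableSet Λ₂)
    (hd : Disjoint Λ₁ Λ₂) {W : E3 → E3 → ℝ} (hW : Measurable (Function.uncurry W))
    (hs : ∀ x y, W x y = W y x) (ν : ℝ)
    (hneg : ∀ x ∈ Λ₁, ∀ y ∈ Λ₂, W x y ≤ 0) :
    GX Λ₁ W ν * GX Λ₂ W ν ≤ GX (Λ₁ ∪ Λ₂) W ν :=
  GX_le_union' h₁ h₂ hd hW ν fun x hx y hy => by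
    rw [hs y x]; have := hneg x hx y hy; linarith

theorem GX_empty (W : E3 → E3 → ℝ) (ν : ℝ) : GX ∅ W ν = 1 := by
  unfold GX
  rw [tsum_eq_single 0]
  · have h1 : {x : Fin 0 → E3 | ∀ i, x i ∈ (∅ : Set E3)} = Set.univ := by
      ext x
      simp
    have h2 : ∀ x : Fin 0 → E3, wt W ν x = 1 := by
      intro x
      unfold wt quad
      simp
    simp only [h1, h2]
    simp [volume_pi]
  · intro N hN
    have h1 : {x : Fin N → E3 | ∀ i, x i ∈ (∅ : Set E3)} = ∅ := by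
      ext x
      simp only [Set.mem_empty_iff_false, Set.mem_ofPred_eq, iff_false, not_forall]
      exact ⟨⟨0, Nat.pos_of_ne_zero hN⟩, fun h => h⟩
    rw [h1, Measure.restrict_empty, lintegral_zero_measure, mul_zero]

theorem GX_biUnion_le {κ : Type} (s : Finset κ) {Λ : κ → Set E3}
    (hm : ∀ i ∈ s, MeasurableSet (Λ i))
    (hd : ∀ i ∈ s, ∀ j ∈ s, i ≠ j → Disjoint (Λ i) (Λ j))
    {W : E3 → E3 → ℝ} (hW : Measurable (Function.uncurry W))
    (hs : ∀ x y, W x y = W y x) (ν : ℝ)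
    (hpos : ∀ i ∈ s, ∀ j ∈ s, i ≠ j → ∀ x ∈ Λ i, ∀ y ∈ Λ j, 0 ≤ W x y) :
    GX (⋃ i ∈ s, Λ i) W ν ≤ ∏ i ∈ s, GX (Λ i) W ν := by
  classical
  induction s using Finset.induction with
  | empty => simp [GX_empty]
  | insert a s ha ih =>
    rw [Finset.prod_insert ha, Finset.set_biUnion_insert]
    have hne : ∀ j ∈ s, a ≠ j := fun j hj h => ha (h ▸ hj)
    refine (GX_union_le (hm a (Finset.mem_insert_self a s))
      (s.measurableSet_biUnion fun i hi => hm i (Finset.mem_insert_of_mem hi)) ?_ hW hs ν ?_).trans ?_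
    · rw [Set.disjoint_iUnion₂_right]
      intro j hj
      exact hd a (Finset.mem_insert_self a s) j (Finset.mem_insert_of_mem hj) (hne j hj)
    · intro x hx y hy
      rw [Set.mem_iUnion₂] at hy
      obtain ⟨j, hj, hy⟩ := hy
      exact hpos a (Finset.mem_insert_self a s) j (Finset.mem_insert_of_mem hj) (hne j hj) x hx y hy
    · gcongr
      exact ih (fun i hi => hm i (Finset.mem_insert_of_mem hi))
        (fun i hi j hj => hd i (Finset.mem_insert_of_mem hi) j (Finset.mem_insert_of_mem hj))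
        (fun i hi j hj => hpos i (Finset.mem_insert_of_mem hi) j (Finset.mem_insert_of_mem hj))

theorem GX_le_biUnion {κ : Type} (s : Finset κ) {Λ : κ → Set E3}
    (hm : ∀ i ∈ s, MeasurableSet (Λ i))
    (hd : ∀ i ∈ s, ∀ j ∈ s, i ≠ j → Disjoint (Λ i) (Λ j))
    {W : E3 → E3 → ℝ} (hW : Measurable (Function.uncurry W))
    (hs : ∀ x y, W x y = W y x) (ν : ℝ)
    (hneg : ∀ i ∈ s, ∀ j ∈ s, i ≠ j → ∀ x ∈ Λ i, ∀ y ∈ Λ j, W x y ≤ 0) :
    ∏ i ∈ s, GX (Λ i) W ν ≤ GX (⋃ i ∈ s, Λ i) W ν := by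
  classical
  induction s using Finset.induction with
  | empty => simp [GX_empty]
  | insert a s ha ih =>
    rw [Finset.prod_insert ha, Finset.set_biUnion_insert]
    have hne : ∀ j ∈ s, a ≠ j := fun j hj h => ha (h ▸ hj)
    refine le_trans ?_ (GX_le_union (hm a (Finset.mem_insert_self a s))
      (s.measurableSet_biUnion fun i hi => hm i (Finset.mem_insert_of_mem hi)) ?_ hW hs ν ?_)
    · gcongr
      exact ih (fun i hi => hm i (Finset.mem_insert_of_mem hi))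
        (fun i hi j hj => hd i (Finset.mem_insert_of_mem hi) j (Finset.mem_insert_of_mem hj))
        (fun i hi j hj => hneg i (Finset.mem_insert_of_mem hi) j (Finset.mem_insert_of_mem hj))
    · rw [Set.disjoint_iUnion₂_right]
      intro j hj
      exact hd a (Finset.mem_insert_self a s) j (Finset.mem_insert_of_mem hj) (hne j hj)
    · intro x hx y hy
      rw [Set.mem_iUnion₂] at hy
      obtain ⟨j, hj, hy⟩ := hy
      exact hneg a (Finset.mem_insert_self a s) j (Finset.mem_insert_of_mem hj) (hne j hj) x hx y hy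

theorem GX_translate {Λ : Set E3} (v : E3) {W : E3 → E3 → ℝ}
    (hW : ∀ x y, W (x + v) (y + v) = W x y) (ν : ℝ) :
    GX ((fun x => x + v) '' Λ) W ν = GX Λ W ν := by
  unfold GX
  refine tsum_congr fun N => ?_
  congr 1
  have hmp : MeasurePreserving (fun x : Fin N → E3 => x + fun _ => v) volume volume :=
    measurePreserving_add_right volume _
  have hemb : MeasurableEmbedding (fun x : Fin N → E3 => x + fun _ => v) :=
    (MeasurableEquiv.addRight (fun _ : Fin N => v)).measurableEmbedding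
  have h1 := hmp.setLIntegral_comp_preimage_emb hemb (fun x => wt W ν x)
    {x : Fin N → E3 | ∀ i, x i ∈ (fun x => x + v) '' Λ}
  rw [← h1]
  have hset : (fun x : Fin N → E3 => x + fun _ => v) ⁻¹'
      {x : Fin N → E3 | ∀ i, x i ∈ (fun x => x + v) '' Λ} = {x : Fin N → E3 | ∀ i, x i ∈ Λ} := by
    ext x
    simp
  rw [hset]
  refine lintegral_congr fun x => ?_
  unfold wt quad
  simp [hW]

/-! ### Hoelder, Jensen, Laplace -/

theorem tsum_mul_rpow_le (a b : ℕ → ℝ≥0∞) {s : ℝ} (h0 : 0 ≤ s) (h1 : s ≤ 1) :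
    ∑' n, a n ^ (1 - s) * b n ^ s ≤ (∑' n, a n) ^ (1 - s) * (∑' n, b n) ^ s := by
  have := ENNReal.lintegral_mul_norm_pow_le (μ := Measure.count (α := ℕ)) (f := a) (g := b)
    (measurable_of_countable _).aemeasurable (measurable_of_countable _).aemeasurable
    (sub_nonneg.2 h1) h0 (by ring)
  simpa [lintegral_count] using this

/-- Hoelder: log-convexity in `(W, ν)` -/
theorem GX_holder {Λ : Set E3} (hΛ : MeasurableSet Λ) {W W' : E3 → E3 → ℝ}
    (hW : Measurable (Function.uncurry W)) (hW' : Measurable (Function.uncurry W'))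
    (ν ν' : ℝ) {s : ℝ} (h0 : 0 ≤ s) (h1 : s ≤ 1) :
    GX Λ (fun x y => (1 - s) * W x y + s * W' x y) ((1 - s) * ν + s * ν') ≤
      (GX Λ W ν) ^ (1 - s) * (GX Λ W' ν') ^ s := by
  unfold GX
  refine le_trans ?_ (tsum_mul_rpow_le _ _ h0 h1)
  refine ENNReal.tsum_le_tsum fun N => ?_
  have hs0 : 0 ≤ 1 - s := sub_nonneg.2 h1
  have hpt : ∀ x : Fin N → E3, wt (fun x y => (1 - s) * W x y + s * W' x y)
      ((1 - s) * ν + s * ν') x = wt W ν x ^ (1 - s) * wt W' ν' x ^ s := by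
    intro x
    unfold wt
    rw [ENNReal.ofReal_rpow_of_pos (Real.exp_pos _), ENNReal.ofReal_rpow_of_pos (Real.exp_pos _),
      ← ENNReal.ofReal_mul (by positivity), ← Real.exp_mul, ← Real.exp_mul, ← Real.exp_add]
    congr 2
    have : quad (fun x y => (1 - s) * W x y + s * W' x y) x
        = (1 - s) * quad W x + s * quad W' x := by
      unfold quad
      simp only [Finset.sum_add_distrib, Finset.mul_sum]
    rw [this]
    ring
  simp_rw [hpt]
  have h2 := ENNReal.lintegral_mul_norm_pow_le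
    (μ := (volume : Measure (Fin N → E3)).restrict {x : Fin N → E3 | ∀ i, x i ∈ Λ})
    (f := fun x => wt W ν x) (g := fun x => wt W' ν' x)
    (measurable_wt hW ν).aemeasurable (measurable_wt hW' ν').aemeasurable hs0 h0 (by ring)
  have h3 : (N.factorial : ℝ≥0∞)⁻¹ = ((N.factorial : ℝ≥0∞)⁻¹) ^ (1 - s) *
      ((N.factorial : ℝ≥0∞)⁻¹) ^ s := by
    rw [← ENNReal.rpow_add_of_nonneg _ _ hs0 h0]
    simp
  calc (N.factorial : ℝ≥0∞)⁻¹ * ∫⁻ x in {x : Fin N → E3 | ∀ i, x i ∈ Λ},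
        wt W ν x ^ (1 - s) * wt W' ν' x ^ s
      ≤ (N.factorial : ℝ≥0∞)⁻¹ * ((∫⁻ x in {x : Fin N → E3 | ∀ i, x i ∈ Λ}, wt W ν x) ^ (1 - s)
          * (∫⁻ x in {x : Fin N → E3 | ∀ i, x i ∈ Λ}, wt W' ν' x) ^ s) :=
        mul_le_mul' le_rfl h2
    _ = _ := by
        rw [ENNReal.mul_rpow_of_nonneg _ _ hs0, ENNReal.mul_rpow_of_nonneg _ _ h0]
        conv_lhs => rw [h3]
        ring

/-- Jensen over a finite family of shifts -/
theorem GX_jensen {Λ : Set E3} (hΛ : MeasurableSet Λ) {W : E3 → E3 → ℝ} {ν ν' : ℝ}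
    {l : ℕ} (hl : 0 < l) (V : ℕ → E3 → E3 → ℝ) (hV : ∀ θ, Measurable (Function.uncurry (V θ)))
    {M : ℝ≥0∞} (hM : ∀ θ < l, GX Λ (V θ) ν' ≤ M)
    (h : ∀ (N : ℕ) (x : Fin N → E3), (∀ i, x i ∈ Λ) →
      ν * N - quad W x / 2 ≤ (∑ θ ∈ Finset.range l, (ν' * N - quad (V θ) x / 2)) / l) :
    GX Λ W ν ≤ M := by
  have hl' : (0 : ℝ) < l := by exact_mod_cast hl
  have hpt : ∀ (N : ℕ) (x : Fin N → E3), (∀ i, x i ∈ Λ) →
      wt W ν x ≤ (l : ℝ≥0∞)⁻¹ * ∑ θ ∈ Finset.range l, wt (V θ) ν' x := by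
    intro N x hx
    have h1 : Real.exp (ν * N - quad W x / 2)
        ≤ (l : ℝ)⁻¹ * ∑ θ ∈ Finset.range l, Real.exp (ν' * N - quad (V θ) x / 2) := by
      refine (Real.exp_le_exp.2 (h N x hx)).trans ?_
      have := convexOn_exp.map_sum_le (t := Finset.range l) (w := fun _ => (l : ℝ)⁻¹)
        (p := fun θ => ν' * N - quad (V θ) x / 2) (fun _ _ => by positivity)
        (by simp [hl'.ne']) (fun _ _ => Set.mem_univ _)
      simp only [smul_eq_mul, ← Finset.mul_sum] at this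
      rw [div_eq_inv_mul]
      exact this
    unfold wt
    simp only [Fintype.card_fin]
    rw [← ENNReal.ofReal_sum_of_nonneg (fun _ _ => (Real.exp_pos _).le),
      ← ENNReal.ofReal_natCast l, ← ENNReal.ofReal_inv_of_pos hl',
      ← ENNReal.ofReal_mul (by positivity)]
    exact ENNReal.ofReal_le_ofReal h1
  have hsum : GX Λ W ν ≤ (l : ℝ≥0∞)⁻¹ * ∑ θ ∈ Finset.range l, GX Λ (V θ) ν' := by
    unfold GX
    calc ∑' N : ℕ, (N.factorial : ℝ≥0∞)⁻¹ * ∫⁻ x in {x : Fin N → E3 | ∀ i, x i ∈ Λ}, wt W ν x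
        ≤ ∑' N : ℕ, ((l : ℝ≥0∞)⁻¹ * ∑ θ ∈ Finset.range l, ((N.factorial : ℝ≥0∞)⁻¹ *
            ∫⁻ x in {x : Fin N → E3 | ∀ i, x i ∈ Λ}, wt (V θ) ν' x)) := by
          refine ENNReal.tsum_le_tsum fun N => ?_
          have h2 : ∫⁻ x in {x : Fin N → E3 | ∀ i, x i ∈ Λ}, wt W ν x
              ≤ (l : ℝ≥0∞)⁻¹ * ∑ θ ∈ Finset.range l,
                ∫⁻ x in {x : Fin N → E3 | ∀ i, x i ∈ Λ}, wt (V θ) ν' x := by
            rw [← lintegral_finsetSum _ (fun θ _ => measurable_wt (hV θ) ν'),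
              ← lintegral_const_mul _ (Finset.measurable_sum _ fun θ _ => measurable_wt (hV θ) ν')]
            exact setLIntegral_mono' (measurableSet_all hΛ) fun x hx => hpt N x hx
          calc _ ≤ (N.factorial : ℝ≥0∞)⁻¹ * ((l : ℝ≥0∞)⁻¹ * ∑ θ ∈ Finset.range l,
                ∫⁻ x in {x : Fin N → E3 | ∀ i, x i ∈ Λ}, wt (V θ) ν' x) := mul_le_mul' le_rfl h2
            _ = _ := by
              rw [← Finset.mul_sum]
              ring
      _ = _ := by
          rw [ENNReal.tsum_mul_left, Summable.tsum_finsetSum (fun _ _ => ENNReal.summable)]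
  refine hsum.trans ?_
  calc (l : ℝ≥0∞)⁻¹ * ∑ θ ∈ Finset.range l, GX Λ (V θ) ν'
      ≤ (l : ℝ≥0∞)⁻¹ * ∑ θ ∈ Finset.range l, M := by
        gcongr with θ hθ
        exact hM θ (Finset.mem_range.1 hθ)
    _ = M := by
        rw [Finset.sum_const, Finset.card_range, nsmul_eq_mul, ← mul_assoc,
          ENNReal.inv_mul_cancel (by exact_mod_cast hl.ne') (ENNReal.natCast_ne_top _), one_mul]

/-- Laplace: `exp (τ N² / 2) ≤ ∑_k exp (-τ k² / 2 + τ k N)` -/
theorem GX_laplace {Λ : Set E3} (hΛ : MeasurableSet Λ) {W : E3 → E3 → ℝ}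
    (hW : Measurable (Function.uncurry W)) (ν τ : ℝ) :
    GX Λ (fun x y => W x y - τ) ν ≤
      ∑' k : ℕ, ENNReal.ofReal (Real.exp (-(τ * (k : ℝ) ^ 2 / 2))) * GX Λ W (ν + τ * k) := by
  unfold GX
  simp_rw [← ENNReal.tsum_mul_left]
  rw [ENNReal.tsum_comm]
  refine ENNReal.tsum_le_tsum fun N => ?_
  refine le_trans ?_ (ENNReal.le_tsum N)
  have h1 : ∀ x : Fin N → E3, wt (fun x y => W x y - τ) ν x
      = ENNReal.ofReal (Real.exp (-(τ * (N : ℝ) ^ 2 / 2))) * wt W (ν + τ * N) x := by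
    intro x
    unfold wt
    rw [← ENNReal.ofReal_mul (Real.exp_pos _).le, ← Real.exp_add]
    congr 2
    have : quad (fun x y => W x y - τ) x = quad W x - τ * N ^ 2 := by
      unfold quad
      simp only [Finset.sum_sub_distrib, Finset.sum_const, Finset.card_univ, Fintype.card_fin,
        nsmul_eq_mul]
      ring
    rw [this, Fintype.card_fin]
    ring
  simp_rw [h1]
  rw [lintegral_const_mul _ (measurable_wt hW _)]
  apply le_of_eq
  ring

end Vale.Agent.P171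
end
end

section

section

open MeasureTheory Filter Topology
open scoped ENNReal

namespace Vale.Agent.P171

/-- upper bound of the partition function in the box -/
theorem GX_box_le {T A : ℝ} (hA : 125 * T + 1 ≤ A) {a : ℕ → ℝ} (ha : Adm T a) {L : ℝ}
    (hL : 0 < L) (ν : ℝ) :
    GX (box L) (WA A a) ν ≤ ENNReal.ofReal (Real.exp ((ν ^ 2 / 2 + 1) * (L + 1) ^ 3)) := by
  have h1 : volume (box L) ≤ ENNReal.ofReal ((L + 1) ^ 3) := by
    rw [volume_box hL.le]
    apply ENNReal.ofReal_le_ofReal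
    gcongr
    linarith
  refine (GX_le_exp (measurableSet_box L) (by positivity) h1
    (fun N x hx => exponent_le hA ha hL ν x hx)).trans (le_of_eq ?_)
  congr 2
  ring

theorem GX_box_ne_top {T A : ℝ} (hA : 125 * T + 1 ≤ A) {a : ℕ → ℝ} (ha : Adm T a) {L : ℝ}
    (hL : 0 < L) (ν : ℝ) : GX (box L) (WA A a) ν ≠ ⊤ :=
  ne_top_of_le_ne_top ENNReal.ofReal_ne_top (GX_box_le hA ha hL ν)

section
variable {T A : ℝ} (hA : 125 * T + 1 ≤ A)
include hA

theorem one_le_toReal {a : ℕ → ℝ} (ha : Adm T a) {L : ℝ} (hL : 0 < L) (ν : ℝ) :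
    1 ≤ (GX (box L) (WA A a) ν).toReal := by
  have h := one_le_GX (box L) (WA A a) ν
  have := (ENNReal.toReal_le_toReal ENNReal.one_ne_top (GX_box_ne_top hA ha hL ν)).2 h
  simpa using this

theorem gL_nonneg {a : ℕ → ℝ} (ha : Adm T a) (μ : ℝ) {L : ℝ} (hL : 0 < L) : 0 ≤ gL A L a μ :=
  Real.log_nonneg (one_le_toReal hA ha hL _)

theorem gL_le {a : ℕ → ℝ} (ha : Adm T a) (μ : ℝ) {L : ℝ} (hL : 0 < L) :
    gL A L a μ ≤ ((μ + A / 2) ^ 2 / 2 + 1) * (L + 1) ^ 3 := by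
  unfold gL
  rw [← Real.log_exp (((μ + A / 2) ^ 2 / 2 + 1) * (L + 1) ^ 3)]
  apply Real.log_le_log
  · exact lt_of_lt_of_le one_pos (one_le_toReal hA ha hL _)
  · have := ENNReal.toReal_mono ENNReal.ofReal_ne_top (GX_box_le hA ha hL (μ + A / 2))
    rwa [ENNReal.toReal_ofReal (Real.exp_pos _).le] at this

theorem gL_div_le {a : ℕ → ℝ} (ha : Adm T a) (μ : ℝ) {L : ℝ} (hL : 0 < L) :
    gL A L a μ / (L + 2) ^ 3 ≤ 1 + (μ + A / 2) ^ 2 / 2 := by
  rw [div_le_iff₀ (by positivity)]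
  refine (gL_le hA ha μ hL).trans ?_
  have : (L + 1) ^ 3 ≤ (L + 2) ^ 3 := by gcongr; norm_num
  nlinarith [sq_nonneg (μ + A / 2)]

theorem bddAbove_gL {a : ℕ → ℝ} (ha : Adm T a) (μ : ℝ) :
    BddAbove (Set.range fun L : {L : ℝ // 0 < L} => gL A L a μ / ((L : ℝ) + 2) ^ 3) := by
  refine ⟨1 + (μ + A / 2) ^ 2 / 2, ?_⟩
  rintro _ ⟨L, rfl⟩
  exact gL_div_le hA ha μ L.2

theorem gL_div_le_Pr {a : ℕ → ℝ} (ha : Adm T a) (μ : ℝ) {L : ℝ} (hL : 0 < L) :
    gL A L a μ / (L + 2) ^ 3 ≤ Pr A a μ :=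
  le_ciSup (bddAbove_gL hA ha μ) ⟨L, hL⟩

theorem gL_le_Pr {a : ℕ → ℝ} (ha : Adm T a) (μ : ℝ) {L : ℝ} (hL : 0 < L) :
    gL A L a μ ≤ (L + 2) ^ 3 * Pr A a μ := by
  have := gL_div_le_Pr hA ha μ hL
  rwa [div_le_iff₀ (by positivity), mul_comm] at this

theorem Pr_nonneg {a : ℕ → ℝ} (ha : Adm T a) (μ : ℝ) : 0 ≤ Pr A a μ := by
  have h1 := gL_div_le_Pr hA ha μ one_pos
  have h2 := gL_nonneg hA ha μ one_pos
  exact le_trans (by positivity) h1

theorem Pr_le {a : ℕ → ℝ} (ha : Adm T a) (μ : ℝ) : Pr A a μ ≤ 1 + (μ + A / 2) ^ 2 / 2 := by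
  have : Nonempty {L : ℝ // 0 < L} := ⟨⟨1, one_pos⟩⟩
  exact ciSup_le fun L => gL_div_le hA ha μ L.2

/-- comparison of pressures from comparison of `gL` -/
theorem Pr_le_Pr_of {a b : ℕ → ℝ} (hb : Adm T b) {μ μ' : ℝ}
    (h : ∀ L : ℝ, 0 < L → gL A L a μ ≤ gL A L b μ') : Pr A a μ ≤ Pr A b μ' := by
  have : Nonempty {L : ℝ // 0 < L} := ⟨⟨1, one_pos⟩⟩
  refine ciSup_le fun L => ?_
  refine le_trans ?_ (gL_div_le_Pr hA hb μ' L.2)
  have hL : (0 : ℝ) < L := L.2
  gcongr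
  exact h L L.2

omit hA in
theorem gL_mono_of {a b : ℕ → ℝ} {μ μ' L : ℝ}
    (hfin : GX (box L) (WA A b) (μ' + A / 2) ≠ ⊤)
    (hfin' : GX (box L) (WA A a) (μ + A / 2) ≠ ⊤)
    (h : GX (box L) (WA A a) (μ + A / 2) ≤ GX (box L) (WA A b) (μ' + A / 2)) :
    gL A L a μ ≤ gL A L b μ' := by
  unfold gL
  apply Real.log_le_log
  · exact ENNReal.toReal_pos (one_pos.trans_le (one_le_GX _ _ _)).ne' hfin'
  · exact ENNReal.toReal_mono hfin h

theorem Pr_mono {a b : ℕ → ℝ} (ha : Adm T a) (hb : Adm T b) (h : ∀ k, a k ≤ b k) (μ : ℝ) :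
    Pr A a μ ≤ Pr A b μ := by
  refine Pr_le_Pr_of hA hb fun L hL => ?_
  refine gL_mono_of (GX_box_ne_top hA hb hL _) (GX_box_ne_top hA ha hL _) ?_
  refine GX_mono (measurableSet_box L) fun N x _ => ?_
  have : quad (WA A b) x ≤ quad (WA A a) x := by
    refine quad_mono x fun i j => ?_
    unfold WA prof
    have h1 : ∑' k, a k * J k ‖x i - x j‖ ≤ ∑' k, b k * J k ‖x i - x j‖ :=
      (summable_aJ ha.1 ha.2.1 _).tsum_le_tsum
        (fun k => mul_le_mul_of_nonneg_right (h k) (J_nonneg k _)) (summable_aJ hb.1 hb.2.1 _)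
    linarith
  linarith

theorem Pr_mono_mu {a : ℕ → ℝ} (ha : Adm T a) {μ μ' : ℝ} (h : μ ≤ μ') :
    Pr A a μ ≤ Pr A a μ' := by
  refine Pr_le_Pr_of hA ha fun L hL => ?_
  refine gL_mono_of (GX_box_ne_top hA ha hL _) (GX_box_ne_top hA ha hL _) ?_
  refine GX_mono (measurableSet_box L) fun N x _ => ?_
  have : (μ + A / 2) * (N : ℝ) ≤ (μ' + A / 2) * N := by gcongr
  linarith

theorem Pr_zero_le (hT : 0 ≤ T) : Pr A (fun _ => 0) 0 ≤ 1 := by
  have ha : Adm T (fun _ => 0) := ⟨fun _ => le_rfl, summable_zero, by simpa using hT⟩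
  have hA0 : 0 ≤ A := by linarith
  have : Nonempty {L : ℝ // 0 < L} := ⟨⟨1, one_pos⟩⟩
  refine ciSup_le fun L => ?_
  have hL : (0 : ℝ) < L := L.2
  rw [div_le_one (by positivity)]
  have hWA : ∀ x y : E3, WA A (fun _ => 0) x y = if ‖x - y‖ < 2 then A else 0 := by
    intro x y
    unfold WA prof
    simp
  have h1 : GX (box L) (WA A fun _ => 0) (0 + A / 2) ≤ ENNReal.ofReal (Real.exp (0 + (L : ℝ) ^ 3)) := by
    refine GX_le_exp (measurableSet_box L) (by positivity) (volume_box hL.le).le fun N x _ => ?_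
    have h2 : A * N ≤ quad (WA A fun _ => 0) x := by
      unfold quad
      calc A * N = ∑ i : Fin N, WA A (fun _ => 0) (x i) (x i) := by
            simp only [hWA, sub_self, norm_zero]
            simp [mul_comm]
        _ ≤ _ := by
            refine Finset.sum_le_sum fun i _ => ?_
            refine Finset.single_le_sum (f := fun j => WA A (fun _ => 0) (x i) (x j))
              (fun j _ => ?_) (Finset.mem_univ i)
            rw [hWA]
            split_ifs
            · exact hA0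
            · exact le_rfl
    linarith
  have h3 : gL A L (fun _ => 0) 0 ≤ (L : ℝ) ^ 3 := by
    unfold gL
    rw [← Real.log_exp ((L : ℝ) ^ 3)]
    apply Real.log_le_log
    · exact lt_of_lt_of_le one_pos (one_le_toReal hA ha hL _)
    · have := ENNReal.toReal_mono ENNReal.ofReal_ne_top h1
      rwa [ENNReal.toReal_ofReal (Real.exp_pos _).le, zero_add (_ ^ 3)] at this
  refine h3.trans ?_
  gcongr
  linarith

theorem Pr_convex {a b : ℕ → ℝ} (ha : Adm T a) (hb : Adm T b) (μ μ' : ℝ) {s : ℝ} (h0 : 0 ≤ s)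
    (h1 : s ≤ 1) :
    Pr A (fun k => (1 - s) * a k + s * b k) ((1 - s) * μ + s * μ') ≤
      (1 - s) * Pr A a μ + s * Pr A b μ' := by
  have : Nonempty {L : ℝ // 0 < L} := ⟨⟨1, one_pos⟩⟩
  refine ciSup_le fun L => ?_
  have hL : (0 : ℝ) < L := L.2
  have hs0 : 0 ≤ 1 - s := sub_nonneg.2 h1
  have hH := GX_holder (measurableSet_box L) (measurable_WA A ha.1 ha.2.1)
    (measurable_WA A hb.1 hb.2.1) (μ + A / 2) (μ' + A / 2) h0 h1
  have hW : (fun x y => (1 - s) * WA A a x y + s * WA A b x y)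
      = WA A (fun k => (1 - s) * a k + s * b k) := by
    funext x y
    rw [WA_linear A ha.2.1 hb.2.1 s x y]
  have hν : (1 - s) * (μ + A / 2) + s * (μ' + A / 2) = ((1 - s) * μ + s * μ') + A / 2 := by ring
  rw [hW, hν] at hH
  have hga := GX_box_ne_top hA ha hL (μ + A / 2)
  have hgb := GX_box_ne_top hA hb hL (μ' + A / 2)
  have hpa := one_le_toReal hA ha hL (μ + A / 2)
  have hpb := one_le_toReal hA hb hL (μ' + A / 2)
  have hrhs : (GX (box L) (WA A a) (μ + A / 2)) ^ (1 - s) * (GX (box L) (WA A b) (μ' + A / 2)) ^ s ≠ ⊤ :=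
    ENNReal.mul_ne_top (ENNReal.rpow_ne_top_of_nonneg hs0 hga) (ENNReal.rpow_ne_top_of_nonneg h0 hgb)
  have h4 : gL A L (fun k => (1 - s) * a k + s * b k) ((1 - s) * μ + s * μ')
      ≤ (1 - s) * gL A L a μ + s * gL A L b μ' := by
    unfold gL
    have h5 := ENNReal.toReal_mono hrhs hH
    rw [ENNReal.toReal_mul, ← ENNReal.toReal_rpow, ← ENNReal.toReal_rpow] at h5
    have h6 : 0 < (GX (box L) (WA A fun k => (1 - s) * a k + s * b k)
        ((1 - s) * μ + s * μ' + A / 2)).toReal :=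
      ENNReal.toReal_pos (one_pos.trans_le (one_le_GX _ _ _)).ne' (ne_top_of_le_ne_top hrhs hH)
    refine (Real.log_le_log h6 h5).trans (le_of_eq ?_)
    have hpa' : 0 < (GX (box L) (WA A a) (μ + A / 2)).toReal := by linarith
    have hpb' : 0 < (GX (box L) (WA A b) (μ' + A / 2)).toReal := by linarith
    rw [Real.log_mul (Real.rpow_pos_of_pos hpa' _).ne' (Real.rpow_pos_of_pos hpb' _).ne',
      Real.log_rpow hpa', Real.log_rpow hpb']
  have h7 := gL_div_le_Pr hA ha μ hL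
  have h8 := gL_div_le_Pr hA hb μ' hL
  calc gL A L (fun k => (1 - s) * a k + s * b k) ((1 - s) * μ + s * μ') / ((L : ℝ) + 2) ^ 3
      ≤ ((1 - s) * gL A L a μ + s * gL A L b μ') / ((L : ℝ) + 2) ^ 3 := by gcongr
    _ = (1 - s) * (gL A L a μ / ((L : ℝ) + 2) ^ 3) + s * (gL A L b μ' / ((L : ℝ) + 2) ^ 3) := by
        ring
    _ ≤ _ := by gcongr

/-- superadditivity -/
theorem gL_super {a : ℕ → ℝ} (ha : Adm T a) (μ : ℝ) {l : ℝ} (hl : 0 < l) (n : ℕ) {L : ℝ}
    (hL : 0 < L) (hnL : n * (l + 2) ≤ L) :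
    (n : ℝ) ^ 3 * gL A l a μ ≤ gL A L a μ := by
  classical
  let Λ : (Fin 3 → Fin n) → Set E3 := fun v =>
    {x | ∀ c, (l + 2) * (v c : ℝ) ≤ x c ∧ x c ≤ (l + 2) * (v c : ℝ) + l}
  let w : (Fin 3 → Fin n) → E3 := fun v => WithLp.toLp 2 fun c => (l + 2) * (v c : ℝ)
  have hΛ : ∀ v, Λ v = (fun x => x + w v) '' box l := by
    intro v
    ext x
    simp only [Λ, box, Set.mem_image, Set.mem_ofPred_eq]
    constructor
    · intro h
      refine ⟨x - w v, fun c => ?_, by simp⟩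
      have := h c
      simp only [PiLp.sub_apply, w]
      constructor <;> linarith [this.1, this.2]
    · rintro ⟨y, hy, rfl⟩ c
      have := hy c
      simp only [PiLp.add_apply, w]
      constructor <;> linarith [this.1, this.2]
  have hGX : ∀ v, GX (Λ v) (WA A a) (μ + A / 2) = GX (box l) (WA A a) (μ + A / 2) := by
    intro v
    rw [hΛ v]
    exact GX_translate (w v) (fun x y => WA_translate A a (w v) x y) _
  have hmeas : ∀ v, MeasurableSet (Λ v) := by
    intro v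
    rw [hΛ v]
    exact (MeasurableEquiv.addRight (w v)).measurableEmbedding.measurableSet_image.2
      (measurableSet_box l)
  have hsep : ∀ v v' : Fin 3 → Fin n, v ≠ v' → ∀ x ∈ Λ v, ∀ y ∈ Λ v', 2 ≤ ‖x - y‖ := by
    have key : ∀ (v v' : Fin 3 → Fin n) (c : Fin 3), v c < v' c → ∀ x ∈ Λ v, ∀ y ∈ Λ v',
        2 ≤ ‖x - y‖ := by
      intro v v' c hc x hx y hy
      have h1 := (hx c).2
      have h2 := (hy c).1
      have h3 : ((v c : ℕ) : ℝ) + 1 ≤ ((v' c : ℕ) : ℝ) := by exact_mod_cast hc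
      have h4 := abs_coord_le_norm (x - y) c
      rw [PiLp.sub_apply] at h4
      have h5 : (l + 2) * (((v c : ℕ) : ℝ) + 1) ≤ (l + 2) * ((v' c : ℕ) : ℝ) := by gcongr
      have h6 : 2 ≤ |x c - y c| := by
        rw [abs_sub_comm]
        refine le_trans ?_ (le_abs_self _)
        linarith
      exact h6.trans h4
    intro v v' hne x hx y hy
    obtain ⟨c, hc⟩ := Function.ne_iff.1 hne
    rcases lt_or_gt_of_ne hc with h | h
    · exact key v v' c h x hx y hy
    · rw [norm_sub_rev]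
      exact key v' v c h y hy x hx
  have hdisj : ∀ v v' : Fin 3 → Fin n, v ≠ v' → Disjoint (Λ v) (Λ v') := by
    intro v v' hne
    rw [Set.disjoint_left]
    intro x hx hx'
    have := hsep v v' hne x hx x hx'
    simp at this
    linarith
  have h1 := GX_le_biUnion (Finset.univ : Finset (Fin 3 → Fin n)) (Λ := Λ) (fun v _ => hmeas v)
    (fun v _ v' _ hne => hdisj v v' hne) (measurable_WA A ha.1 ha.2.1) (WA_symm A a) (μ + A / 2)
    (fun v _ v' _ hne x hx y hy => prof_nonpos A ha.1 (hsep v v' hne x hx y hy))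
  have h2 : (⋃ v ∈ (Finset.univ : Finset (Fin 3 → Fin n)), Λ v) ⊆ box L := by
    intro x hx
    rw [Set.mem_iUnion₂] at hx
    obtain ⟨v, _, hx⟩ := hx
    intro c
    have h3 := hx c
    have h4 : ((v c : ℕ) : ℝ) + 1 ≤ n := by exact_mod_cast (v c).2
    have h5 : (l + 2) * (((v c : ℕ) : ℝ) + 1) ≤ (l + 2) * n := by gcongr
    have h6 : 0 ≤ (l + 2) * ((v c : ℕ) : ℝ) := by positivity
    constructor
    · linarith [h3.1]
    · linarith [h3.2]
  have h3 : GX (box l) (WA A a) (μ + A / 2) ^ (n ^ 3) ≤ GX (box L) (WA A a) (μ + A / 2) := by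
    refine le_trans (le_of_eq ?_) (h1.trans (GX_mono_set h2 _ _))
    simp_rw [hGX]
    simp
  unfold gL
  have h4 := ENNReal.toReal_mono (GX_box_ne_top hA ha hL (μ + A / 2)) h3
  rw [ENNReal.toReal_pow] at h4
  have h5 := one_le_toReal hA ha hl (μ + A / 2)
  have h6 := Real.log_le_log (by positivity) h4
  rw [Real.log_pow] at h6
  push_cast at h6
  exact h6

theorem tendsto_gL {a : ℕ → ℝ} (ha : Adm T a) (μ : ℝ) :
    Tendsto (fun L : ℝ => gL A L a μ / L ^ 3) atTop (𝓝 (Pr A a μ)) := by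
  rw [tendsto_order]
  constructor
  · intro b hb
    have : Nonempty {L : ℝ // 0 < L} := ⟨⟨1, one_pos⟩⟩
    obtain ⟨⟨l, hl⟩, hbl⟩ := exists_lt_of_lt_ciSup hb
    simp only at hbl
    -- lower bound function
    have hfl : Tendsto (fun L : ℝ => ((⌊L / (l + 2)⌋₊ : ℝ) / (L / (l + 2))) ^ 3 *
        (gL A l a μ / (l + 2) ^ 3)) atTop (𝓝 (1 ^ 3 * (gL A l a μ / (l + 2) ^ 3))) := by
      refine Tendsto.mul_const _ (Tendsto.pow ?_ 3)
      have h1 : Tendsto (fun L : ℝ => L / (l + 2)) atTop atTop :=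
        tendsto_id.atTop_div_const (by positivity)
      exact (tendsto_nat_floor_div_atTop (R := ℝ)).comp h1
    rw [one_pow, one_mul] at hfl
    have hev := (tendsto_order.1 hfl).1 b hbl
    filter_upwards [hev, eventually_gt_atTop 0] with L hL1 hL0
    refine hL1.trans_le ?_
    have h2 := gL_super hA ha μ hl ⌊L / (l + 2)⌋₊ hL0 (by
      have := Nat.floor_le (show 0 ≤ L / (l + 2) by positivity)
      rwa [le_div_iff₀ (by positivity)] at this)
    have h3 : ((⌊L / (l + 2)⌋₊ : ℝ) / (L / (l + 2))) ^ 3 * (gL A l a μ / (l + 2) ^ 3)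
        = (⌊L / (l + 2)⌋₊ : ℝ) ^ 3 * gL A l a μ / L ^ 3 := by
      field_simp
    rw [h3]
    gcongr
  · intro b hb
    have h1 : Tendsto (fun L : ℝ => (1 + 2 / L) ^ 3 * Pr A a μ) atTop
        (𝓝 ((1 + 0) ^ 3 * Pr A a μ)) := by
      refine Tendsto.mul_const _ (Tendsto.pow (Tendsto.const_add 1 ?_) 3)
      exact tendsto_const_nhds.div_atTop tendsto_id
    rw [add_zero, one_pow, one_mul] at h1
    have hev := (tendsto_order.1 h1).2 b hb
    filter_upwards [hev, eventually_gt_atTop 0] with L hL1 hL0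
    refine lt_of_le_of_lt ?_ hL1
    have h2 := gL_le_Pr hA ha μ hL0
    rw [div_le_iff₀ (by positivity)]
    refine h2.trans (le_of_eq ?_)
    field_simp

end

end Vale.Agent.P171
end
end

section

section

open MeasureTheory Filter Topology
open scoped ENNReal

namespace Vale.Agent.P171

/-- Closed unit cube with lower corner `v`. -/
def cubeAt (v : Fin 3 → ℝ) : Set E3 := {x | ∀ c, v c ≤ x c ∧ x c ≤ v c + 1}

theorem cubeAt_eq (v : Fin 3 → ℝ) :
    cubeAt v = (WithLp.ofLp : E3 → (Fin 3 → ℝ)) ⁻¹' (Set.pi Set.univ fun c => Set.Icc (v c) (v c + 1)) := by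
  ext x
  constructor
  · intro h c _
    exact h c
  · intro h c
    exact h c (Set.mem_univ _)

theorem measurableSet_cubeAt (v : Fin 3 → ℝ) : MeasurableSet (cubeAt v) := by
  rw [cubeAt_eq]
  exact (PiLp.volume_preserving_ofLp (Fin 3)).measurable
    (MeasurableSet.univ_pi fun c => measurableSet_Icc)

theorem volume_cubeAt (v : Fin 3 → ℝ) : volume (cubeAt v) = 1 := by
  rw [cubeAt_eq, (PiLp.volume_preserving_ofLp (Fin 3)).measure_preimage
    (MeasurableSet.univ_pi fun c => measurableSet_Icc).nullMeasurableSet, volume_pi_pi]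
  simp

/-- The set of tuples that put exactly one particle in each `S i`. -/
def permSet {M : ℕ} (S : Fin M → Set E3) : Set (Fin M → E3) :=
  ⋃ σ : Equiv.Perm (Fin M), Set.pi Set.univ (fun i => S (σ i))

theorem volume_permSet {M : ℕ} (S : Fin M → Set E3) (hS : ∀ i, MeasurableSet (S i))
    (hd : ∀ i j, i ≠ j → Disjoint (S i) (S j)) (h1 : ∀ i, volume (S i) = 1) :
    volume (permSet S) = (M.factorial : ℝ≥0∞) := by
  unfold permSet
  rw [measure_iUnion]
  · simp_rw [volume_pi_pi, h1]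
    simp [tsum_fintype, Fintype.card_perm]
  · intro σ τ hστ
    have : ∃ i, σ i ≠ τ i := by
      by_contra h
      exact hστ (Equiv.ext (fun i => not_not.mp (fun hi => h ⟨i, hi⟩)))
    obtain ⟨i, hi⟩ := this
    refine Set.disjoint_left.mpr (fun x hx hx' => ?_)
    exact Set.disjoint_left.mp (hd _ _ hi) (hx i (Set.mem_univ _)) (hx' i (Set.mem_univ _))
  · intro σ
    exact MeasurableSet.univ_pi (fun i => hS _)

/-- Lower bound of the grand partition function by configurations with one particle per cell. -/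
theorem le_GX_of_permSet {Λ : Set E3} {W : E3 → E3 → ℝ} {ν C : ℝ} {M : ℕ} (S : Fin M → Set E3)
    (hS : ∀ i, MeasurableSet (S i)) (hd : ∀ i j, i ≠ j → Disjoint (S i) (S j))
    (h1 : ∀ i, volume (S i) = 1) (hΛ : ∀ i, S i ⊆ Λ)
    (hC : ∀ x ∈ permSet S, C ≤ ν * M - quad W x / 2) :
    ENNReal.ofReal (Real.exp C) ≤ GX Λ W ν := by
  have hsub : permSet S ⊆ {x : Fin M → E3 | ∀ i, x i ∈ Λ} := by
    intro x hx
    obtain ⟨σ, hσ⟩ := Set.mem_iUnion.mp hx
    intro i
    exact hΛ _ (hσ i (Set.mem_univ _))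
  have hmeas : MeasurableSet (permSet S) :=
    MeasurableSet.iUnion (fun σ => MeasurableSet.univ_pi (fun i => hS _))
  have h2 : ENNReal.ofReal (Real.exp C) * (M.factorial : ℝ≥0∞) ≤
      ∫⁻ x in {x : Fin M → E3 | ∀ i, x i ∈ Λ}, wt W ν x := by
    calc ENNReal.ofReal (Real.exp C) * (M.factorial : ℝ≥0∞)
        = ∫⁻ x in permSet S, ENNReal.ofReal (Real.exp C) := by
          rw [setLIntegral_const, volume_permSet S hS hd h1]
      _ ≤ ∫⁻ x in permSet S, wt W ν x := by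
          refine setLIntegral_mono' hmeas (fun x hx => ?_)
          unfold wt
          rw [Fintype.card_fin]
          exact ENNReal.ofReal_le_ofReal (Real.exp_le_exp.mpr (hC x hx))
      _ ≤ _ := lintegral_mono_set hsub
  have h3 : ENNReal.ofReal (Real.exp C) ≤ (M.factorial : ℝ≥0∞)⁻¹ *
      ∫⁻ x in {x : Fin M → E3 | ∀ i, x i ∈ Λ}, wt W ν x := by
    rw [mul_comm, ← div_eq_mul_inv, ENNReal.le_div_iff_mul_le]
    · exact h2
    · left; exact_mod_cast M.factorial_ne_zero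
    · left; exact ENNReal.natCast_ne_top _
  exact h3.trans (ENNReal.le_tsum (f := fun N : ℕ => (N.factorial : ℝ≥0∞)⁻¹ *
    ∫⁻ x in {x : Fin N → E3 | ∀ i, x i ∈ Λ}, wt W ν x) M)

/-- The trial cubes. -/
def tcube {n : ℕ} (v : Fin 3 → Fin n) : Set E3 := cubeAt (fun c => 3 * ((v c : ℕ) : ℝ))

theorem norm_lt_of_coord {x y : E3} {r : ℝ} (hr : 0 < r) (h : ∀ c, |x c - y c| ≤ 3 * r) :
    ‖x - y‖ < 6 * r := by
  rw [EuclideanSpace.norm_eq, Real.sqrt_lt' (by positivity)]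
  have : ∀ c, ‖(x - y) c‖ ^ 2 ≤ (3 * r) ^ 2 := by
    intro c
    rw [Real.norm_eq_abs]
    have := h c
    simp only [PiLp.sub_apply]
    exact pow_le_pow_left₀ (abs_nonneg _) this 2
  calc ∑ c, ‖(x - y) c‖ ^ 2 ≤ ∑ _c : Fin 3, (3 * r) ^ 2 := Finset.sum_le_sum (fun c _ => this c)
    _ = 27 * r ^ 2 := by simp; ring
    _ < (6 * r) ^ 2 := by nlinarith [sq_nonneg r, pow_pos hr 2]

theorem le_norm_of_coord {x y : E3} {r : ℝ} (c : Fin 3) (h : r ≤ |x c - y c|) :
    r ≤ ‖x - y‖ := by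
  refine h.trans ?_
  have := PiLp.norm_apply_le (x - y) c
  simpa using this

theorem tcube_far {n : ℕ} {v w : Fin 3 → Fin n} (h : v ≠ w) {x y : E3} (hx : x ∈ tcube v)
    (hy : y ∈ tcube w) : 2 ≤ ‖x - y‖ := by
  obtain ⟨c, hc⟩ := Function.ne_iff.mp h
  refine le_norm_of_coord c ?_
  have h1 := hx c
  have h2 := hy c
  simp only at h1 h2
  have hne : (v c : ℕ) ≠ (w c : ℕ) := fun h => hc (Fin.ext h)
  rcases lt_or_gt_of_ne hne with h | h
  · have : ((v c : ℕ) : ℝ) + 1 ≤ ((w c : ℕ) : ℝ) := by exact_mod_cast h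
    rw [abs_sub_comm]
    refine le_trans ?_ (le_abs_self _)
    linarith
  · have : ((w c : ℕ) : ℝ) + 1 ≤ ((v c : ℕ) : ℝ) := by exact_mod_cast h
    refine le_trans ?_ (le_abs_self _)
    linarith

/-- For each `v`, many trial cubes are within the range of the kernel number `k`. -/
theorem sum_J_ge {K k : ℕ} (hk : k < K) (y : (Fin 3 → Fin (2 ^ K)) → E3)
    (hy : ∀ v, y v ∈ tcube v) (v : Fin 3 → Fin (2 ^ K)) :
    1 / 216 ≤ ∑ w, J k ‖y v - y w‖ := by
  have hpow : 2 ^ K = 2 ^ (K - k) * 2 ^ k := by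
    rw [← pow_add]; congr 1; omega
  have h2k : 0 < 2 ^ k := by positivity
  let φ : (Fin 3 → Fin (2 ^ k)) → (Fin 3 → Fin (2 ^ K)) := fun u c =>
    ⟨(v c : ℕ) / 2 ^ k * 2 ^ k + (u c : ℕ), by
      have h1 : (v c : ℕ) / 2 ^ k < 2 ^ (K - k) := by
        rw [Nat.div_lt_iff_lt_mul h2k, ← hpow]; exact (v c).2
      have h2 := (u c).2
      calc (v c : ℕ) / 2 ^ k * 2 ^ k + (u c : ℕ) < (v c : ℕ) / 2 ^ k * 2 ^ k + 2 ^ k := by omega
        _ = ((v c : ℕ) / 2 ^ k + 1) * 2 ^ k := by ring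
        _ ≤ 2 ^ (K - k) * 2 ^ k := Nat.mul_le_mul_right _ h1
        _ = 2 ^ K := hpow.symm⟩
  have hφ : Function.Injective φ := by
    intro u u' h
    funext c
    have := congrFun h c
    simp only [φ, Fin.mk.injEq] at this
    exact Fin.ext (by omega)
  have hJ : ∀ u, J k ‖y v - y (φ u)‖ = ((Rk k : ℝ) ^ 3)⁻¹ := by
    intro u
    unfold J
    rw [if_pos]
    have hR : (Rk k : ℝ) = 6 * (2 : ℝ) ^ k := by unfold Rk; push_cast; ring
    rw [hR]
    refine norm_lt_of_coord (by positivity) (fun c => ?_)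
    have h1 := hy v c
    have h2 := hy (φ u) c
    simp only at h1 h2
    have hval : ((φ u c : ℕ) : ℝ) = (((v c : ℕ) / 2 ^ k * 2 ^ k + (u c : ℕ) : ℕ) : ℝ) := rfl
    have hdm : (v c : ℕ) / 2 ^ k * 2 ^ k + (v c : ℕ) % 2 ^ k = (v c : ℕ) := Nat.div_add_mod' _ _
    have hmod : (v c : ℕ) % 2 ^ k < 2 ^ k := Nat.mod_lt _ h2k
    have hu := (u c).2
    have e1 : ((v c : ℕ) : ℝ) + 1 ≤ ((φ u c : ℕ) : ℝ) + 2 ^ k := by
      rw [hval]
      have : (v c : ℕ) + 1 ≤ (v c : ℕ) / 2 ^ k * 2 ^ k + (u c : ℕ) + 2 ^ k := by omega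
      exact_mod_cast this
    have e2 : ((φ u c : ℕ) : ℝ) + 1 ≤ ((v c : ℕ) : ℝ) + 2 ^ k := by
      rw [hval]
      have : (v c : ℕ) / 2 ^ k * 2 ^ k + (u c : ℕ) + 1 ≤ (v c : ℕ) + 2 ^ k := by omega
      exact_mod_cast this
    rw [abs_le]
    constructor <;> linarith
  calc (1 : ℝ) / 216 = ∑ _u : Fin 3 → Fin (2 ^ k), ((Rk k : ℝ) ^ 3)⁻¹ := by
        simp only [Finset.sum_const, Finset.card_univ, Fintype.card_pi, Fintype.card_fin,
          Finset.prod_const, nsmul_eq_mul, Rk]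
        push_cast
        field_simp
        norm_num
    _ = ∑ u, J k ‖y v - y (φ u)‖ := Finset.sum_congr rfl (fun u _ => (hJ u).symm)
    _ = ∑ w ∈ Finset.univ.image φ, J k ‖y v - y w‖ := by
        rw [Finset.sum_image (fun a _ b _ h => hφ h)]
    _ ≤ ∑ w, J k ‖y v - y w‖ :=
        Finset.sum_le_sum_of_subset_of_nonneg (Finset.subset_univ _)
          (fun w _ _ => J_nonneg _ _)

/-- Linear-in-`a` upper bound for the pair function. -/
theorem prof_le_sum {A : ℝ} {a : ℕ → ℝ} (ha : ∀ k, 0 ≤ a k) (hs : Summable a)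
    (K : ℕ) (r : ℝ) :
    prof A a r ≤ (if r < 2 then A else 0) - ∑ k ∈ Finset.range K, a k * J k r := by
  unfold prof
  have := (summable_aJ ha hs r).sum_le_tsum (Finset.range K)
    (fun k _ => mul_nonneg (ha k) (J_nonneg k r))
  linarith

theorem trial_energy {A : ℝ} (hA : 0 ≤ A) {a : ℕ → ℝ} (ha : ∀ k, 0 ≤ a k) (hs : Summable a)
    (K : ℕ) (y : (Fin 3 → Fin (2 ^ K)) → E3) (hy : ∀ v, y v ∈ tcube v) :
    ∑ v, ∑ w, WA A a (y v) (y w) ≤
      ((2 : ℝ) ^ K) ^ 3 * (A - 1 / 216 * ∑ k ∈ Finset.range K, a k) := by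
  have hrow : ∀ v, ∑ w, WA A a (y v) (y w) ≤ A - 1 / 216 * ∑ k ∈ Finset.range K, a k := by
    intro v
    have h1 : ∀ w, WA A a (y v) (y w) ≤ (if w = v then A else 0) -
        ∑ k ∈ Finset.range K, a k * J k ‖y v - y w‖ := by
      intro w
      refine (prof_le_sum ha hs K _).trans ?_
      refine sub_le_sub_right ?_ _
      by_cases h : w = v
      · rw [if_pos h]; split_ifs
        · exact le_rfl
        · exact hA
      · rw [if_neg h, if_neg]
        exact not_lt.mpr (tcube_far (Ne.symm h) (hy v) (hy w))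
    calc ∑ w, WA A a (y v) (y w) ≤ ∑ w, ((if w = v then A else 0) -
        ∑ k ∈ Finset.range K, a k * J k ‖y v - y w‖) := Finset.sum_le_sum (fun w _ => h1 w)
      _ = A - ∑ k ∈ Finset.range K, a k * ∑ w, J k ‖y v - y w‖ := by
        rw [Finset.sum_sub_distrib, Finset.sum_ite_eq' Finset.univ v (fun _ => A),
          if_pos (Finset.mem_univ _), Finset.sum_comm]
        simp_rw [Finset.mul_sum]
      _ ≤ A - ∑ k ∈ Finset.range K, a k * (1 / 216) := by
        refine sub_le_sub_left (Finset.sum_le_sum (fun k hk => ?_)) _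
        exact mul_le_mul_of_nonneg_left (sum_J_ge (Finset.mem_range.mp hk) y hy v) (ha k)
      _ = A - 1 / 216 * ∑ k ∈ Finset.range K, a k := by
        rw [← Finset.sum_mul]; ring
  calc ∑ v, ∑ w, WA A a (y v) (y w)
      ≤ ∑ _v : Fin 3 → Fin (2 ^ K), (A - 1 / 216 * ∑ k ∈ Finset.range K, a k) :=
        Finset.sum_le_sum (fun v _ => hrow v)
    _ = _ := by
        simp only [Finset.sum_const, Finset.card_univ, Fintype.card_pi, Fintype.card_fin,
          Finset.prod_const, nsmul_eq_mul]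
        push_cast
        ring

/-- The trial lower bound on the partition function of the box of side `3 * 2^K - 2`. -/
theorem trial_GX {A : ℝ} (hA : 0 ≤ A) {a : ℕ → ℝ} (ha : ∀ k, 0 ≤ a k) (hs : Summable a)
    (μ : ℝ) (K : ℕ) :
    ENNReal.ofReal (Real.exp (((2 : ℝ) ^ K) ^ 3 * (μ + 1 / 432 * ∑ k ∈ Finset.range K, a k))) ≤
      GX (box (3 * 2 ^ K - 2)) (WA A a) (μ + A / 2) := by
  set M := Fintype.card (Fin 3 → Fin (2 ^ K)) with hM
  have hMr : (M : ℝ) = ((2 : ℝ) ^ K) ^ 3 := by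
    rw [hM]; simp
  let e : Fin M ≃ (Fin 3 → Fin (2 ^ K)) := (Fintype.equivFin _).symm
  refine le_GX_of_permSet (M := M) (fun i => tcube (e i)) (fun i => measurableSet_cubeAt _)
    (fun i j hij => ?_) (fun i => volume_cubeAt _) (fun i => ?_) (fun x hx => ?_)
  · refine Set.disjoint_left.mpr (fun x hx hx' => ?_)
    have := tcube_far (fun h => hij (e.injective h)) hx hx'
    rw [sub_self, norm_zero] at this
    linarith
  · intro x hx c
    have h := hx c
    simp only at h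
    have hlt : ((e i c : ℕ) : ℝ) + 1 ≤ 2 ^ K := by exact_mod_cast (e i c).2
    have h0 : (0 : ℝ) ≤ ((e i c : ℕ) : ℝ) := Nat.cast_nonneg _
    constructor <;> linarith
  · obtain ⟨σ, hσ⟩ := Set.mem_iUnion.mp hx
    let e' : Fin M ≃ (Fin 3 → Fin (2 ^ K)) := σ.trans e
    have hy : ∀ v, (fun v => x (e'.symm v)) v ∈ tcube v := by
      intro v
      have := hσ (e'.symm v) (Set.mem_univ _)
      have h2 : e (σ (e'.symm v)) = v := by
        exact e'.apply_symm_apply v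
      simp only at this
      rw [h2] at this
      exact this
    have hE := trial_energy hA ha hs K (fun v => x (e'.symm v)) hy
    have hq : quad (WA A a) x = ∑ v, ∑ w, WA A a (x (e'.symm v)) (x (e'.symm w)) := by
      unfold quad
      rw [← e'.symm.sum_comp]
      refine Finset.sum_congr rfl (fun v _ => ?_)
      rw [← e'.symm.sum_comp]
    rw [hq, hMr]
    nlinarith [hE]

/-- The trial lower bound on the pressure, given the finiteness of the partition function and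
the comparison of finite boxes with the pressure. -/
theorem Pr_ge_trial_of {A : ℝ} (hA : 0 ≤ A) {a : ℕ → ℝ} (ha : ∀ k, 0 ≤ a k) (hs : Summable a)
    (μ : ℝ) (K : ℕ)
    (hfin : GX (box (3 * 2 ^ K - 2)) (WA A a) (μ + A / 2) ≠ ⊤)
    (hle : gL A (3 * 2 ^ K - 2) a μ ≤ ((3 * 2 ^ K - 2 : ℝ) + 2) ^ 3 * Pr A a μ) :
    μ / 27 + (∑ k ∈ Finset.range K, a k) / 11664 ≤ Pr A a μ := by
  have h1 := trial_GX hA ha hs μ K
  have h2 : ((2 : ℝ) ^ K) ^ 3 * (μ + 1 / 432 * ∑ k ∈ Finset.range K, a k) ≤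
      gL A (3 * 2 ^ K - 2) a μ := by
    unfold gL
    rw [← Real.exp_le_exp, Real.exp_log]
    · have := ENNReal.toReal_mono hfin h1
      rwa [ENNReal.toReal_ofReal (Real.exp_pos _).le] at this
    · refine ENNReal.toReal_pos ?_ hfin
      intro h0
      rw [h0] at h1
      have := Real.exp_pos (((2 : ℝ) ^ K) ^ 3 * (μ + 1 / 432 * ∑ k ∈ Finset.range K, a k))
      exact absurd (ENNReal.ofReal_eq_zero.mp (le_antisymm h1 zero_le)) (not_le.mpr this)
  have h3 : ((3 * 2 ^ K - 2 : ℝ) + 2) ^ 3 = 27 * ((2 : ℝ) ^ K) ^ 3 := by ring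
  rw [h3] at hle
  have h4 : 0 < ((2 : ℝ) ^ K) ^ 3 := by positivity
  have h5 := h2.trans hle
  have h6 : μ + 1 / 432 * ∑ k ∈ Finset.range K, a k ≤ 27 * Pr A a μ := by
    have : ((2 : ℝ) ^ K) ^ 3 * (μ + 1 / 432 * ∑ k ∈ Finset.range K, a k) ≤
        ((2 : ℝ) ^ K) ^ 3 * (27 * Pr A a μ) := by linarith
    exact le_of_mul_le_mul_left this h4
  linarith

end Vale.Agent.P171
end
end

section

section

open MeasureTheory Filter Topology
open scoped ENNReal

namespace Vale.Agent.P171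

theorem sum_ediv_succ (l : ℕ) (hl : 0 < l) (u : ℤ) :
    ∑ θ ∈ Finset.range l, (u + 1 + (θ : ℤ)) / (l : ℤ) =
      ∑ θ ∈ Finset.range l, (u + (θ : ℤ)) / (l : ℤ) + 1 := by
  have h1 := Finset.sum_range_succ (fun θ : ℕ => (u + (θ : ℤ)) / (l : ℤ)) l
  have h2 := Finset.sum_range_succ' (fun θ : ℕ => (u + (θ : ℤ)) / (l : ℤ)) l
  have h3 : (u + (l : ℤ)) / (l : ℤ) = u / l + 1 := by
    rw [Int.add_ediv_of_dvd_right (dvd_refl _), Int.ediv_self (by exact_mod_cast hl.ne')]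
  have h4 : ∑ θ ∈ Finset.range l, (u + ((θ + 1 : ℕ) : ℤ)) / (l : ℤ) =
      ∑ θ ∈ Finset.range l, (u + 1 + (θ : ℤ)) / (l : ℤ) := by
    apply Finset.sum_congr rfl
    intro θ _
    congr 1
    push_cast
    ring
  rw [h4] at h2
  rw [h3] at h1
  simp only [Nat.cast_zero, add_zero] at h2
  linarith

theorem sum_ediv_add (l : ℕ) (hl : 0 < l) (u : ℤ) (n : ℕ) :
    ∑ θ ∈ Finset.range l, (u + n + (θ : ℤ)) / (l : ℤ) =
      ∑ θ ∈ Finset.range l, (u + (θ : ℤ)) / (l : ℤ) + n := by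
  induction n with
  | zero => simp
  | succ n ih =>
    have h := sum_ediv_succ l hl (u + n)
    push_cast
    rw [← add_assoc u, h, ih]
    ring

theorem count_ne_le_aux (l : ℕ) (hl : 0 < l) (u : ℤ) (n : ℕ) :
    (∑ θ ∈ Finset.range l, if (u + (θ : ℤ)) / (l : ℤ) = (u + n + (θ : ℤ)) / (l : ℤ) then (0 : ℝ) else 1)
      ≤ n := by
  have h1 := sum_ediv_add l hl u n
  have h2 : ((∑ θ ∈ Finset.range l, ((u + n + (θ : ℤ)) / (l : ℤ) - (u + (θ : ℤ)) / (l : ℤ)) : ℤ) : ℝ)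
      = n := by
    rw [Finset.sum_sub_distrib, h1]
    push_cast
    ring
  rw [← h2]
  push_cast
  apply Finset.sum_le_sum
  intro θ _
  have h3 : (u + (θ : ℤ)) / (l : ℤ) ≤ (u + n + (θ : ℤ)) / (l : ℤ) :=
    Int.ediv_le_ediv (by exact_mod_cast hl) (by omega)
  split_ifs with h
  · rw [h]; simp
  · have h4 : (u + (θ : ℤ)) / (l : ℤ) + 1 ≤ (u + n + (θ : ℤ)) / (l : ℤ) := by omega
    have h5 : (((u + (θ : ℤ)) / (l : ℤ) + 1 : ℤ) : ℝ) ≤ (((u + n + (θ : ℤ)) / (l : ℤ) : ℤ) : ℝ) := by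
      exact_mod_cast h4
    push_cast at h5
    linarith

theorem count_ne_le (l : ℕ) (hl : 0 < l) (u v : ℤ) (R : ℕ) (h : |u - v| ≤ R) :
    (∑ θ ∈ Finset.range l, if (u + (θ : ℤ)) / (l : ℤ) = (v + (θ : ℤ)) / (l : ℤ) then (0 : ℝ) else 1)
      ≤ R := by
  obtain ⟨h1, h2⟩ := abs_le.mp h
  rcases le_total u v with huv | huv
  · obtain ⟨n, hn⟩ := Int.eq_ofNat_of_zero_le (sub_nonneg.mpr huv)
    have hv : v = u + n := by omega
    have hn' : (n : ℝ) ≤ R := by
      have : n ≤ R := by omega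
      exact_mod_cast this
    rw [hv]
    exact (count_ne_le_aux l hl u n).trans hn'
  · obtain ⟨n, hn⟩ := Int.eq_ofNat_of_zero_le (sub_nonneg.mpr huv)
    have hv : u = v + n := by omega
    have hn' : (n : ℝ) ≤ R := by
      have : n ≤ R := by omega
      exact_mod_cast this
    rw [hv]
    refine le_trans (le_of_eq ?_) ((count_ne_le_aux l hl v n).trans hn')
    apply Finset.sum_congr rfl
    intro θ _
    congr 1
    exact propext eq_comm

theorem floor_diff (R : ℕ) {x y : E3} (h : ‖x - y‖ < (R : ℝ)) (c : Fin 3) :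
    |⌊x c⌋ - ⌊y c⌋| ≤ R := by
  have h0 : |x c - y c| < (R : ℝ) := by
    have := abs_coord_le_norm (x - y) c
    have h' : (x - y) c = x c - y c := rfl
    rw [h'] at this
    exact lt_of_le_of_lt this h
  obtain ⟨h1, h2⟩ := abs_lt.mp h0
  have hx1 := Int.floor_le (x c)
  have hx2 := Int.lt_floor_add_one (x c)
  have hy1 := Int.floor_le (y c)
  have hy2 := Int.lt_floor_add_one (y c)
  have h3 : ⌊x c⌋ ≤ ⌊y c⌋ + (R : ℤ) := by
    have : (⌊x c⌋ : ℝ) < (⌊y c⌋ : ℝ) + R + 1 := by linarith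
    have : ⌊x c⌋ < ⌊y c⌋ + (R : ℤ) + 1 := by exact_mod_cast this
    omega
  have h4 : ⌊y c⌋ ≤ ⌊x c⌋ + (R : ℤ) := by
    have : (⌊y c⌋ : ℝ) < (⌊x c⌋ : ℝ) + R + 1 := by linarith
    have : ⌊y c⌋ < ⌊x c⌋ + (R : ℤ) + 1 := by exact_mod_cast this
    omega
  rw [abs_le]
  constructor <;> omega

/-- a pair at distance `< R` is in the same shifted block for at least `l - 3R` shifts -/
theorem sum_same_ge (l : ℕ) (hl : 0 < l) (R : ℕ) {x y : E3} (h : ‖x - y‖ < (R : ℝ)) :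
    (l : ℝ) - 3 * R ≤ ∑ θ ∈ Finset.range l, same l θ x y := by
  have h1 : ∀ θ ∈ Finset.range l, 1 - same l θ x y ≤
      ∑ c : Fin 3, if (⌊x c⌋ + (θ : ℤ)) / (l : ℤ) = (⌊y c⌋ + (θ : ℤ)) / (l : ℤ) then (0 : ℝ) else 1 := by
    intro θ _
    unfold same
    by_cases hb : blk l θ x = blk l θ y
    · rw [if_pos hb]
      simp only [sub_self]
      exact Finset.sum_nonneg fun c _ => by split_ifs <;> norm_num
    · rw [if_neg hb]
      have : ∃ c, blk l θ x c ≠ blk l θ y c := by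
        by_contra hcon
        push Not at hcon
        exact hb (funext hcon)
      obtain ⟨c, hc⟩ := this
      have h2 : (1 : ℝ) = if (⌊x c⌋ + (θ : ℤ)) / (l : ℤ) = (⌊y c⌋ + (θ : ℤ)) / (l : ℤ) then (0 : ℝ) else 1 := by
        rw [if_neg]
        exact hc
      rw [sub_zero]
      calc (1 : ℝ) = _ := h2
        _ ≤ _ := Finset.single_le_sum (f := fun c : Fin 3 =>
          if (⌊x c⌋ + (θ : ℤ)) / (l : ℤ) = (⌊y c⌋ + (θ : ℤ)) / (l : ℤ) then (0 : ℝ) else 1)
          (fun c _ => by split_ifs <;> norm_num) (Finset.mem_univ c)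
  have h2 := Finset.sum_le_sum h1
  rw [Finset.sum_sub_distrib, Finset.sum_const, Finset.card_range, nsmul_eq_mul, mul_one,
    Finset.sum_comm] at h2
  have h3 : ∑ c : Fin 3, ∑ θ ∈ Finset.range l,
      (if (⌊x c⌋ + (θ : ℤ)) / (l : ℤ) = (⌊y c⌋ + (θ : ℤ)) / (l : ℤ) then (0 : ℝ) else 1) ≤
      ∑ c : Fin 3, (R : ℝ) :=
    Finset.sum_le_sum fun c _ => count_ne_le l hl _ _ R (floor_diff R h c)
  simp only [Finset.sum_const, Finset.card_univ, Fintype.card_fin, nsmul_eq_mul] at h3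
  push_cast at h3
  linarith

end Vale.Agent.P171
end
end

section

section

open Filter Topology Set

namespace Vale.Agent.P171

/-- Ekeland's variational principle (weak form) on a complete metric space. -/
theorem ekeland {X : Type} [MetricSpace X] [CompleteSpace X] (f : X → ℝ)
    (hf : LowerSemicontinuous f) (hb : BddBelow (range f)) (x0 : X) {ε : ℝ} (hε : 0 < ε) :
    ∃ x, f x + ε * dist x0 x ≤ f x0 ∧ ∀ y, f x ≤ f y + ε * dist x y := by
  classical
  -- the sets S x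
  set S : X → Set X := fun x => {y | f y + ε * dist x y ≤ f x} with hS
  have hself : ∀ x, x ∈ S x := fun x => by simp [hS]
  have htrans : ∀ x y z, y ∈ S x → z ∈ S y → z ∈ S x := by
    intro x y z hy hz
    simp only [hS, mem_setOf_eq] at hy hz ⊢
    have htri : dist x z ≤ dist x y + dist y z := dist_triangle x y z
    nlinarith
  have hclosed : ∀ x, IsClosed (S x) := by
    intro x
    have h1 : LowerSemicontinuous (fun y => f y + ε * dist x y) := by
      refine hf.add ?_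
      exact (continuous_const.mul (continuous_const.dist continuous_id)).lowerSemicontinuous
    exact h1.isClosed_preimage (f x)
  obtain ⟨b, hb⟩ := hb
  have hb' : ∀ x, b ≤ f x := fun x => hb (mem_range_self x)
  have hbdd : ∀ x, BddBelow (f '' S x) := fun x => ⟨b, by rintro _ ⟨y, -, rfl⟩; exact hb' y⟩
  have hne : ∀ x, (f '' S x).Nonempty := fun x => ⟨f x, x, hself x, rfl⟩
  -- choice of near minimizers
  have hchoice : ∀ (x : X) (n : ℕ), ∃ y ∈ S x, ∀ z ∈ S x, f y ≤ f z + (1/2 : ℝ)^n := by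
    intro x n
    have hlt : sInf (f '' S x) < sInf (f '' S x) + (1/2 : ℝ)^n := by
      have : (0:ℝ) < (1/2 : ℝ)^n := by positivity
      linarith
    obtain ⟨_, ⟨y, hy, rfl⟩, hy2⟩ := exists_lt_of_csInf_lt (hne x) hlt
    refine ⟨y, hy, fun z hz => ?_⟩
    have : sInf (f '' S x) ≤ f z := csInf_le (hbdd x) ⟨z, hz, rfl⟩
    linarith
  choose g hg1 hg2 using hchoice
  let u : ℕ → X := fun n => Nat.rec x0 (fun n x => g x n) n
  have hu0 : u 0 = x0 := rfl
  have husucc : ∀ n, u (n+1) = g (u n) n := fun n => rfl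
  have hmem1 : ∀ n, u (n+1) ∈ S (u n) := fun n => by rw [husucc]; exact hg1 _ _
  have hmem : ∀ n k, u (n+k) ∈ S (u n) := by
    intro n k
    induction k with
    | zero => exact hself _
    | succ k ih => exact htrans _ _ _ ih (hmem1 (n+k))
  -- points of S (u (n+1)) are close to u (n+1)
  have hclose : ∀ n z, z ∈ S (u (n+1)) → ε * dist (u (n+1)) z ≤ (1/2 : ℝ)^n := by
    intro n z hz
    have hz' : z ∈ S (u n) := htrans _ _ _ (hmem1 n) hz
    have h1 : f (u (n+1)) ≤ f z + (1/2 : ℝ)^n := by rw [husucc]; exact hg2 _ _ _ hz'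
    have h2 : f z + ε * dist (u (n+1)) z ≤ f (u (n+1)) := hz
    linarith
  have hcauchy : CauchySeq (fun n => u (n+1)) := by
    refine cauchySeq_of_le_geometric (1/2 : ℝ) (1/ε) (by norm_num) fun n => ?_
    have h1 := hclose n (u (n+1+1)) (hmem1 (n+1))
    rw [div_mul_eq_mul_div, one_mul, le_div_iff₀ hε]
    linarith
  obtain ⟨x, hx⟩ := cauchySeq_tendsto_of_complete hcauchy
  have hx' : Tendsto u atTop (𝓝 x) := (tendsto_add_atTop_iff_nat 1).1 hx
  have hxS : ∀ n, x ∈ S (u n) := by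
    intro n
    refine (hclosed (u n)).mem_of_tendsto hx' ?_
    filter_upwards [eventually_ge_atTop n] with k hk
    obtain ⟨j, rfl⟩ := Nat.exists_eq_add_of_le hk
    exact hmem n j
  refine ⟨x, ?_, ?_⟩
  · have := hxS 0
    simpa [hS, hu0] using this
  · intro y
    by_contra hcon
    push_neg at hcon
    have hyS : y ∈ S x := by simp only [hS, mem_setOf_eq]; linarith
    have hyn : ∀ n, ε * dist (u (n+1)) y ≤ (1/2 : ℝ)^n := fun n =>
      hclose n y (htrans _ _ _ (hxS (n+1)) hyS)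
    have hlim1 : Tendsto (fun n => ε * dist (u (n+1)) y) atTop (𝓝 (ε * dist x y)) :=
      (hx.dist tendsto_const_nhds).const_mul ε
    have hlim2 : Tendsto (fun n : ℕ => (1/2 : ℝ)^n) atTop (𝓝 0) :=
      tendsto_pow_atTop_nhds_zero_of_lt_one (by norm_num) (by norm_num)
    have h0 : ε * dist x y ≤ 0 := le_of_tendsto_of_tendsto' hlim1 hlim2 hyn
    have h1 : dist x y = 0 := by
      have hd := dist_nonneg (x := x) (y := y)
      nlinarith
    have hxy : x = y := dist_eq_zero.1 h1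
    subst hxy
    simp at hcon

end Vale.Agent.P171
end
end

section

section

open Filter Topology Set

namespace Vale.Agent.P171

/-- `y` maximises `z ↦ p (μ + α z) - α z² / 2` over `z ≥ 0`. -/
def IsMx (p : ℝ → ℝ) (α μ y : ℝ) : Prop :=
  0 ≤ y ∧ ∀ z : ℝ, 0 ≤ z → p (μ + α * z) - α * z ^ 2 / 2 ≤ p (μ + α * y) - α * y ^ 2 / 2

lemma conv_three {p : ℝ → ℝ} (hconv : ConvexOn ℝ univ p) {s r θ : ℝ} (hθ : 0 < θ) :
    (1 + θ) * p r ≤ p (r - θ * (s - r)) + θ * p s := by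
  have h1 : (1 / (1 + θ)) * (r - θ * (s - r)) + (θ / (1 + θ)) * s = r := by
    field_simp
    ring
  have ha : 0 ≤ 1 / (1 + θ) := by positivity
  have hb : 0 ≤ θ / (1 + θ) := by positivity
  have hab : 1 / (1 + θ) + θ / (1 + θ) = 1 := by field_simp
  have h2 := hconv.2 (mem_univ (r - θ * (s - r))) (mem_univ s) ha hb hab
  simp only [smul_eq_mul] at h2
  rw [h1] at h2
  have h3 : (1 + θ) * p r ≤ (1 + θ) * (1 / (1 + θ) * p (r - θ * (s - r)) + θ / (1 + θ) * p s) :=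
    mul_le_mul_of_nonneg_left h2 (by positivity)
  have h4 : (1 + θ) * (1 / (1 + θ) * p (r - θ * (s - r)) + θ / (1 + θ) * p s) =
      p (r - θ * (s - r)) + θ * p s := by
    field_simp
  linarith

/-- the maximality inequality in terms of the point `s = μ + α z` -/
lemma IsMx.le {p : ℝ → ℝ} {α μ y : ℝ} (hα : 0 < α) (h : IsMx p α μ y) {s : ℝ} (hs : μ ≤ s) :
    p s ≤ p (μ + α * y) + y * (s - (μ + α * y)) + (s - (μ + α * y)) ^ 2 / (2 * α) := by
  have hz : 0 ≤ (s - μ) / α := div_nonneg (by linarith) hα.le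
  have h1 := h.2 _ hz
  have h2 : μ + α * ((s - μ) / α) = s := by field_simp; ring
  rw [h2] at h1
  have h3 : α * ((s - μ) / α) ^ 2 / 2 = (s - μ) ^ 2 / (2 * α) := by field_simp
  rw [h3] at h1
  have h4 : (s - μ) ^ 2 / (2 * α) - α * y ^ 2 / 2 =
      y * (s - (μ + α * y)) + (s - (μ + α * y)) ^ 2 / (2 * α) := by
    field_simp
    ring
  linarith

lemma le_of_forall_theta {a b c : ℝ} {θ₀ : ℝ} (hθ₀ : 0 < θ₀)
    (h : ∀ θ : ℝ, 0 < θ → θ ≤ θ₀ → a - θ * c ≤ b) : a ≤ b := by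
  by_contra hcon
  push Not at hcon
  have hab : 0 < a - b := by linarith
  have h1 := h (min θ₀ ((a - b) / (2 * (|c| + 1)))) (by positivity) (min_le_left _ _)
  have h2 : min θ₀ ((a - b) / (2 * (|c| + 1))) * c ≤ (a - b) / 2 := by
    calc min θ₀ ((a - b) / (2 * (|c| + 1))) * c ≤ min θ₀ ((a - b) / (2 * (|c| + 1))) * |c| :=
          mul_le_mul_of_nonneg_left (le_abs_self c) (by positivity)
      _ ≤ ((a - b) / (2 * (|c| + 1))) * |c| :=
          mul_le_mul_of_nonneg_right (min_le_right _ _) (abs_nonneg c)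
      _ ≤ ((a - b) / (2 * (|c| + 1))) * (|c| + 1) :=
          mul_le_mul_of_nonneg_left (by linarith) (by positivity)
      _ = (a - b) / 2 := by field_simp
  linarith

/-- subgradient inequality to the left of the maximiser -/
lemma IsMx.left {p : ℝ → ℝ} (hconv : ConvexOn ℝ univ p) {α μ y : ℝ} (hα : 0 < α)
    (h : IsMx p α μ y) {s : ℝ} (hs : s ≤ μ + α * y) :
    p (μ + α * y) + y * (s - (μ + α * y)) ≤ p s := by
  set r := μ + α * y with hr
  have hyr : μ ≤ r := by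
    have := mul_nonneg hα.le h.1
    linarith
  refine le_of_forall_theta (c := (s - r) ^ 2 / (2 * α)) (θ₀ := 1) one_pos fun θ hθ _ => ?_
  have h1 := conv_three hconv (s := s) (r := r) hθ
  have h2 : μ ≤ r - θ * (s - r) := by
    have : θ * (s - r) ≤ 0 := mul_nonpos_of_nonneg_of_nonpos hθ.le (by linarith)
    linarith
  have h3 := h.le hα h2
  rw [← hr] at h3
  have h4 : (r - θ * (s - r) - r) ^ 2 / (2 * α) = θ ^ 2 * ((s - r) ^ 2 / (2 * α)) := by ring
  rw [h4] at h3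
  have h5 : θ * (p r + y * (s - r) - θ * ((s - r) ^ 2 / (2 * α))) ≤ θ * p s := by nlinarith
  exact le_of_mul_le_mul_left h5 hθ

/-- subgradient inequality to the right of the maximiser -/
lemma IsMx.right {p : ℝ → ℝ} (hconv : ConvexOn ℝ univ p) {α μ y : ℝ} (hα : 0 < α)
    (h : IsMx p α μ y) (hy : 0 < y) {s : ℝ} (hs : μ + α * y ≤ s) :
    p (μ + α * y) + y * (s - (μ + α * y)) ≤ p s := by
  set r := μ + α * y with hr
  have hyr : 0 < r - μ := by
    have := mul_pos hα hy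
    linarith
  refine le_of_forall_theta (c := (s - r) ^ 2 / (2 * α)) (θ₀ := (r - μ) / (s - r + 1))
    (div_pos hyr (by linarith)) fun θ hθ hθ' => ?_
  have h1 := conv_three hconv (s := s) (r := r) hθ
  have h2 : μ ≤ r - θ * (s - r) := by
    rw [le_div_iff₀ (by linarith)] at hθ'
    nlinarith
  have h3 := h.le hα h2
  rw [← hr] at h3
  have h4 : (r - θ * (s - r) - r) ^ 2 / (2 * α) = θ ^ 2 * ((s - r) ^ 2 / (2 * α)) := by ring
  rw [h4] at h3
  have h5 : θ * (p r + y * (s - r) - θ * ((s - r) ^ 2 / (2 * α))) ≤ θ * p s := by nlinarith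
  exact le_of_mul_le_mul_left h5 hθ


/-- no maximiser in the gap -/
lemma IsMx.gap {p : ℝ → ℝ} (hconv : ConvexOn ℝ univ p) {α m1 m2 d η μ0 : ℝ} (hα : 0 < α)
    (hm1 : 0 ≤ m1) (hd : 0 < d) (hη : η < α * d ^ 2 / 2)
    (hkink : ∀ s, p μ0 + max (m1 * (s - μ0)) (m2 * (s - μ0)) - η ≤ p s)
    {μ y : ℝ} (h : IsMx p α μ y) : y ≤ m1 + d ∨ m2 - d ≤ y := by
  by_contra hcon
  push Not at hcon
  obtain ⟨h1, h2⟩ := hcon
  have hy : 0 < y := by linarith
  set r := μ + α * y with hr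
  have hsub : p r + y * (μ0 - r) ≤ p μ0 := by
    rcases le_total μ0 r with h3 | h3
    · exact h.left hconv hα h3
    · exact h.right hconv hα hy h3
  have hyd : d < y := by linarith
  rcases le_total μ0 r with h3 | h3
  · -- use the point r + α d
    have h4 := h.le hα (s := r + α * d) (by
      have := mul_pos hα hd
      have := mul_pos hα hy
      linarith)
    have h5 := hkink (r + α * d)
    have h6 : m2 * (r + α * d - μ0) ≤ max (m1 * (r + α * d - μ0)) (m2 * (r + α * d - μ0)) :=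
      le_max_right _ _
    rw [← hr] at h4
    have h7 : (r + α * d - r) ^ 2 / (2 * α) = α * d ^ 2 / 2 := by field_simp; ring
    rw [h7] at h4
    have h8 : y * (r + α * d - r) = y * (α * d) := by ring
    rw [h8] at h4
    have h9 : 0 ≤ (m2 - y - d) * (r + α * d - μ0) :=
      mul_nonneg (by linarith) (by have := mul_pos hα hd; linarith)
    have h10 : 0 ≤ d * (r - μ0) := mul_nonneg hd.le (by linarith)
    nlinarith
  · -- use the point r - α d
    have h4 := h.le hα (s := r - α * d) (by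
      have : α * d ≤ α * y := mul_le_mul_of_nonneg_left hyd.le hα.le
      linarith)
    have h5 := hkink (r - α * d)
    have h6 : m1 * (r - α * d - μ0) ≤ max (m1 * (r - α * d - μ0)) (m2 * (r - α * d - μ0)) :=
      le_max_left _ _
    rw [← hr] at h4
    have h7 : (r - α * d - r) ^ 2 / (2 * α) = α * d ^ 2 / 2 := by field_simp; ring
    rw [h7] at h4
    have h8 : y * (r - α * d - r) = -(y * (α * d)) := by ring
    rw [h8] at h4
    have h9 : 0 ≤ (y - m1 - d) * (μ0 - (r - α * d)) :=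
      mul_nonneg (by linarith) (by have := mul_pos hα hd; linarith)
    have h10 : 0 ≤ d * (μ0 - r) := mul_nonneg hd.le (by linarith)
    nlinarith

lemma continuous_of_convexOn {p : ℝ → ℝ} (hconv : ConvexOn ℝ univ p) : Continuous p := by
  have h := hconv.continuousOn isOpen_univ
  exact continuousOn_univ.1 h

/-- bound for maximisers -/
lemma IsMx.bound {p : ℝ → ℝ} {α C : ℝ} (hα : 0 < α)
    (hgrow : ∀ ν, p ν ≤ C + ν ^ 2 / (8 * α)) {μ y : ℝ}
    (h : p μ ≤ p (μ + α * y) - α * y ^ 2 / 2) :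
    y ^ 2 ≤ 4 / α * (C + μ ^ 2 / (4 * α) - p μ) := by
  have h1 := hgrow (μ + α * y)
  have h2 : (μ + α * y) ^ 2 / (8 * α) ≤ μ ^ 2 / (4 * α) + α * y ^ 2 / 4 := by
    rw [div_le_iff₀ (by positivity)]
    have h3 : (μ ^ 2 / (4 * α) + α * y ^ 2 / 4) * (8 * α) = 2 * μ ^ 2 + 2 * (α * y) ^ 2 := by
      field_simp
      ring
    rw [h3]
    nlinarith [sq_nonneg (μ - α * y)]
  have h4 : α * y ^ 2 / 4 ≤ C + μ ^ 2 / (4 * α) - p μ := by linarith
  have h5 : y ^ 2 = 4 / α * (α * y ^ 2 / 4) := by field_simp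
  rw [h5]
  exact mul_le_mul_of_nonneg_left h4 (by positivity)

lemma exists_IsMx {p : ℝ → ℝ} (hconv : ConvexOn ℝ univ p) {α C : ℝ} (hα : 0 < α)
    (hgrow : ∀ ν, p ν ≤ C + ν ^ 2 / (8 * α)) (μ : ℝ) : ∃ y, IsMx p α μ y := by
  have hcont := continuous_of_convexOn hconv
  set B : ℝ := 4 / α * (C + μ ^ 2 / (4 * α) - p μ) with hB
  set Y : ℝ := |B| + 1 with hY
  have hY0 : 0 ≤ Y := by positivity
  have hF : Continuous (fun z : ℝ => p (μ + α * z) - α * z ^ 2 / 2) := by fun_prop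
  obtain ⟨y, hy, hmax⟩ := (isCompact_Icc (a := (0:ℝ)) (b := Y)).exists_isMaxOn
    (nonempty_Icc.2 hY0) hF.continuousOn
  refine ⟨y, hy.1, fun z hz => ?_⟩
  by_cases hzY : z ≤ Y
  · exact hmax ⟨hz, hzY⟩
  · push Not at hzY
    have h0 : p (μ + α * 0) - α * 0 ^ 2 / 2 ≤ p (μ + α * y) - α * y ^ 2 / 2 :=
      hmax ⟨le_rfl, hY0⟩
    by_contra hcon
    push Not at hcon
    have h1 : p μ ≤ p (μ + α * z) - α * z ^ 2 / 2 := by
      have : p (μ + α * 0) - α * 0 ^ 2 / 2 = p μ := by simp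
      linarith
    have h2 := IsMx.bound hα hgrow h1
    have h3 : B ≤ |B| := le_abs_self B
    have h4 : 1 ≤ Y := by rw [hY]; linarith [abs_nonneg B]
    nlinarith

lemma IsMx.limit {p : ℝ → ℝ} (hcont : Continuous p) {α μ y : ℝ} {μs ys : ℕ → ℝ}
    (hμ : Tendsto μs atTop (𝓝 μ)) (hy : Tendsto ys atTop (𝓝 y))
    (h : ∀ n, IsMx p α (μs n) (ys n)) : IsMx p α μ y := by
  refine ⟨ge_of_tendsto' hy fun n => (h n).1, fun z hz => ?_⟩
  have h1 : Tendsto (fun n => p (μs n + α * z) - α * z ^ 2 / 2) atTop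
      (𝓝 (p (μ + α * z) - α * z ^ 2 / 2)) :=
    ((hcont.tendsto _).comp (hμ.add_const _)).sub_const _
  have h2 : Tendsto (fun n => p (μs n + α * ys n) - α * ys n ^ 2 / 2) atTop
      (𝓝 (p (μ + α * y) - α * y ^ 2 / 2)) :=
    ((hcont.tendsto _).comp (hμ.add (hy.const_mul α))).sub (((hy.pow 2).const_mul α).div_const 2)
  exact le_of_tendsto_of_tendsto' h1 h2 fun n => (h n).2 z hz

lemma isClosed_mx {p : ℝ → ℝ} (hconv : ConvexOn ℝ univ p) {α C : ℝ} (hα : 0 < α)
    (hgrow : ∀ ν, p ν ≤ C + ν ^ 2 / (8 * α)) {S : Set ℝ} (hS : IsClosed S) :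
    IsClosed {μ | ∃ y ∈ S, IsMx p α μ y} := by
  have hcont := continuous_of_convexOn hconv
  refine IsSeqClosed.isClosed fun μs μ hmem hμ => ?_
  choose ys hyS hmx using hmem
  have hb : ∀ n, ys n ^ 2 ≤ 4 / α * (C + μs n ^ 2 / (4 * α) - p (μs n)) := by
    intro n
    refine IsMx.bound hα hgrow ?_
    have := (hmx n).2 0 le_rfl
    simpa using this
  have hlim : Tendsto (fun n => 4 / α * (C + μs n ^ 2 / (4 * α) - p (μs n))) atTop
      (𝓝 (4 / α * (C + μ ^ 2 / (4 * α) - p μ))) :=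
    ((((hμ.pow 2).div_const _).const_add C).sub ((hcont.tendsto _).comp hμ)).const_mul _
  obtain ⟨Bd, hBd⟩ := hlim.bddAbove_range
  have hbound : ∀ n, ys n ∈ Icc (0:ℝ) (|Bd| + 1) := by
    intro n
    refine ⟨(hmx n).1, ?_⟩
    have h1 : ys n ^ 2 ≤ |Bd| := (hb n).trans ((hBd (mem_range_self n)).trans (le_abs_self _))
    nlinarith [abs_nonneg Bd]
  obtain ⟨y, hy, φ, hφ, hconvy⟩ := isCompact_Icc.tendsto_subseq hbound
  refine ⟨y, hS.mem_of_tendsto hconvy (Eventually.of_forall fun n => hyS (φ n)), ?_⟩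
  exact IsMx.limit hcont (hμ.comp hφ.tendsto_atTop) hconvy fun n => hmx (φ n)

/-- Persistence of a kink under the mean field transform. -/
theorem kink_persist {p : ℝ → ℝ} (hconv : ConvexOn ℝ univ p)
    {α C m1 m2 d η μ0 : ℝ} (hα : 0 < α) (hgrow : ∀ ν, p ν ≤ C + ν ^ 2 / (8 * α))
    (hm1 : 0 ≤ m1) (hd : 0 < d) (hgap : m1 + d < m2 - d) (hη : η < α * d ^ 2 / 2)
    (hkink : ∀ s, p μ0 + max (m1 * (s - μ0)) (m2 * (s - μ0)) - η ≤ p s) :
    ∃ μ1 T1 : ℝ, (∀ y : ℝ, 0 ≤ y → p (μ1 + α * y) - α * y ^ 2 / 2 ≤ T1) ∧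
      ∀ s : ℝ, ∃ y : ℝ, 0 ≤ y ∧
        T1 + max ((m1 + d) * (s - μ1)) ((m2 - d) * (s - μ1)) ≤
          p (s + α * y) - α * y ^ 2 / 2 := by
  have hA : IsClosed {μ | ∃ y ∈ Iic (m1 + d), IsMx p α μ y} := isClosed_mx hconv hα hgrow isClosed_Iic
  have hB : IsClosed {μ | ∃ y ∈ Ici (m2 - d), IsMx p α μ y} := isClosed_mx hconv hα hgrow isClosed_Ici
  have hcover : (univ : Set ℝ) ⊆
      {μ | ∃ y ∈ Iic (m1 + d), IsMx p α μ y} ∪ {μ | ∃ y ∈ Ici (m2 - d), IsMx p α μ y} := by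
    intro μ _
    obtain ⟨y, hy⟩ := exists_IsMx hconv hα hgrow μ
    rcases hy.gap hconv hα hm1 hd hη hkink with h | h
    · exact Or.inl ⟨y, h, hy⟩
    · exact Or.inr ⟨y, h, hy⟩
  -- the first set is nonempty
  have hAne : (univ ∩ {μ | ∃ y ∈ Iic (m1 + d), IsMx p α μ y}).Nonempty := by
    by_contra hcon
    have hall : ∀ μ y, IsMx p α μ y → m2 - d ≤ y := by
      intro μ y hy
      rcases hy.gap hconv hα hm1 hd hη hkink with h | h
      · exact absurd ⟨μ, mem_univ _, y, h, hy⟩ hcon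
      · exact h
    obtain ⟨y, hy⟩ := exists_IsMx hconv hα hgrow μ0
    set K : ℝ := p (μ0 + α * y) - α * y ^ 2 / 2 - p μ0 + η with hK
    -- go to a very negative point
    set c : ℝ := m2 - d - m1 with hc
    have hc0 : 0 < c := by rw [hc]; linarith
    set t : ℝ := (|K| + 1) / c with ht
    have ht0 : 0 < t := by positivity
    obtain ⟨z, hz⟩ := exists_IsMx hconv hα hgrow (μ0 - t)
    have hz1 := hall _ _ hz
    have hzpos : 0 < z := by linarith
    have h1 := hz.right hconv hα hzpos (s := μ0 + α * z) (by linarith)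
    have h2 := hy.2 z hz.1
    have h3 := hz.2 0 le_rfl
    have h4 := hkink (μ0 - t)
    have h5 : m1 * (μ0 - t - μ0) ≤ max (m1 * (μ0 - t - μ0)) (m2 * (μ0 - t - μ0)) := le_max_left _ _
    have h6 : p (μ0 - t + α * 0) - α * 0 ^ 2 / 2 = p (μ0 - t) := by simp
    rw [h6] at h3
    have h7 : z * (μ0 + α * z - (μ0 - t + α * z)) = z * t := by ring
    rw [h7] at h1
    have h8 : (m2 - d) * t ≤ z * t := mul_le_mul_of_nonneg_right hz1 ht0.le
    have h9 : c * t ≤ K := by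
      rw [hc, hK]
      nlinarith
    have h10 : c * t = |K| + 1 := by rw [ht]; field_simp
    linarith [le_abs_self K]
  have hBne : (univ ∩ {μ | ∃ y ∈ Ici (m2 - d), IsMx p α μ y}).Nonempty := by
    by_contra hcon
    have hall : ∀ μ y, IsMx p α μ y → y ≤ m1 + d := by
      intro μ y hy
      rcases hy.gap hconv hα hm1 hd hη hkink with h | h
      · exact h
      · exact absurd ⟨μ, mem_univ _, y, h, hy⟩ hcon
    obtain ⟨y, hy⟩ := exists_IsMx hconv hα hgrow μ0
    set K : ℝ := p (μ0 + α * y) - α * y ^ 2 / 2 - p μ0 + η with hK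
    set c : ℝ := m2 - (m1 + d) with hc
    have hc0 : 0 < c := by rw [hc]; linarith
    set t : ℝ := (|K| + 1) / c with ht
    have ht0 : 0 < t := by positivity
    obtain ⟨z, hz⟩ := exists_IsMx hconv hα hgrow (μ0 + t)
    have hz1 := hall _ _ hz
    have h1 := hz.left hconv hα (s := μ0 + α * z) (by linarith)
    have h2 := hy.2 z hz.1
    have h3 := hz.2 0 le_rfl
    have h4 := hkink (μ0 + t)
    have h5 : m2 * (μ0 + t - μ0) ≤ max (m1 * (μ0 + t - μ0)) (m2 * (μ0 + t - μ0)) := le_max_right _ _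
    have h6 : p (μ0 + t + α * 0) - α * 0 ^ 2 / 2 = p (μ0 + t) := by simp
    rw [h6] at h3
    have h7 : z * (μ0 + α * z - (μ0 + t + α * z)) = -(z * t) := by ring
    rw [h7] at h1
    have h8 : z * t ≤ (m1 + d) * t := mul_le_mul_of_nonneg_right hz1 ht0.le
    have h9 : c * t ≤ K := by
      rw [hc, hK]
      nlinarith
    have h10 : c * t = |K| + 1 := by rw [ht]; field_simp
    linarith [le_abs_self K]
  obtain ⟨μ1, -, ⟨y1, hy1, hmx1⟩, ⟨y2, hy2, hmx2⟩⟩ :=
    (isPreconnected_closed_iff.1 isPreconnected_univ) _ _ hA hB hcover hAne hBne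
  have hy1' : y1 ≤ m1 + d := hy1
  have hy2' : m2 - d ≤ y2 := hy2
  refine ⟨μ1, p (μ1 + α * y1) - α * y1 ^ 2 / 2, fun y hy => hmx1.2 y hy, fun s => ?_⟩
  rcases le_total s μ1 with h | h
  · refine ⟨y1, hmx1.1, ?_⟩
    have h1 := hmx1.left hconv hα (s := s + α * y1) (by linarith)
    have h2 : y1 * (s + α * y1 - (μ1 + α * y1)) = y1 * (s - μ1) := by ring
    rw [h2] at h1
    have h3 : max ((m1 + d) * (s - μ1)) ((m2 - d) * (s - μ1)) ≤ y1 * (s - μ1) := by
      refine max_le ?_ ?_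
      · exact mul_le_mul_of_nonpos_right hy1' (by linarith)
      · exact mul_le_mul_of_nonpos_right (by linarith) (by linarith)
    linarith
  · refine ⟨y2, hmx2.1, ?_⟩
    have hpos : 0 < y2 := by linarith
    have h1 := hmx2.right hconv hα hpos (s := s + α * y2) (by linarith)
    have h2 : y2 * (s + α * y2 - (μ1 + α * y2)) = y2 * (s - μ1) := by ring
    rw [h2] at h1
    have h3 : max ((m1 + d) * (s - μ1)) ((m2 - d) * (s - μ1)) ≤ y2 * (s - μ1) := by
      refine max_le ?_ ?_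
      · exact mul_le_mul_of_nonneg_right (by linarith) (by linarith)
      · exact mul_le_mul_of_nonneg_right hy2' (by linarith)
    have h4 : p (μ1 + α * y1) - α * y1 ^ 2 / 2 = p (μ1 + α * y2) - α * y2 ^ 2 / 2 :=
      le_antisymm (hmx2.2 y1 hmx1.1) (hmx1.2 y2 hmx2.1)
    linarith

end Vale.Agent.P171
end
end

section

section

open MeasureTheory Filter Topology

namespace Vale.Agent.P171

theorem kink_step {p : ℝ → ℝ} (hp : ConvexOn ℝ Set.univ p) (_hmono : Monotone p) {α C : ℝ}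
    (hα : 0 < α) (hgrow : ∀ ν, p ν ≤ C + ν ^ 2 / (8 * α)) {μ₀ m₁ m₂ d η : ℝ} (hm : 0 ≤ m₁)
    (hd : 0 < d) (hmd : m₁ + d < m₂ - d) (hη : η < α * d ^ 2 / 2)
    (hk : ∀ s, p μ₀ + max (m₁ * (s - μ₀)) (m₂ * (s - μ₀)) - η ≤ p s) :
    ∃ μ₁ T₁ : ℝ, (∀ y, 0 ≤ y → p (μ₁ + α * y) - α * y ^ 2 / 2 ≤ T₁) ∧
      ∀ s, ∃ y, 0 ≤ y ∧ T₁ + max ((m₁ + d) * (s - μ₁)) ((m₂ - d) * (s - μ₁)) ≤
        p (s + α * y) - α * y ^ 2 / 2 :=
  kink_persist hp hα hgrow hm hd hmd hη hk

end Vale.Agent.P171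
end
end

section

section

open MeasureTheory Filter Topology

namespace Vale.Agent.P171

/-- A point with two different supporting slopes is a point of nondifferentiability. -/
theorem not_differentiableAt_of_kink {P : ℝ → ℝ} {μ m₁ m₂ : ℝ} (hm : m₁ < m₂)
    (h : ∀ s, P μ + max (m₁ * (s - μ)) (m₂ * (s - μ)) ≤ P s) : ¬ DifferentiableAt ℝ P μ := by
  intro hd
  have hder := hd.hasDerivAt
  have hslope := hasDerivAt_iff_tendsto_slope.1 hder
  have hr : Tendsto (slope P μ) (𝓝[>] μ) (𝓝 (deriv P μ)) :=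
    hslope.mono_left (nhdsWithin_mono _ (fun x hx => ne_of_gt hx))
  have hl : Tendsto (slope P μ) (𝓝[<] μ) (𝓝 (deriv P μ)) :=
    hslope.mono_left (nhdsWithin_mono _ (fun x hx => ne_of_lt hx))
  have h1 : m₂ ≤ deriv P μ := by
    refine ge_of_tendsto hr ?_
    filter_upwards [self_mem_nhdsWithin] with s hs
    have hs' : 0 < s - μ := sub_pos.2 hs
    rw [slope_def_field, le_div_iff₀ hs']
    have := h s
    have h2 : m₂ * (s - μ) ≤ max (m₁ * (s - μ)) (m₂ * (s - μ)) := le_max_right _ _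
    linarith
  have h2 : deriv P μ ≤ m₁ := by
    refine le_of_tendsto hl ?_
    filter_upwards [self_mem_nhdsWithin] with s hs
    have hs' : s - μ < 0 := sub_neg.2 hs
    rw [slope_def_field, div_le_iff_of_neg hs']
    have := h s
    have h2 : m₁ * (s - μ) ≤ max (m₁ * (s - μ)) (m₂ * (s - μ)) := le_max_left _ _
    linarith
  linarith

/-- The state of the recursion at stage `k`: an approximate kink of `p k`. -/
def KinkAt (p : ℝ → ℝ) (D m₁ m₂ η μ : ℝ) : Prop :=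
  |μ| ≤ D ∧ ∀ s, p μ + max (m₁ * (s - μ)) (m₂ * (s - μ)) - η ≤ p s

theorem kink_next {p q : ℝ → ℝ} {α η η' δ D m₁ m₂ s₀ μ C₀ : ℝ}
    (hconv : ConvexOn ℝ Set.univ p) (hmono : Monotone p) (hα : 0 < α)
    (hgrow : ∃ C, ∀ ν, p ν ≤ C + ν ^ 2 / (8 * α))
    (hlow : ∀ μ y, 0 ≤ y → p (μ + α * y) - α * y ^ 2 / 2 ≤ q μ)
    (hup : ∀ μ S, |μ| ≤ D → 0 ≤ S → (∀ y, 0 ≤ y → p (μ + α * y) - α * y ^ 2 / 2 ≤ S) →
      q μ ≤ S + η')
    (h0 : ∀ ν, 0 ≤ p ν) (h64 : ∀ ν, ν / 64 ≤ p ν) (hs₀ : q s₀ ≤ C₀)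
    (hD : 100 * C₀ + 2 * |s₀| ≤ D)
    (hδ : 0 < δ) (hη : η < α * δ ^ 2 / 2) (hm₁ : 0 ≤ m₁) (hm₁' : m₁ + δ ≤ 1 / 256)
    (hm₂ : 3 / 256 ≤ m₂ - δ)
    (hk : KinkAt p D m₁ m₂ η μ) :
    ∃ μ', KinkAt q D (m₁ + δ) (m₂ - δ) η' μ' := by
  obtain ⟨C, hC⟩ := hgrow
  obtain ⟨μ₁, T₁, hT, hT'⟩ := kink_step hconv hmono hα hC hm₁ hδ (by linarith) hη hk.2
  have hT1 : p μ₁ ≤ T₁ := by
    have := hT 0 le_rfl
    simpa using this
  have hT0 : 0 ≤ T₁ := (h0 μ₁).trans hT1
  have hT64 : μ₁ / 64 ≤ T₁ := (h64 μ₁).trans hT1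
  have hC0 : 0 ≤ C₀ := by
    have := hlow s₀ 0 le_rfl
    have h2 := h0 s₀
    simp at this
    linarith
  have hq : ∀ s, T₁ + max ((m₁ + δ) * (s - μ₁)) ((m₂ - δ) * (s - μ₁)) ≤ q s := by
    intro s
    obtain ⟨y, hy, hy'⟩ := hT' s
    exact hy'.trans (hlow s y hy)
  have hqs := (hq s₀).trans hs₀
  have hb : |μ₁| ≤ D := by
    have h1 : (m₁ + δ) * (s₀ - μ₁) ≤ max ((m₁ + δ) * (s₀ - μ₁)) ((m₂ - δ) * (s₀ - μ₁)) :=
      le_max_left _ _
    have h2 : (m₂ - δ) * (s₀ - μ₁) ≤ max ((m₁ + δ) * (s₀ - μ₁)) ((m₂ - δ) * (s₀ - μ₁)) :=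
      le_max_right _ _
    have h3 := le_abs_self s₀
    have h4 := neg_abs_le s₀
    rw [abs_le]
    constructor
    · by_contra hcon
      push Not at hcon
      have h5 : 0 ≤ s₀ - μ₁ := by linarith [abs_nonneg s₀]
      have h6 : 3 / 256 * (s₀ - μ₁) ≤ (m₂ - δ) * (s₀ - μ₁) := mul_le_mul_of_nonneg_right hm₂ h5
      linarith [abs_nonneg s₀]
    · by_contra hcon
      push Not at hcon
      have h5 : 0 ≤ μ₁ - s₀ := by linarith [abs_nonneg s₀]
      have h6 : (m₁ + δ) * (μ₁ - s₀) ≤ 1 / 256 * (μ₁ - s₀) := mul_le_mul_of_nonneg_right hm₁' h5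
      have h7 : (m₁ + δ) * (s₀ - μ₁) = - ((m₁ + δ) * (μ₁ - s₀)) := by ring
      linarith [abs_nonneg s₀]
  refine ⟨μ₁, hb, fun s => ?_⟩
  have h1 := hup μ₁ T₁ hb hT0 hT
  have h2 := hq s
  linarith

/-- The whole recursion, abstractly. -/
theorem iter_kink {p : ℕ → ℝ → ℝ} {P : ℝ → ℝ} {α δ η : ℕ → ℝ} {D s₀ C₀ : ℝ}
    (hconv : ∀ k, ConvexOn ℝ Set.univ (p k)) (hmono : ∀ k, Monotone (p k))
    (hα : ∀ k, 0 < α k) (hgrow : ∀ k, ∃ C, ∀ ν, p k ν ≤ C + ν ^ 2 / (8 * α k))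
    (hlow : ∀ k μ y, 0 ≤ y → p k (μ + α k * y) - α k * y ^ 2 / 2 ≤ p (k + 1) μ)
    (hup : ∀ k μ S, |μ| ≤ D → 0 ≤ S →
      (∀ y, 0 ≤ y → p k (μ + α k * y) - α k * y ^ 2 / 2 ≤ S) → p (k + 1) μ ≤ S + η (k + 1))
    (h0 : ∀ k ν, 0 ≤ p k ν) (h64 : ∀ k ν, ν / 64 ≤ p k ν) (hs₀ : ∀ k, p k s₀ ≤ C₀)
    (hD : 100 * C₀ + 2 * |s₀| ≤ D) (hδ : ∀ k, 0 < δ k)
    (hδs : ∀ n, ∑ k ∈ Finset.range n, δ k ≤ 1 / 256)
    (hη : ∀ k, η k < α k * δ k ^ 2 / 2) (hηlim : Tendsto η atTop (𝓝 0))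
    (hinit : KinkAt (p 0) D 0 (1 / 64) (η 0) 0)
    (hlim : ∀ s, Tendsto (fun k => p k s) atTop (𝓝 (P s))) :
    ∃ μ m₁ m₂ : ℝ, m₁ < m₂ ∧ ∀ s, P μ + max (m₁ * (s - μ)) (m₂ * (s - μ)) ≤ P s := by
  have hmonok : ∀ s, Monotone (fun k => p k s) := by
    intro s
    refine monotone_nat_of_le_succ fun k => ?_
    have := hlow k s 0 le_rfl
    simpa using this
  have hle : ∀ k s, p k s ≤ P s := fun k s => (hmonok s).ge_of_tendsto (hlim s) k
  -- partial sums
  set σ : ℕ → ℝ := fun n => ∑ k ∈ Finset.range n, δ k with hσ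
  have hσ0 : ∀ n, 0 ≤ σ n := fun n => Finset.sum_nonneg fun k _ => (hδ k).le
  have hσs : ∀ n, σ (n + 1) = σ n + δ n := fun n => Finset.sum_range_succ _ _
  have hσm : Monotone σ := monotone_nat_of_le_succ fun n => by rw [hσs]; linarith [hδ n]
  have hσb : BddAbove (Set.range σ) := ⟨1 / 256, by rintro _ ⟨n, rfl⟩; exact hδs n⟩
  have hσlim := tendsto_atTop_ciSup hσm hσb
  set σi : ℝ := ⨆ n, σ n with hσinf
  have hσi : σi ≤ 1 / 256 := ciSup_le fun n => hδs n
  -- the recursion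
  have hrec : ∀ k, ∃ μ, KinkAt (p k) D (σ k) (1 / 64 - σ k) (η k) μ := by
    intro k
    induction k with
    | zero =>
      refine ⟨0, ?_⟩
      have : σ 0 = 0 := by simp [hσ]
      rw [this, sub_zero]
      exact hinit
    | succ k ih =>
      obtain ⟨μ, hμ⟩ := ih
      have h1 := hδs (k + 1)
      have h2 : σ (k + 1) ≤ 1 / 256 := h1
      rw [hσs] at h2
      obtain ⟨μ', hμ'⟩ := kink_next (hconv k) (hmono k) (hα k) (hgrow k) (hlow k) (hup k) (h0 k)
        (h64 k) (hs₀ (k + 1)) hD (hδ k) (hη k) (hσ0 k) h2 (by linarith [hσ0 k]) hμ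
      refine ⟨μ', ?_⟩
      have h3 : 1 / 64 - σ (k + 1) = 1 / 64 - σ k - δ k := by rw [hσs]; ring
      rw [h3, hσs]
      exact hμ'
  choose μs hμs using hrec
  obtain ⟨μ, -, φ, hφ, hφlim⟩ := (isCompact_Icc (a := -D) (b := D)).tendsto_subseq
    (x := μs) (fun k => by
      have := (hμs k).1
      rw [abs_le] at this
      exact ⟨this.1, this.2⟩)
  refine ⟨μ, σi, 1 / 64 - σi, by linarith, fun s => ?_⟩
  have hcont : ∀ k, Continuous (p k) := fun k => continuous_of_convexOn (hconv k)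
  have hj : ∀ j, p j μ + max (σi * (s - μ)) ((1 / 64 - σi) * (s - μ)) ≤ P s := by
    intro j
    have hφt := hφ.tendsto_atTop
    have hs' : Tendsto (fun n => σ (φ n)) atTop (𝓝 σi) := hσlim.comp hφt
    have hm' : Tendsto (fun n => μs (φ n)) atTop (𝓝 μ) := hφlim
    have h1 : Tendsto (fun n => p j (μs (φ n)) +
        max (σ (φ n) * (s - μs (φ n))) ((1 / 64 - σ (φ n)) * (s - μs (φ n))) - η (φ n)) atTop
        (𝓝 (p j μ + max (σi * (s - μ)) ((1 / 64 - σi) * (s - μ)) - 0)) := by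
      refine Tendsto.sub (Tendsto.add (((hcont j).tendsto _).comp hm') ?_) (hηlim.comp hφt)
      refine Tendsto.max ?_ ?_
      · exact hs'.mul (tendsto_const_nhds.sub hm')
      · exact (tendsto_const_nhds.sub hs').mul (tendsto_const_nhds.sub hm')
    rw [sub_zero] at h1
    refine le_of_tendsto h1 ?_
    filter_upwards [hφt.eventually_ge_atTop j] with n hn
    have h2 := (hμs (φ n)).2 s
    have h3 : p j (μs (φ n)) ≤ p (φ n) (μs (φ n)) := hmonok _ hn
    have h4 := hle (φ n) s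
    linarith
  have h5 : Tendsto (fun j => p j μ + max (σi * (s - μ)) ((1 / 64 - σi) * (s - μ))) atTop
      (𝓝 (P μ + max (σi * (s - μ)) ((1 / 64 - σi) * (s - μ)))) := (hlim μ).add_const _
  exact le_of_tendsto' h5 hj

/-- Packaged version: chemical potentials are bounded by `D = 100 * C₀`, the slopes move by
`δ k = 2^(-10-k)` and the conclusion is nondifferentiability of the limit. -/
theorem iter_nondiff {p : ℕ → ℝ → ℝ} {P : ℝ → ℝ} {α err ε : ℕ → ℝ} {C₀ D : ℝ} {Cb : ℝ → ℝ}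
    (hconv : ∀ k, ConvexOn ℝ Set.univ (p k)) (hmono : ∀ k, Monotone (p k))
    (hα : ∀ k, 0 < α k) (hgrow : ∀ k, ∃ C, ∀ ν, p k ν ≤ C + ν ^ 2 / (8 * α k))
    (hlow : ∀ k μ y, 0 ≤ y → p k (μ + α k * y) - α k * y ^ 2 / 2 ≤ p (k + 1) μ)
    (hup : ∀ k μ S, |μ| ≤ D → 0 ≤ S →
      (∀ y, 0 ≤ y → p k (μ + α k * y) - α k * y ^ 2 / 2 ≤ S) → p (k + 1) μ ≤ S + err k)
    (h0 : ∀ k ν, 0 ≤ p k ν) (h64 : ∀ k ν, ν / 64 ≤ p k ν) (h00 : p 0 0 ≤ 1)
    (hC₀ : ∀ k, p k 0 ≤ C₀) (hD : 100 * C₀ ≤ D)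
    (hα0 : (2 : ℝ) ^ 22 ≤ α 0)
    (herr : ∀ k, err k < α (k + 1) * ((1 / 2 : ℝ) ^ (11 + k)) ^ 2 / 2)
    (herrlim : Tendsto err atTop (𝓝 0)) (hεlim : Tendsto ε atTop (𝓝 0))
    (hP1 : ∀ k ν, p k ν ≤ P ν) (hP2 : ∀ k ν, P ν ≤ p k ν + ε k * Cb ν) :
    ∃ μ : ℝ, ¬ DifferentiableAt ℝ P μ := by
  have hsum : ∀ n : ℕ, ∑ k ∈ Finset.range n, (1 / 2 : ℝ) ^ (10 + k) ≤ 1 / 256 := by
    intro n
    have h1 : ∑ k ∈ Finset.range n, (1 / 2 : ℝ) ^ (10 + k) =
        (1 / 2 : ℝ) ^ 10 * ∑ k ∈ Finset.range n, (1 / 2 : ℝ) ^ k := by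
      rw [Finset.mul_sum]
      exact Finset.sum_congr rfl fun k _ => pow_add _ _ _
    have h2 : ∑ k ∈ Finset.range n, (1 / 2 : ℝ) ^ k ≤ 2 := by
      rw [geom_sum_eq (by norm_num)]
      have h3 : (0 : ℝ) ≤ (1 / 2) ^ n := by positivity
      have h4 : ((1 / 2 : ℝ) ^ n - 1) / (1 / 2 - 1) = 2 - 2 * (1 / 2) ^ n := by ring
      linarith
    rw [h1]
    have h3 : (1 / 2 : ℝ) ^ 10 * ∑ k ∈ Finset.range n, (1 / 2 : ℝ) ^ k ≤ (1 / 2 : ℝ) ^ 10 * 2 :=
      mul_le_mul_of_nonneg_left h2 (by positivity)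
    refine h3.trans ?_
    norm_num
  have hC₀' : 0 ≤ C₀ := (h0 0 0).trans (hC₀ 0)
  obtain ⟨μ, m₁, m₂, hm, h⟩ := iter_kink (p := p) (P := P) (α := α)
    (δ := fun k => (1 / 2 : ℝ) ^ (10 + k)) (η := fun k => Nat.casesOn k 1 err) (D := D) (s₀ := 0)
    (C₀ := C₀) hconv hmono hα hgrow hlow hup h0 h64 hC₀ (by simpa using hD)
    (fun k => by positivity) hsum
    (fun k => by
      cases k with
      | zero =>
        show (1 : ℝ) < α 0 * ((1 / 2 : ℝ) ^ (10 + 0)) ^ 2 / 2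
        have h1 : α 0 * ((1 / 2 : ℝ) ^ (10 + 0)) ^ 2 / 2 = α 0 / 2 ^ 21 := by ring
        rw [h1, lt_div_iff₀ (by positivity)]
        calc (1 : ℝ) * 2 ^ 21 < 2 ^ 22 := by norm_num
          _ ≤ α 0 := hα0
      | succ k =>
        show err k < α (k + 1) * ((1 / 2 : ℝ) ^ (10 + (k + 1))) ^ 2 / 2
        have h1 := herr k
        have h2 : 10 + (k + 1) = 11 + k := by ring
        rw [h2]
        exact h1)
    ((tendsto_add_atTop_iff_nat 1).1 herrlim)
    ⟨by simp; linarith, fun s => by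
      show p 0 0 + max (0 * (s - 0)) (1 / 64 * (s - 0)) - 1 ≤ p 0 s
      have h1 : max (0 * (s - 0)) (1 / 64 * (s - 0)) ≤ p 0 s := by
        refine max_le ?_ ?_
        · simpa using h0 0 s
        · have := h64 0 s
          linarith
      linarith⟩
    (fun s => by
      have h1 : Tendsto (fun k => P s - ε k * Cb s) atTop (𝓝 (P s - 0 * Cb s)) :=
        tendsto_const_nhds.sub (hεlim.mul_const _)
      rw [zero_mul, sub_zero] at h1
      exact tendsto_of_tendsto_of_tendsto_of_le_of_le h1 tendsto_const_nhds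
        (fun k => by have := hP2 k s; simp only; linarith) (fun k => hP1 k s))
  exact ⟨μ, not_differentiableAt_of_kink hm h⟩

end Vale.Agent.P171
end
end

section

section

open MeasureTheory Filter Topology
open scoped ENNReal

namespace Vale.Agent.P171

/-- attractive part of the profile -/
noncomputable def tail (a : ℕ → ℝ) (r : ℝ) : ℝ := ∑' k, a k * J k r

theorem prof_eq (A : ℝ) (a : ℕ → ℝ) (r : ℝ) : prof A a r = (if r < 2 then A else 0) - tail a r := rfl

theorem tail_nonneg {a : ℕ → ℝ} (ha : ∀ k, 0 ≤ a k) (r : ℝ) : 0 ≤ tail a r :=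
  tsum_nonneg fun k => mul_nonneg (ha k) (J_nonneg k r)

theorem tail_smul (c : ℝ) (a : ℕ → ℝ) (r : ℝ) : tail (fun j => c * a j) r = c * tail a r := by
  unfold tail
  rw [← tsum_mul_left]
  congr 1
  ext k
  ring

theorem summable_single (k : ℕ) (t : ℝ) : Summable (fun j => if j = k then t else 0) :=
  summable_of_ne_finset_zero (s := {k}) (by
    intro j hj
    rw [if_neg (by simpa using hj)])

theorem tail_add_single {a : ℕ → ℝ} (ha : Summable a) (k : ℕ) (t : ℝ) (r : ℝ) :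
    tail (fun j => a j + if j = k then t else 0) r = tail a r + t * J k r := by
  unfold tail
  have h1 : (fun j => (a j + if j = k then t else 0) * J j r) =
      fun j => a j * J j r + (if j = k then t else 0) * J j r := by
    ext j; ring
  rw [h1, Summable.tsum_add (summable_aJ' ha r) (summable_aJ' (summable_single k t) r)]
  congr 1
  have h2 : (fun j => (if j = k then t else 0) * J j r) = fun j => if j = k then t * J k r else 0 := by
    ext j
    split_ifs with h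
    · rw [h]
    · simp
  rw [h2, tsum_ite_eq]

/-- decoupled pair function -/
noncomputable def Vθ (A : ℝ) (b : ℕ → ℝ) (τ : ℝ) (l θ : ℕ) (x y : E3) : ℝ :=
  (WA A b x y - τ) * same l θ x y

theorem same_le_one (l θ : ℕ) (x y : E3) : same l θ x y ≤ 1 := by
  unfold same; split_ifs <;> norm_num

theorem tail_zero_of_ge {b : ℕ → ℝ} {K : ℕ} (hbK : ∀ j, K ≤ j → b j = 0) {r : ℝ}
    (hr : (Rk K : ℝ) ≤ r) : tail b r = 0 := by
  unfold tail
  have : ∀ j, b j * J j r = 0 := by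
    intro j
    by_cases hj : K ≤ j
    · rw [hbK j hj, zero_mul]
    · have hj' : Rk j ≤ Rk K := by
        unfold Rk
        exact Nat.mul_le_mul_left _ (Nat.pow_le_pow_right (by norm_num) (by omega))
      have : J j r = 0 := by
        unfold J
        rw [if_neg]
        have : (Rk j : ℝ) ≤ Rk K := by exact_mod_cast hj'
        linarith
      rw [this, mul_zero]
  simp [this]

theorem decouple {A : ℝ} (hA0 : 0 ≤ A) {b : ℕ → ℝ} (hb0 : ∀ j, 0 ≤ b j) (hbs : Summable b)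
    {K : ℕ} (hbK : ∀ j, K ≤ j → b j = 0) {l : ℕ} (hl : 3 * Rk K < l) {k : ℕ} (hk : l ≤ Rk k)
    {t : ℝ} (ht : 0 ≤ t) {ι : Type} [Fintype ι] (x : ι → E3) :
    (∑ θ ∈ Finset.range l, quad (Vθ A (fun j => (1 - 3 * (Rk K : ℝ) / l)⁻¹ * b j)
      (125 * t / (l : ℝ) ^ 3) l θ) x) ≤
      l * quad (WA A (fun j => b j + if j = k then t else 0)) x := by
  have hl0 : 0 < l := by omega
  have hl0' : (0 : ℝ) < l := by exact_mod_cast hl0
  set c : ℝ := (1 - 3 * (Rk K : ℝ) / l)⁻¹ with hc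
  have hRl : 3 * (Rk K : ℝ) / l < 1 := by
    rw [div_lt_one hl0']
    exact_mod_cast hl
  have h1pos : 0 < 1 - 3 * (Rk K : ℝ) / l := by linarith
  have hcpos : 0 < c := inv_pos.mpr h1pos
  set τ : ℝ := 125 * t / (l : ℝ) ^ 3 with hτ
  -- expand the right side
  have hR : quad (WA A (fun j => b j + if j = k then t else 0)) x =
      quad (fun x y => if ‖x - y‖ < 2 then A else 0) x - quad (fun x y => tail b ‖x - y‖) x -
        t * quad (fun x y => J k ‖x - y‖) x := by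
    rw [← quad_smul, ← quad_sub, ← quad_sub]
    unfold quad WA
    refine Finset.sum_congr rfl fun i _ => Finset.sum_congr rfl fun j _ => ?_
    rw [prof_eq, tail_add_single hbs]
    ring
  -- expand each term of the left side
  have hL : ∀ θ, quad (Vθ A (fun j => c * b j) τ l θ) x =
      quad (fun x y => (if ‖x - y‖ < 2 then A else 0) * same l θ x y) x -
        quad (fun x y => c * tail b ‖x - y‖ * same l θ x y) x - τ * quad (same l θ) x := by
    intro θ
    rw [← quad_smul, ← quad_sub, ← quad_sub]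
    unfold quad Vθ WA
    refine Finset.sum_congr rfl fun i _ => Finset.sum_congr rfl fun j _ => ?_
    rw [prof_eq, tail_smul]
    ring
  have hcore : ∀ θ, quad (fun x y => (if ‖x - y‖ < 2 then A else 0) * same l θ x y) x ≤
      quad (fun x y => if ‖x - y‖ < 2 then A else 0) x := by
    intro θ
    apply quad_mono
    intro i j
    beta_reduce
    have h0 : 0 ≤ (if ‖x i - x j‖ < 2 then A else 0) := by split_ifs <;> simp [hA0]
    exact mul_le_of_le_one_right h0 (same_le_one _ _ _ _)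
  have hkac : ∀ θ, t * quad (fun x y => J k ‖x - y‖) x ≤ τ * quad (same l θ) x := by
    intro θ
    have h := quad_J_le l θ k hl0 hk x
    have h' := mul_le_mul_of_nonneg_left h ht
    refine h'.trans (le_of_eq ?_)
    rw [hτ]; ring
  have htail : (l : ℝ) * quad (fun x y => tail b ‖x - y‖) x ≤
      ∑ θ ∈ Finset.range l, quad (fun x y => c * tail b ‖x - y‖ * same l θ x y) x := by
    have h1 : ∑ θ ∈ Finset.range l, quad (fun x y => c * tail b ‖x - y‖ * same l θ x y) x =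
        quad (fun x y => c * tail b ‖x - y‖ * ∑ θ ∈ Finset.range l, same l θ x y) x := by
      unfold quad
      rw [Finset.sum_comm]
      refine Finset.sum_congr rfl fun i _ => ?_
      rw [Finset.sum_comm]
      refine Finset.sum_congr rfl fun j _ => ?_
      beta_reduce
      rw [Finset.mul_sum]
    rw [h1, ← quad_smul]
    apply quad_mono
    intro i j
    beta_reduce
    by_cases hr : ‖x i - x j‖ < (Rk K : ℝ)
    · have h2 := sum_same_ge l hl0 (Rk K) hr
      have h3 : (l : ℝ) ≤ c * ∑ θ ∈ Finset.range l, same l θ (x i) (x j) := by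
        have h4 : (l : ℝ) = c * ((l : ℝ) - 3 * (Rk K : ℝ)) := by
          have h6 : (l : ℝ) - 3 * (Rk K : ℝ) = (1 - 3 * (Rk K : ℝ) / l) * l := by
            field_simp
          rw [h6, ← mul_assoc, hc, inv_mul_cancel₀ h1pos.ne', one_mul]
        calc (l : ℝ) = c * ((l : ℝ) - 3 * (Rk K : ℝ)) := h4
          _ ≤ _ := mul_le_mul_of_nonneg_left h2 hcpos.le
      have h5 := mul_le_mul_of_nonneg_right h3 (tail_nonneg hb0 ‖x i - x j‖)
      linarith
    · rw [tail_zero_of_ge hbK (not_lt.mp hr)]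
      simp
  rw [hR]
  simp_rw [hL]
  rw [Finset.sum_sub_distrib, Finset.sum_sub_distrib]
  have hsum1 : ∑ θ ∈ Finset.range l, quad (fun x y => (if ‖x - y‖ < 2 then A else 0) * same l θ x y) x
      ≤ l * quad (fun x y => if ‖x - y‖ < 2 then A else 0) x := by
    have := Finset.sum_le_sum (fun θ (_ : θ ∈ Finset.range l) => hcore θ)
    rwa [Finset.sum_const, Finset.card_range, nsmul_eq_mul] at this
  have hsum2 : (l : ℝ) * (t * quad (fun x y => J k ‖x - y‖) x) ≤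
      ∑ θ ∈ Finset.range l, τ * quad (same l θ) x := by
    have := Finset.sum_le_sum (fun θ (_ : θ ∈ Finset.range l) => hkac θ)
    rwa [Finset.sum_const, Finset.card_range, nsmul_eq_mul] at this
  linarith

end Vale.Agent.P171
end
end

section

section

open MeasureTheory Filter Topology
open scoped ENNReal

namespace Vale.Agent.P171

theorem measurable_blk (l θ : ℕ) : Measurable (blk l θ) := by
  rw [measurable_pi_iff]
  intro c
  unfold blk
  have h1 : Measurable (fun x : E3 => ⌊x c⌋) := by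
    apply Int.measurable_floor.comp
    fun_prop
  exact (measurable_of_countable (fun z : ℤ => (z + (θ : ℤ)) / (l : ℤ))).comp h1

theorem measurable_same (l θ : ℕ) : Measurable (Function.uncurry (same l θ)) := by
  have h1 : Measurable (fun p : E3 × E3 => (blk l θ p.1, blk l θ p.2)) :=
    ((measurable_blk l θ).comp measurable_fst).prodMk ((measurable_blk l θ).comp measurable_snd)
  classical
  have h2 : Measurable (fun q : (Fin 3 → ℤ) × (Fin 3 → ℤ) => if q.1 = q.2 then (1 : ℝ) else 0) :=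
    measurable_of_countable _
  have h3 := h2.comp h1
  have h4 : Function.uncurry (same l θ) =
      ((fun q : (Fin 3 → ℤ) × (Fin 3 → ℤ) => if q.1 = q.2 then (1 : ℝ) else 0) ∘
        fun p : E3 × E3 => (blk l θ p.1, blk l θ p.2)) := by
    ext p
    simp only [Function.uncurry, same, Function.comp]
  rw [h4]
  exact h3

theorem same_symm (l θ : ℕ) (x y : E3) : same l θ x y = same l θ y x := by
  unfold same
  by_cases h : blk l θ x = blk l θ y
  · rw [if_pos h, if_pos h.symm]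
  · rw [if_neg h, if_neg (fun h' => h h'.symm)]

theorem measurable_Vθ (A : ℝ) {b : ℕ → ℝ} (hb : ∀ k, 0 ≤ b k) (hs : Summable b) (τ : ℝ)
    (l θ : ℕ) : Measurable (Function.uncurry (Vθ A b τ l θ)) := by
  have h1 := measurable_WA A hb hs
  have h2 := measurable_same l θ
  exact (h1.sub measurable_const).mul h2

theorem Vθ_symm (A : ℝ) (b : ℕ → ℝ) (τ : ℝ) (l θ : ℕ) (x y : E3) :
    Vθ A b τ l θ x y = Vθ A b τ l θ y x := by
  unfold Vθ
  rw [WA_symm, same_symm]

/-- the block with index `g` -/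
def Bg (l θ : ℕ) (g : Fin 3 → ℤ) : Set E3 := {x | blk l θ x = g}

theorem measurableSet_Bg (l θ : ℕ) (g : Fin 3 → ℤ) : MeasurableSet (Bg l θ g) :=
  (measurable_blk l θ) (measurableSet_singleton g)

theorem Bg_subset (l θ : ℕ) (hl : 0 < l) (g : Fin 3 → ℤ) :
    Bg l θ g ⊆ (fun x => x + (WithLp.toLp 2 (fun c => (l : ℝ) * (g c : ℝ) - θ) : E3)) '' box l := by
  intro x hx
  refine ⟨x - (WithLp.toLp 2 (fun c => (l : ℝ) * (g c : ℝ) - θ) : E3), ?_, by simp⟩
  intro c
  have h1 : (x - (WithLp.toLp 2 (fun c => (l : ℝ) * (g c : ℝ) - θ) : E3)) c =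
      x c - ((l : ℝ) * (g c : ℝ) - θ) := rfl
  rw [h1]
  have h2 : (⌊x c⌋ + (θ : ℤ)) / (l : ℤ) = g c := congrFun hx c
  have hl' : (0 : ℤ) < (l : ℤ) := by exact_mod_cast hl
  have h3 : g c * (l : ℤ) ≤ ⌊x c⌋ + (θ : ℤ) := by
    rw [← h2]; exact Int.ediv_mul_le _ hl'.ne'
  have h4 : ⌊x c⌋ + (θ : ℤ) < (g c + 1) * (l : ℤ) := by
    rw [← h2]; exact Int.lt_ediv_add_one_mul_self _ hl'
  have h5 : ⌊x c⌋ + (θ : ℤ) + 1 ≤ (g c + 1) * (l : ℤ) := h4
  have h3' : (g c : ℝ) * (l : ℝ) ≤ (⌊x c⌋ : ℝ) + θ := by exact_mod_cast h3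
  have h5' : (⌊x c⌋ : ℝ) + θ + 1 ≤ ((g c : ℝ) + 1) * (l : ℝ) := by exact_mod_cast h5
  have h6 := Int.floor_le (x c)
  have h7 := Int.lt_floor_add_one (x c)
  constructor
  · linarith
  · linarith

theorem box_cover (l θ m : ℕ) (hl : 0 < l) (hθ : θ < l) :
    box ((m * l : ℕ) : ℝ) ⊆
      ⋃ g ∈ (Fintype.piFinset (fun _ : Fin 3 => Finset.Icc (0 : ℤ) m)), Bg l θ g := by
  intro x hx
  simp only [Set.mem_iUnion]
  refine ⟨blk l θ x, ?_, rfl⟩
  rw [Fintype.mem_piFinset]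
  intro c
  obtain ⟨h1, h2⟩ := hx c
  have hl' : (0 : ℤ) < (l : ℤ) := by exact_mod_cast hl
  have h3 : 0 ≤ ⌊x c⌋ := Int.floor_nonneg.mpr h1
  have h4 : ⌊x c⌋ ≤ ((m * l : ℕ) : ℤ) := by
    have := Int.floor_le_floor h2
    rwa [Int.floor_natCast] at this
  rw [Finset.mem_Icc]
  unfold blk
  constructor
  · apply Int.ediv_nonneg _ hl'.le
    omega
  · have h5 : ⌊x c⌋ + (θ : ℤ) < ((m : ℤ) + 1) * l := by
      push_cast at h4
      have : (θ : ℤ) < l := by exact_mod_cast hθ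
      nlinarith
    have := Int.ediv_lt_of_lt_mul hl' h5
    omega

theorem block_product (A : ℝ) {b : ℕ → ℝ} (hb : ∀ k, 0 ≤ b k) (hs : Summable b) (τ ν : ℝ)
    {l θ m : ℕ} (hl : 0 < l) (hθ : θ < l) :
    GX (box ((m * l : ℕ) : ℝ)) (Vθ A b τ l θ) ν ≤
      (GX (box l) (fun x y => WA A b x y - τ) ν) ^ ((m + 1) ^ 3) := by
  set S := Fintype.piFinset (fun _ : Fin 3 => Finset.Icc (0 : ℤ) m) with hS
  have h1 : GX (box ((m * l : ℕ) : ℝ)) (Vθ A b τ l θ) ν ≤
      GX (⋃ g ∈ S, Bg l θ g) (Vθ A b τ l θ) ν := GX_mono_set (box_cover l θ m hl hθ) _ _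
  have h2 : GX (⋃ g ∈ S, Bg l θ g) (Vθ A b τ l θ) ν ≤ ∏ g ∈ S, GX (Bg l θ g) (Vθ A b τ l θ) ν := by
    apply GX_biUnion_le S (fun g _ => measurableSet_Bg l θ g) _ (measurable_Vθ A hb hs τ l θ)
      (Vθ_symm A b τ l θ) ν
    · intro g _ g' _ hgg x hx y hy
      have : same l θ x y = 0 := by
        unfold same
        rw [if_neg]
        intro h
        apply hgg
        rw [← (show blk l θ x = g from hx), ← (show blk l θ y = g' from hy), h]
      unfold Vθ
      rw [this, mul_zero]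
    · intro g _ g' _ hgg
      rw [Set.disjoint_left]
      intro x hx hx'
      exact hgg ((show blk l θ x = g from hx).symm.trans hx')
  have h3 : ∀ g, GX (Bg l θ g) (Vθ A b τ l θ) ν ≤ GX (box l) (fun x y => WA A b x y - τ) ν := by
    intro g
    calc GX (Bg l θ g) (Vθ A b τ l θ) ν ≤ GX (Bg l θ g) (fun x y => WA A b x y - τ) ν := by
          apply GX_mono (measurableSet_Bg l θ g)
          intro N x hx
          have : quad (Vθ A b τ l θ) x = quad (fun x y => WA A b x y - τ) x := by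
            unfold quad Vθ
            refine Finset.sum_congr rfl fun i _ => Finset.sum_congr rfl fun j _ => ?_
            have hij : same l θ (x i) (x j) = 1 := by
              unfold same
              rw [if_pos]
              rw [show blk l θ (x i) = g from hx i, show blk l θ (x j) = g from hx j]
            rw [hij, mul_one]
          rw [this]
      _ ≤ GX ((fun x => x + (WithLp.toLp 2 (fun c => (l : ℝ) * (g c : ℝ) - θ) : E3)) '' box l)
            (fun x y => WA A b x y - τ) ν := GX_mono_set (Bg_subset l θ hl g) _ _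
      _ = GX (box l) (fun x y => WA A b x y - τ) ν := by
          apply GX_translate
          intro x y
          rw [WA_translate]
  have hcard : S.card = (m + 1) ^ 3 := by
    rw [hS, Fintype.card_piFinset]
    simp only [Int.card_Icc, Finset.prod_const, Finset.card_univ, Fintype.card_fin]
    congr 1
  calc GX (box ((m * l : ℕ) : ℝ)) (Vθ A b τ l θ) ν ≤ ∏ g ∈ S, GX (Bg l θ g) (Vθ A b τ l θ) ν :=
        h1.trans h2
    _ ≤ ∏ _g ∈ S, GX (box l) (fun x y => WA A b x y - τ) ν :=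
        Finset.prod_le_prod' fun g _ => h3 g
    _ = _ := by rw [Finset.prod_const, hcard]


/-- finiteness and logarithm of the box partition function -/
theorem GX_ne_top {T A : ℝ} (hA : 125 * T + 1 ≤ A) {a : ℕ → ℝ} (ha : Adm T a) {L : ℝ}
    (hL : 0 < L) (ν : ℝ) : GX (box L) (WA A a) ν ≠ ⊤ := by
  have h : GX (box L) (WA A a) ν ≤ ENNReal.ofReal (Real.exp (ν ^ 2 / 2 * (L + 1) ^ 3 + L ^ 3)) := by
    apply GX_le_exp (measurableSet_box L) (by positivity) (le_of_eq (volume_box hL.le))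
    intro N x hx
    exact exponent_le hA ha hL ν x hx
  exact ne_top_of_le_ne_top ENNReal.ofReal_ne_top h

theorem GX_eq_exp {T A : ℝ} (hA : 125 * T + 1 ≤ A) {a : ℕ → ℝ} (ha : Adm T a) {L : ℝ}
    (hL : 0 < L) (μ : ℝ) :
    GX (box L) (WA A a) (μ + A / 2) = ENNReal.ofReal (Real.exp (gL A L a μ)) := by
  have h1 := GX_ne_top hA ha hL (μ + A / 2)
  have h2 := one_le_GX (box L) (WA A a) (μ + A / 2)
  have h3 : 0 < (GX (box L) (WA A a) (μ + A / 2)).toReal :=
    ENNReal.toReal_pos (by intro h; rw [h] at h2; simp at h2) h1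
  unfold gL
  rw [Real.exp_log h3, ENNReal.ofReal_toReal h1]

/-- decoupled upper bound in the box of side `m l` -/
theorem GX_decouple {A : ℝ} (hA0 : 0 ≤ A) {b : ℕ → ℝ} (hb0 : ∀ j, 0 ≤ b j) (hbs : Summable b)
    {K : ℕ} (hbK : ∀ j, K ≤ j → b j = 0) {l : ℕ} (hl : 3 * Rk K < l) {k : ℕ} (hk : l ≤ Rk k)
    {t : ℝ} (ht : 0 ≤ t) (m : ℕ) (ν : ℝ) :
    GX (box ((m * l : ℕ) : ℝ)) (WA A (fun j => b j + if j = k then t else 0)) ν ≤
      (GX (box l) (fun x y => WA A (fun j => (1 - 3 * (Rk K : ℝ) / l)⁻¹ * b j) x y -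
        125 * t / (l : ℝ) ^ 3) ν) ^ ((m + 1) ^ 3) := by
  have hl0 : 0 < l := by omega
  have hl0' : (0 : ℝ) < l := by exact_mod_cast hl0
  have hRl : 3 * (Rk K : ℝ) / l < 1 := by
    rw [div_lt_one hl0']
    exact_mod_cast hl
  have hcpos : 0 < (1 - 3 * (Rk K : ℝ) / l)⁻¹ := inv_pos.mpr (by linarith)
  have hb'0 : ∀ j, 0 ≤ (1 - 3 * (Rk K : ℝ) / l)⁻¹ * b j := fun j => mul_nonneg hcpos.le (hb0 j)
  have hb's : Summable (fun j => (1 - 3 * (Rk K : ℝ) / l)⁻¹ * b j) := hbs.mul_left _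
  refine GX_jensen (ν' := ν) (measurableSet_box _) hl0
    (fun θ => Vθ A (fun j => (1 - 3 * (Rk K : ℝ) / l)⁻¹ * b j) (125 * t / (l : ℝ) ^ 3) l θ)
    (fun θ => measurable_Vθ A hb'0 hb's _ l θ) ?_ ?_
  · intro θ hθ
    exact block_product A hb'0 hb's _ ν hl0 hθ
  · intro N x _
    have h := decouple hA0 hb0 hbs hbK hl hk ht x
    rw [Finset.sum_sub_distrib, Finset.sum_const, Finset.card_range, nsmul_eq_mul,
      ← Finset.sum_div, le_div_iff₀ hl0']
    linarith

end Vale.Agent.P171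
end
end

section

section

open MeasureTheory Filter Topology
open scoped ENNReal

namespace Vale.Agent.P171

theorem tsum_exp_le {τ D : ℝ} (hτ : 0 < τ) :
    ∑' j : ℕ, ENNReal.ofReal (Real.exp (D - τ * j / 16)) ≤
      ENNReal.ofReal (Real.exp D * (1 + 16 / τ)) := by
  set r : ℝ := Real.exp (-(τ / 16)) with hr
  have hr0 : 0 ≤ r := (Real.exp_pos _).le
  have hr1 : r < 1 := by rw [hr, Real.exp_lt_one_iff]; linarith
  have h1 : ∀ j : ℕ, Real.exp (D - τ * j / 16) = Real.exp D * r ^ j := by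
    intro j
    rw [hr, ← Real.exp_nat_mul, ← Real.exp_add]
    congr 1
    ring
  simp_rw [h1]
  have hs : Summable (fun j : ℕ => Real.exp D * r ^ j) :=
    (summable_geometric_of_lt_one hr0 hr1).mul_left _
  rw [← ENNReal.ofReal_tsum_of_nonneg (fun j => by positivity) hs, tsum_mul_left,
    tsum_geometric_of_lt_one hr0 hr1]
  apply ENNReal.ofReal_le_ofReal
  apply mul_le_mul_of_nonneg_left _ (Real.exp_pos _).le
  have h2 : r ≤ (1 + τ / 16)⁻¹ := by
    rw [hr, Real.exp_neg]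
    apply inv_anti₀ (by positivity)
    have := Real.add_one_le_exp (τ / 16)
    linarith
  have h3 : 1 - (1 + τ / 16)⁻¹ ≤ 1 - r := by linarith
  have h4 : 0 < 1 - (1 + τ / 16)⁻¹ := by
    have : (1 + τ / 16)⁻¹ < 1 := inv_lt_one_of_one_lt₀ (by linarith)
    linarith
  calc (1 - r)⁻¹ ≤ (1 - (1 + τ / 16)⁻¹)⁻¹ := inv_anti₀ h4 h3
    _ = 1 + 16 / τ := by
      have h5 : (1 + τ / 16) ≠ 0 := by positivity
      have h6 : 1 - (1 + τ / 16)⁻¹ = (τ / 16) / (1 + τ / 16) := by field_simp; ring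
      rw [h6, inv_div]
      field_simp
      ring

theorem kac_finite {T A : ℝ} (hA : 125 * T + 1 ≤ A) {b : ℕ → ℝ} (hb0 : ∀ j, 0 ≤ b j)
    (hbs : Summable b) {K l k : ℕ} (hbK : ∀ j, K ≤ j → b j = 0) (hl : 3 * Rk K < l)
    (hk : l ≤ Rk k) {t : ℝ} (ht : 0 < t)
    (hu : Adm T (fun j => b j + if j = k then t else 0))
    (hb' : Adm T (fun j => (1 - 3 * (Rk K : ℝ) / l)⁻¹ * b j)) {μ D : ℝ}
    (hD : ∀ j : ℕ, ((l : ℝ) + 2) ^ 3 * Pr A (fun j => (1 - 3 * (Rk K : ℝ) / l)⁻¹ * b j)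
        (μ + 125 * t / (l : ℝ) ^ 3 * j) - 125 * t / (l : ℝ) ^ 3 * (j : ℝ) ^ 2 / 2 ≤
        D - 125 * t / (l : ℝ) ^ 3 * j / 16) :
    Pr A (fun j => b j + if j = k then t else 0) μ ≤
      (D + Real.log (1 + 16 * (l : ℝ) ^ 3 / (125 * t))) / (l : ℝ) ^ 3 := by
  have hl0 : 0 < l := by omega
  have hl0' : (0 : ℝ) < l := by exact_mod_cast hl0
  have hT0 : 0 ≤ T := le_trans (tsum_nonneg hu.1) hu.2.2
  have hA0 : 0 ≤ A := by linarith
  set b' : ℕ → ℝ := fun j => (1 - 3 * (Rk K : ℝ) / l)⁻¹ * b j with hb'def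
  set τ : ℝ := 125 * t / (l : ℝ) ^ 3 with hτdef
  have hτ : 0 < τ := by positivity
  set u : ℕ → ℝ := fun j => b j + if j = k then t else 0 with hudef
  set X := GX (box l) (fun x y => WA A b' x y - τ) (μ + A / 2) with hX
  -- bound of the one-block partition function
  have hXle : X ≤ ENNReal.ofReal (Real.exp D * (1 + 16 / τ)) := by
    refine le_trans (GX_laplace (measurableSet_box _) (measurable_WA A hb'.1 hb'.2.1) _ τ) ?_
    refine le_trans ?_ (tsum_exp_le hτ)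
    apply ENNReal.tsum_le_tsum
    intro j
    have h1 : μ + A / 2 + τ * j = (μ + τ * j) + A / 2 := by ring
    rw [h1, GX_eq_exp hA hb' hl0', ← ENNReal.ofReal_mul (Real.exp_pos _).le, ← Real.exp_add]
    apply ENNReal.ofReal_le_ofReal
    apply Real.exp_le_exp.mpr
    have h2 := gL_le_Pr hA hb' (μ + τ * j) hl0'
    have h3 := hD j
    linarith
  have hXtop : X ≠ ⊤ := ne_top_of_le_ne_top ENNReal.ofReal_ne_top hXle
  have hX1 : 1 ≤ X := one_le_GX _ _ _
  have hXr1 : 1 ≤ X.toReal := by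
    rw [← ENNReal.toReal_one]
    exact ENNReal.toReal_mono hXtop hX1
  have hlogX : Real.log X.toReal ≤ D + Real.log (1 + 16 * (l : ℝ) ^ 3 / (125 * t)) := by
    have h1 : X.toReal ≤ Real.exp D * (1 + 16 / τ) :=
      ENNReal.toReal_le_of_le_ofReal (by positivity) hXle
    have h2 : (16 : ℝ) / τ = 16 * (l : ℝ) ^ 3 / (125 * t) := by
      rw [hτdef]
      field_simp
    have h3 := Real.log_le_log (by linarith) h1
    rw [Real.log_mul (Real.exp_pos _).ne' (by positivity), Real.log_exp, h2] at h3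
    exact h3
  -- thermodynamic limit along multiples of `l`
  have hlim1 : Tendsto (fun m : ℕ => gL A ((m * l : ℕ) : ℝ) u μ / ((m * l : ℕ) : ℝ) ^ 3) atTop
      (𝓝 (Pr A u μ)) := by
    have h1 : Tendsto (fun m : ℕ => ((m * l : ℕ) : ℝ)) atTop atTop := by
      apply tendsto_natCast_atTop_atTop.comp
      exact tendsto_id.atTop_mul_const' hl0
    exact (tendsto_gL hA hu μ).comp h1
  have hlim2 : Tendsto (fun m : ℕ => (((m : ℝ) + 1) ^ 3 * Real.log X.toReal) /
      ((m * l : ℕ) : ℝ) ^ 3) atTop (𝓝 (Real.log X.toReal / (l : ℝ) ^ 3)) := by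
    have h1 : Tendsto (fun m : ℕ => (1 + 1 / ((m : ℝ))) ^ 3 * (Real.log X.toReal / (l : ℝ) ^ 3))
        atTop (𝓝 ((1 + 0) ^ 3 * (Real.log X.toReal / (l : ℝ) ^ 3))) := by
      apply Tendsto.mul_const
      apply Tendsto.pow
      exact tendsto_const_nhds.add tendsto_one_div_atTop_nhds_zero_nat
    have h2 : (1 + 0) ^ 3 * (Real.log X.toReal / (l : ℝ) ^ 3) = Real.log X.toReal / (l : ℝ) ^ 3 := by
      ring
    rw [h2] at h1
    apply h1.congr'
    filter_upwards [eventually_gt_atTop 0] with m hm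
    have hm' : (0 : ℝ) < m := by exact_mod_cast hm
    push_cast
    field_simp
  have hle : ∀ᶠ m : ℕ in atTop, gL A ((m * l : ℕ) : ℝ) u μ / ((m * l : ℕ) : ℝ) ^ 3 ≤
      (((m : ℝ) + 1) ^ 3 * Real.log X.toReal) / ((m * l : ℕ) : ℝ) ^ 3 := by
    filter_upwards [eventually_gt_atTop 0] with m hm
    have hml : (0 : ℝ) < ((m * l : ℕ) : ℝ) := by exact_mod_cast Nat.mul_pos hm hl0
    apply div_le_div_of_nonneg_right _ (by positivity)
    have h1 := GX_decouple hA0 hb0 hbs hbK hl hk ht.le m (μ + A / 2)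
    have h2 : (GX (box ((m * l : ℕ) : ℝ)) (WA A u) (μ + A / 2)).toReal ≤
        X.toReal ^ ((m + 1) ^ 3) := by
      rw [← ENNReal.toReal_pow]
      exact ENNReal.toReal_mono (ENNReal.pow_ne_top hXtop) h1
    have h3 : 0 < (GX (box ((m * l : ℕ) : ℝ)) (WA A u) (μ + A / 2)).toReal := by
      have h4 := one_le_GX (box ((m * l : ℕ) : ℝ)) (WA A u) (μ + A / 2)
      exact ENNReal.toReal_pos (by intro h; rw [h] at h4; simp at h4) (GX_ne_top hA hu hml _)
    have h5 := Real.log_le_log h3 h2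
    rw [Real.log_pow] at h5
    unfold gL
    push_cast at h5 ⊢
    exact h5
  have hfin := le_of_tendsto_of_tendsto hlim1 hlim2 hle
  refine hfin.trans ?_
  apply div_le_div_of_nonneg_right hlogX (by positivity)

end Vale.Agent.P171
end
end

section

section

open MeasureTheory Filter Topology
open scoped ENNReal

namespace Vale.Agent.P171

theorem Adm_mono {T T' : ℝ} (h : T ≤ T') {a : ℕ → ℝ} (ha : Adm T a) : Adm T' a :=
  ⟨ha.1, ha.2.1, ha.2.2.trans h⟩

/-- adding a small nonnegative sequence `c` of mass at most `h ≤ 1` -/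
theorem Pr_add_le {T A : ℝ} (hA : 125 * (T + 2) + 1 ≤ A) {u c : ℕ → ℝ} (hu : Adm (T + 1) u)
    (hc0 : ∀ k, 0 ≤ c k) (hcs : Summable c) {h : ℝ} (h0 : 0 < h) (h1 : h ≤ 1)
    (hc : ∑' k, c k ≤ h) (μ : ℝ) :
    Pr A (fun k => u k + c k) μ ≤ Pr A u μ + h * (1 + (μ + A / 2) ^ 2 / 2) := by
  have hu' : Adm (T + 2) u := Adm_mono (by linarith) hu
  have hw : Adm (T + 2) (fun k => u k + c k / h) := by
    refine ⟨fun k => add_nonneg (hu.1 k) (div_nonneg (hc0 k) h0.le),
      hu.2.1.add (hcs.div_const h), ?_⟩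
    rw [Summable.tsum_add hu.2.1 (hcs.div_const h), tsum_div_const]
    have h2 : (∑' k, c k) / h ≤ 1 := by rw [div_le_one h0]; exact hc
    have h3 := hu.2.2
    linarith
  have h4 := Pr_convex hA hu' hw μ μ h0.le h1
  have h5 : (fun k => (1 - h) * u k + h * (u k + c k / h)) = fun k => u k + c k := by
    ext k
    field_simp
    ring
  have h6 : (1 - h) * μ + h * μ = μ := by ring
  rw [h5, h6] at h4
  have h7 := Pr_le hA hw μ
  have h8 := Pr_nonneg hA hu' μ
  have h9 := mul_le_mul_of_nonneg_left h7 h0.le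
  nlinarith

theorem tendsto_pow3 : Tendsto (fun l : ℕ => ((l : ℝ)) ^ 3) atTop atTop :=
  (tendsto_pow_atTop (by norm_num)).comp tendsto_natCast_atTop_atTop

theorem tendsto_lam (R : ℝ) : Tendsto (fun l : ℕ => (1 - 3 * R / (l : ℝ))⁻¹) atTop (𝓝 1) := by
  have h1 : Tendsto (fun l : ℕ => 3 * R / (l : ℝ)) atTop (𝓝 0) :=
    tendsto_const_div_atTop_nhds_zero_nat _
  have h2 : Tendsto (fun l : ℕ => 1 - 3 * R / (l : ℝ)) atTop (𝓝 (1 - 0)) :=
    tendsto_const_nhds.sub h1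
  have h3 := h2.inv₀ (by norm_num)
  simpa using h3

theorem tendsto_V : Tendsto (fun l : ℕ => ((l : ℝ) + 2) ^ 3 / (l : ℝ) ^ 3) atTop (𝓝 1) := by
  have h1 : Tendsto (fun l : ℕ => 1 + 2 / (l : ℝ)) atTop (𝓝 (1 + 0)) :=
    tendsto_const_nhds.add (tendsto_const_div_atTop_nhds_zero_nat _)
  have h2 := h1.pow 3
  simp only [add_zero, one_pow] at h2
  apply h2.congr'
  filter_upwards [eventually_gt_atTop 0] with l hl
  have : (0 : ℝ) < l := by exact_mod_cast hl
  rw [← div_pow]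
  congr 1
  field_simp

theorem tendsto_logterm {t : ℝ} (ht : 0 < t) :
    Tendsto (fun l : ℕ => Real.log (1 + 16 * (l : ℝ) ^ 3 / (125 * t)) / (l : ℝ) ^ 3) atTop (𝓝 0) := by
  set c : ℝ := 16 / (125 * t) with hc
  have hcpos : 0 < c := by positivity
  have h0 : Tendsto (fun x : ℝ => Real.log x / x) atTop (𝓝 0) := by
    have := Real.isLittleO_log_id_atTop.tendsto_div_nhds_zero
    simpa using this
  have h1 : Tendsto (fun l : ℕ => 1 + c * (l : ℝ) ^ 3) atTop atTop := by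
    apply tendsto_atTop_add_const_left
    exact Tendsto.const_mul_atTop hcpos tendsto_pow3
  have h2 := h0.comp h1
  have h3 : Tendsto (fun l : ℕ => c + 1 / (l : ℝ) ^ 3) atTop (𝓝 (c + 0)) := by
    apply tendsto_const_nhds.add
    simp only [one_div]
    exact tendsto_inv_atTop_zero.comp tendsto_pow3
  have h4 := h2.mul h3
  rw [zero_mul] at h4
  apply h4.congr'
  filter_upwards [eventually_gt_atTop 0] with l hl
  have hl' : (0 : ℝ) < l := by exact_mod_cast hl
  have h5 : (1 + 16 * (l : ℝ) ^ 3 / (125 * t)) = 1 + c * (l : ℝ) ^ 3 := by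
    rw [hc]; ring
  rw [h5]
  simp only [Function.comp]
  have h6 : (1 + c * (l : ℝ) ^ 3) ≠ 0 := by positivity
  field_simp
  ring

/-- one block size `l`, one truncation `K` -/
theorem kac_step {T A : ℝ} (hA : 125 * (T + 2) + 1 ≤ A) {a b : ℕ → ℝ} (ha : Adm T a)
    (hb0 : ∀ j, 0 ≤ b j) (hbs : Summable b) (hba : ∀ j, b j ≤ a j) {K : ℕ}
    (hbK : ∀ j, K ≤ j → b j = 0) {μ t p₀ σ C₂ C₃ : ℝ} (ht0 : 0 < t) (ht1 : t ≤ 1)
    (hC₃ : C₃ = 1 + (μ + A / 2) ^ 2)
    (hP : ∀ s : ℝ, 0 ≤ s → Pr A a (μ + s) ≤ p₀ + σ * s + C₂ * s ^ 2)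
    {l : ℕ} (hl1 : 3 * Rk K < l) {lam η : ℝ} (hlamdef : (1 - 3 * (Rk K : ℝ) / (l : ℝ))⁻¹ = lam)
    (hlam1 : 1 < lam) (hη : η = (lam - 1) * (T + 1)) (hη1 : η < 1)
    (hl3 : ((l : ℝ) + 2) ^ 3 * (C₂ + η * C₃) * (125 * t / (l : ℝ) ^ 3) ≤ 3 / 16)
    {k : ℕ} (hk2 : l ≤ Rk k) :
    Pr A (fun j => b j + if j = k then t else 0) μ ≤
      (((l : ℝ) + 2) ^ 3 * (p₀ + η * C₃) + (((l : ℝ) + 2) ^ 3) ^ 2 * σ ^ 2 *
        (125 * t / (l : ℝ) ^ 3) +
        Real.log (1 + 16 * (l : ℝ) ^ 3 / (125 * t))) / (l : ℝ) ^ 3 := by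
  obtain ⟨ha0, has, haT⟩ := id ha
  have hT0 : 0 ≤ T := le_trans (tsum_nonneg ha0) haT
  have hbT : ∑' j, b j ≤ T := (Summable.tsum_le_tsum hba hbs has).trans haT
  have hl0 : 0 < l := by omega
  have hl0' : (0 : ℝ) < l := by exact_mod_cast hl0
  have hη0 : 0 < η := by rw [hη]; exact mul_pos (by linarith) (by linarith)
  have hlamT : (lam - 1) * T ≤ η := by
    rw [hη]
    exact mul_le_mul_of_nonneg_left (by linarith) (by linarith)
  have hsing := summable_single k t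
  have hbt : Adm (T + 1) (fun j => b j + if j = k then t else 0) := by
    refine ⟨fun j => add_nonneg (hb0 j) (by split_ifs <;> linarith), hbs.add hsing, ?_⟩
    rw [Summable.tsum_add hbs hsing, tsum_ite_eq]
    linarith
  have hlb : Adm (T + 1) (fun j => lam * b j) := by
    refine ⟨fun j => mul_nonneg (by linarith) (hb0 j), hbs.mul_left _, ?_⟩
    rw [tsum_mul_left]
    have h1 : lam * ∑' j, b j ≤ lam * T := mul_le_mul_of_nonneg_left hbT (by linarith)
    linarith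
  have hla : Adm (T + 1) (fun j => a j + (lam - 1) * a j) := by
    refine ⟨fun j => add_nonneg (ha0 j) (mul_nonneg (by linarith) (ha0 j)),
      has.add (has.mul_left _), ?_⟩
    rw [Summable.tsum_add has (has.mul_left _), tsum_mul_left]
    have h1 : (lam - 1) * ∑' j, a j ≤ (lam - 1) * T :=
      mul_le_mul_of_nonneg_left haT (by linarith)
    linarith
  have hPr : ∀ s : ℝ, 0 ≤ s → Pr A (fun j => lam * b j) (μ + s) ≤
      (p₀ + η * C₃) + σ * s + (C₂ + η * C₃) * s ^ 2 := by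
    intro s hs
    have h1 : Pr A (fun j => lam * b j) (μ + s) ≤ Pr A (fun j => a j + (lam - 1) * a j) (μ + s) := by
      apply Pr_mono (T := T + 1) (by linarith) hlb hla
      intro j
      have h2 := mul_le_mul_of_nonneg_left (hba j) (show 0 ≤ lam by linarith)
      linarith
    have h2 : Pr A (fun j => a j + (lam - 1) * a j) (μ + s) ≤
        Pr A a (μ + s) + η * (1 + (μ + s + A / 2) ^ 2 / 2) := by
      apply Pr_add_le hA (Adm_mono (by linarith) ha)
        (fun j => mul_nonneg (by linarith) (ha0 j)) (has.mul_left _) hη0 hη1.le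
      rw [tsum_mul_left]
      have : (lam - 1) * ∑' j, a j ≤ (lam - 1) * T :=
        mul_le_mul_of_nonneg_left haT (by linarith)
      linarith
    have h3 := hP s hs
    have h4 : 1 + (μ + s + A / 2) ^ 2 / 2 ≤ C₃ * (1 + s ^ 2) := by
      rw [hC₃]
      have h6 := mul_nonneg (sq_nonneg (μ + A / 2)) (sq_nonneg s)
      have h7 := sq_nonneg (μ + A / 2 - s)
      nlinarith
    have h5 := mul_le_mul_of_nonneg_left h4 hη0.le
    linarith
  subst hlamdef
  generalize hτ : 125 * t / (l : ℝ) ^ 3 = τ at *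
  have hτpos : 0 < τ := by rw [← hτ]; positivity
  generalize hV : ((l : ℝ) + 2) ^ 3 = V at *
  have hVpos : 0 < V := by rw [← hV]; positivity
  refine kac_finite (T := T + 1) (A := A) (by linarith) hb0 hbs hbK hl1 hk2 ht0 hbt hlb
    (μ := μ) (D := V * (p₀ + η * C₃) + V ^ 2 * σ ^ 2 * τ) ?_
  intro j
  rw [hτ, hV]
  have hs : 0 ≤ τ * (j : ℝ) := by positivity
  have h1 := mul_le_mul_of_nonneg_left (hPr (τ * j) hs) hVpos.le
  have h2 : V * ((C₂ + η * C₃) * (τ * (j : ℝ)) ^ 2) ≤ 3 / 16 * (τ * (j : ℝ) ^ 2) := by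
    have h3 : V * ((C₂ + η * C₃) * (τ * (j : ℝ)) ^ 2) =
        (V * (C₂ + η * C₃) * τ) * (τ * (j : ℝ) ^ 2) := by ring
    rw [h3]
    exact mul_le_mul_of_nonneg_right hl3 (by positivity)
  have h4 : V * (σ * (τ * (j : ℝ))) ≤ V ^ 2 * σ ^ 2 * τ + τ * (j : ℝ) ^ 2 / 4 := by
    have h5 := mul_nonneg hτpos.le (sq_nonneg (V * σ - (j : ℝ) / 2))
    linarith
  have h6 : (j : ℝ) ≤ (j : ℝ) ^ 2 := by
    have : j ≤ j ^ 2 := Nat.le_self_pow (by norm_num) j
    exact_mod_cast this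
  have h7 := mul_le_mul_of_nonneg_left h6 hτpos.le
  linarith

theorem kac_bound {T A : ℝ} (hA : 125 * (T + 2) + 1 ≤ A) {a : ℕ → ℝ} (ha : Adm T a)
    {μ t p₀ σ C₂ : ℝ} (ht0 : 0 < t) (ht1 : t ≤ 1) (hσ : 0 ≤ σ) (hC : 0 ≤ C₂)
    (hP : ∀ s : ℝ, 0 ≤ s → Pr A a (μ + s) ≤ p₀ + σ * s + C₂ * s ^ 2)
    (hsmall : 8 * 125 * C₂ * t ≤ 1) {ε : ℝ} (hε : 0 < ε) :
    ∀ᶠ k : ℕ in atTop, Pr A (fun j => a j + if j = k then t else 0) μ ≤
      p₀ + 125 * t * σ ^ 2 + ε := by
  obtain ⟨ha0, has, haT⟩ := id ha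
  have hT0 : 0 ≤ T := le_trans (tsum_nonneg ha0) haT
  set M : ℝ := 1 + (μ + A / 2) ^ 2 / 2 with hM
  have hM1 : 1 ≤ M := by rw [hM]; nlinarith [sq_nonneg (μ + A / 2)]
  set C₃ : ℝ := 1 + (μ + A / 2) ^ 2 with hC₃
  have hC₃1 : 1 ≤ C₃ := by rw [hC₃]; nlinarith [sq_nonneg (μ + A / 2)]
  set h : ℝ := min 1 (ε / (2 * M)) with hh
  have hh0 : 0 < h := lt_min one_pos (by positivity)
  have hh1 : h ≤ 1 := min_le_left _ _
  have hhM : h * M ≤ ε / 2 := by
    have : h ≤ ε / (2 * M) := min_le_right _ _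
    calc h * M ≤ ε / (2 * M) * M := mul_le_mul_of_nonneg_right this (by linarith)
      _ = ε / 2 := by field_simp
  -- choice of K
  obtain ⟨K, hK⟩ : ∃ K : ℕ, ∑' j, a j - h < ∑ j ∈ Finset.range K, a j := by
    have h1 := has.hasSum.tendsto_sum_nat
    have h2 := h1.eventually (lt_mem_nhds (show ∑' j, a j - h < ∑' j, a j by linarith))
    exact h2.exists
  set b : ℕ → ℝ := fun j => if j < K then a j else 0 with hb
  set c : ℕ → ℝ := fun j => if j < K then 0 else a j with hc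
  have hb0 : ∀ j, 0 ≤ b j := by
    intro j; rw [hb]; dsimp only; split_ifs
    · exact ha0 j
    · exact le_rfl
  have hc0 : ∀ j, 0 ≤ c j := by
    intro j; rw [hc]; dsimp only; split_ifs
    · exact le_rfl
    · exact ha0 j
  have hba : ∀ j, b j ≤ a j := by
    intro j; rw [hb]; dsimp only; split_ifs
    · exact le_rfl
    · exact ha0 j
  have hca : ∀ j, c j ≤ a j := by
    intro j; rw [hc]; dsimp only; split_ifs
    · exact ha0 j
    · exact le_rfl
  have hbs : Summable b := Summable.of_nonneg_of_le hb0 hba has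
  have hcs : Summable c := Summable.of_nonneg_of_le hc0 hca has
  have hbc : ∀ j, b j + c j = a j := by
    intro j; rw [hb, hc]; dsimp only; split_ifs <;> ring
  have hbsum : ∑' j, b j = ∑ j ∈ Finset.range K, a j := by
    rw [tsum_eq_sum (s := Finset.range K)]
    · apply Finset.sum_congr rfl
      intro j hj
      rw [hb]; dsimp only; rw [if_pos (Finset.mem_range.mp hj)]
    · intro j hj
      rw [hb]; dsimp only; rw [if_neg (by simpa using hj)]
  have hcsum : ∑' j, c j ≤ h := by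
    have h1 : ∑' j, a j = ∑' j, b j + ∑' j, c j := by
      rw [← Summable.tsum_add hbs hcs]
      congr 1
      ext j
      rw [hbc]
    linarith
  have hbK : ∀ j, K ≤ j → b j = 0 := by
    intro j hj; rw [hb]; dsimp only; rw [if_neg (by omega)]
  have hbT : ∑' j, b j ≤ T := (Summable.tsum_le_tsum hba hbs has).trans haT
  -- sequences in l
  set R : ℝ := (Rk K : ℝ) with hR
  have hRpos : 0 < R := Rk_pos' K
  have hlam := tendsto_lam R
  have hh2 : Tendsto (fun l : ℕ => ((1 - 3 * R / (l : ℝ))⁻¹ - 1) * (T + 1)) atTop (𝓝 0) := by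
    have := (hlam.sub_const 1).mul_const (T + 1)
    simpa using this
  have hC2 : Tendsto (fun l : ℕ => 250 * t * ((C₂ + ((1 - 3 * R / (l : ℝ))⁻¹ - 1) * (T + 1) * C₃) *
      (((l : ℝ) + 2) ^ 3 / (l : ℝ) ^ 3))) atTop (𝓝 (250 * t * ((C₂ + 0 * C₃) * 1))) := by
    exact ((tendsto_const_nhds.add (hh2.mul_const C₃)).mul tendsto_V).const_mul _
  have hD : Tendsto (fun l : ℕ => (((l : ℝ) + 2) ^ 3 / (l : ℝ) ^ 3) *
      (p₀ + ((1 - 3 * R / (l : ℝ))⁻¹ - 1) * (T + 1) * C₃) +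
      (((l : ℝ) + 2) ^ 3 / (l : ℝ) ^ 3) ^ 2 * (125 * t * σ ^ 2) +
      Real.log (1 + 16 * (l : ℝ) ^ 3 / (125 * t)) / (l : ℝ) ^ 3) atTop
      (𝓝 (1 * (p₀ + 0 * C₃) + 1 ^ 2 * (125 * t * σ ^ 2) + 0)) := by
    exact ((tendsto_V.mul (tendsto_const_nhds.add (hh2.mul_const C₃))).add
      ((tendsto_V.pow 2).mul_const _)).add (tendsto_logterm ht0)
  have hev1 : ∀ᶠ l : ℕ in atTop, 3 * Rk K < l := eventually_gt_atTop _
  have hev2 : ∀ᶠ l : ℕ in atTop, ((1 - 3 * R / (l : ℝ))⁻¹ - 1) * (T + 1) < 1 :=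
    hh2.eventually (gt_mem_nhds one_pos)
  have hev3 : ∀ᶠ l : ℕ in atTop, 250 * t * ((C₂ + ((1 - 3 * R / (l : ℝ))⁻¹ - 1) * (T + 1) * C₃) *
      (((l : ℝ) + 2) ^ 3 / (l : ℝ) ^ 3)) < 3 / 8 := by
    apply hC2.eventually (gt_mem_nhds _)
    nlinarith
  have hev4 := hD.eventually (gt_mem_nhds
    (show 1 * (p₀ + 0 * C₃) + 1 ^ 2 * (125 * t * σ ^ 2) + 0 < p₀ + 125 * t * σ ^ 2 + ε / 2 by
      linarith))
  obtain ⟨l, hl1, hl2, hl3, hl4⟩ := (hev1.and (hev2.and (hev3.and hev4))).exists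
  have hl0 : 0 < l := by omega
  have hl0' : (0 : ℝ) < l := by exact_mod_cast hl0
  have hRl : 3 * R / (l : ℝ) < 1 := by
    rw [div_lt_one hl0', hR]
    exact_mod_cast hl1
  set lam : ℝ := (1 - 3 * R / (l : ℝ))⁻¹ with hlamdef
  have hlam1 : 1 < lam := by
    rw [hlamdef]
    apply (one_lt_inv₀ (by linarith)).mpr
    have : 0 < 3 * R / (l : ℝ) := by positivity
    linarith
  set η : ℝ := (lam - 1) * (T + 1) with hη
  have hl3' : ((l : ℝ) + 2) ^ 3 * (C₂ + η * C₃) * (125 * t / (l : ℝ) ^ 3) ≤ 3 / 16 := by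
    have h1 : 250 * t * ((C₂ + η * C₃) * (((l : ℝ) + 2) ^ 3 / (l : ℝ) ^ 3)) =
        2 * (((l : ℝ) + 2) ^ 3 * (C₂ + η * C₃) * (125 * t / (l : ℝ) ^ 3)) := by
      field_simp
      ring
    rw [h1] at hl3
    linarith
  -- large k
  filter_upwards [tendsto_Rk.eventually_ge_atTop l] with k hk2
  have hks := kac_step hA ha hb0 hbs hba hbK ht0 ht1 hC₃ hP hl1 hlamdef.symm hlam1 hη hl2 hl3' hk2
  have hbt : Adm (T + 1) (fun j => b j + if j = k then t else 0) := by
    have hsing := summable_single k t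
    refine ⟨fun j => add_nonneg (hb0 j) (by split_ifs <;> linarith), hbs.add hsing, ?_⟩
    rw [Summable.tsum_add hbs hsing, tsum_ite_eq]
    linarith
  have hfin : Pr A (fun j => b j + if j = k then t else 0) μ ≤ p₀ + 125 * t * σ ^ 2 + ε / 2 := by
    refine hks.trans (le_of_eq_of_le ?_ hl4.le)
    field_simp
  have hadd := Pr_add_le hA hbt hc0 hcs hh0 hh1 hcsum μ
  have heq : (fun j => (b j + if j = k then t else 0) + c j) =
      fun j => a j + if j = k then t else 0 := by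
    ext j
    rw [← hbc j]
    ring
  rw [heq] at hadd
  have hhM' : h * (1 + (μ + A / 2) ^ 2 / 2) ≤ ε / 2 := hhM
  linarith

end Vale.Agent.P171
end
end

section

section

open MeasureTheory Filter Topology Set
open scoped ENNReal

namespace Vale.Agent.P171

/-- the space `ℓ¹` -/
abbrev L1 : Type := lp (fun _ : ℕ => ℝ) 1

lemma L1.norm_eq (x : L1) : ‖x‖ = ∑' k, |x k| := by
  have h := lp.norm_eq_tsum_rpow (p := 1) (by simp) x
  simpa using h

lemma L1.summable (x : L1) : Summable (fun k => |x k|) := by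
  have h := (memℓp_gen_iff (p := 1) (by simp)).1 (lp.memℓp x)
  simpa using h

lemma L1.summable' (x : L1) : Summable (fun k => x k) := (L1.summable x).of_abs

/-- an element of `ℓ¹` from a summable nonnegative sequence -/
noncomputable def L1.mk (a : ℕ → ℝ) (h : Summable (fun k => |a k|)) : L1 :=
  ⟨a, (memℓp_gen_iff (p := 1) (by simp)).2 (by simpa using h)⟩

/-- the domain on which Ekeland's principle is applied -/
def KSet (R : ℝ) : Set (L1 × ℝ) := {x | (∀ k, 0 ≤ x.1 k) ∧ ‖x.1‖ ≤ R}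

lemma isClosed_KSet (R : ℝ) : IsClosed (KSet R) := by
  have h1 : IsClosed {x : L1 × ℝ | ‖x.1‖ ≤ R} :=
    isClosed_le (continuous_norm.comp continuous_fst) continuous_const
  have h2 : IsClosed {x : L1 × ℝ | ∀ k, 0 ≤ x.1 k} := by
    have : {x : L1 × ℝ | ∀ k, 0 ≤ x.1 k} = ⋂ k, {x : L1 × ℝ | 0 ≤ x.1 k} := by
      ext x; simp
    rw [this]
    refine isClosed_iInter fun k => ?_
    have hc : Continuous (fun x : L1 × ℝ => x.1 k) := by
      have h := (lp.uniformContinuous_coe (E := fun _ : ℕ => ℝ) (p := 1)).continuous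
      exact (continuous_apply k).comp (h.comp continuous_fst)
    exact isClosed_le continuous_const hc
  exact h2.inter h1

lemma KSet_adm {R : ℝ} {x : L1 × ℝ} (hx : x ∈ KSet R) : Adm R (fun k => x.1 k) := by
  refine ⟨hx.1, L1.summable' _, ?_⟩
  have h := hx.2
  rw [L1.norm_eq] at h
  have : (∑' k, |x.1 k|) = ∑' k, x.1 k := tsum_congr fun k => abs_of_nonneg (hx.1 k)
  rwa [this] at h


/-- local Lipschitz bound from convexity and monotonicity -/
lemma lip_aux {T : ℝ} (P : (ℕ → ℝ) → ℝ → ℝ)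
    (h0 : ∀ a, Adm T a → ∀ μ, 0 ≤ P a μ)
    (hmono : ∀ a b, Adm T a → Adm T b → (∀ k, a k ≤ b k) → ∀ μ, P a μ ≤ P b μ)
    (hmono' : ∀ a, Adm T a → ∀ μ μ', μ ≤ μ' → P a μ ≤ P a μ')
    (hconv : ∀ a b, Adm T a → Adm T b → ∀ μ μ' s, 0 ≤ s → s ≤ 1 →
        P (fun k => (1 - s) * a k + s * b k) ((1 - s) * μ + s * μ') ≤
          (1 - s) * P a μ + s * P b μ')
    {a a' : ℕ → ℝ} (ha : Adm (T - 1) a) (ha' : Adm (T - 1) a') {d : ℝ} (hd0 : 0 < d) (hd1 : d ≤ 1)
    (hdist : ∑' k, |a k - a' k| ≤ d) {μ μ' : ℝ} (hμ : |μ - μ'| ≤ d) {M : ℝ}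
    (hM : ∀ c, Adm T c → P c (μ + 2) ≤ M) :
    P a μ ≤ P a' μ' + d * M := by
  set b : ℕ → ℝ := fun k => min (a k) (a' k) with hb
  set c : ℕ → ℝ := fun k => b k + (a k - b k) / d with hc
  have hb0 : ∀ k, 0 ≤ b k := fun k => le_min (ha.1 k) (ha'.1 k)
  have hbs : Summable b := Summable.of_nonneg_of_le hb0 (fun k => min_le_left _ _) ha.2.1
  have hab : ∀ k, a k - b k ≤ |a k - a' k| := by
    intro k
    simp only [hb]
    rcases le_total (a k) (a' k) with h | h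
    · rw [min_eq_left h]; simp
    · rw [min_eq_right h]; exact le_abs_self _
  have hab0 : ∀ k, 0 ≤ a k - b k := fun k => sub_nonneg.2 (min_le_left _ _)
  have hsum_abs : Summable (fun k => |a k - a' k|) := (ha.2.1.sub ha'.2.1).abs
  have habs : Summable (fun k => a k - b k) := ha.2.1.sub hbs
  have habd : ∑' k, (a k - b k) ≤ d :=
    (habs.tsum_le_tsum hab hsum_abs).trans hdist
  have hbT : ∑' k, b k ≤ T - 1 :=
    (hbs.tsum_le_tsum (fun k => min_le_left _ _) ha.2.1).trans ha.2.2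
  have hbA : Adm T b := ⟨hb0, hbs, by linarith⟩
  have ha'A : Adm T a' := ⟨ha'.1, ha'.2.1, by linarith [ha'.2.2]⟩
  have hcA : Adm T c := by
    refine ⟨fun k => ?_, hbs.add (habs.div_const d), ?_⟩
    · exact add_nonneg (hb0 k) (div_nonneg (hab0 k) hd0.le)
    · rw [Summable.tsum_add hbs (habs.div_const d), tsum_div_const]
      have : (∑' k, (a k - b k)) / d ≤ 1 := by rw [div_le_one hd0]; exact habd
      linarith
  have hacomb : (fun k => (1 - d) * b k + d * c k) = a := by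
    funext k
    simp only [hc]
    field_simp
    ring
  have hμcomb : (1 - d) * μ' + d * (μ' + (μ - μ') / d) = μ := by
    field_simp
    ring
  have hconv' := hconv b c hbA hcA μ' (μ' + (μ - μ') / d) d hd0.le hd1
  rw [hacomb, hμcomb] at hconv'
  have h1 : P b μ' ≤ P a' μ' := hmono b a' hbA ha'A (fun k => min_le_right _ _) μ'
  have h2 : P c (μ' + (μ - μ') / d) ≤ M := by
    refine (hmono' c hcA _ (μ + 2) ?_).trans (hM c hcA)
    have h3 : (μ - μ') / d ≤ 1 := by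
      rw [div_le_one hd0]; exact (le_abs_self _).trans hμ
    have h4 : μ' - μ ≤ 1 := by
      have := neg_abs_le (μ - μ')
      linarith
    linarith
  have h3 : 0 ≤ P a' μ' := h0 a' ha'A μ'
  have h4 : (1 - d) * P b μ' ≤ (1 - d) * P a' μ' :=
    mul_le_mul_of_nonneg_left h1 (by linarith)
  have h5 : d * P c (μ' + (μ - μ') / d) ≤ d * M := mul_le_mul_of_nonneg_left h2 hd0.le
  nlinarith


lemma lin_lip (x y : L1) : |(∑' k, x k) - ∑' k, y k| ≤ ‖x - y‖ := by
  have hx := L1.summable' x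
  have hy := L1.summable' y
  rw [← hx.tsum_sub hy, L1.norm_eq]
  have hs := L1.summable (x - y)
  have h1 : |∑' k, (x k - y k)| ≤ ∑' k, |x k - y k| := by
    have := norm_tsum_le_tsum_norm (f := fun k => x k - y k) (by simpa using (hx.sub hy).abs)
    simpa using this
  exact h1

theorem abstract_kink (ρ c C : ℝ) (hρ : 0 < ρ) (hc : 0 < c) (hC : 0 < C) :
    ∃ T : ℝ, 1 < T ∧ ∀ P : (ℕ → ℝ) → ℝ → ℝ,
      (∀ a, Adm T a → ∀ μ, 0 ≤ P a μ) →
      (∀ a, Adm T a → ∀ μ (K : ℕ), ρ * μ + c * (∑ k ∈ Finset.range K, a k) ≤ P a μ) →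
      P (fun _ => 0) 0 ≤ 1 →
      (∀ a b, Adm T a → Adm T b → (∀ k, a k ≤ b k) → ∀ μ, P a μ ≤ P b μ) →
      (∀ a, Adm T a → ∀ μ μ', μ ≤ μ' → P a μ ≤ P a μ') →
      (∀ a b, Adm T a → Adm T b → ∀ μ μ' s, 0 ≤ s → s ≤ 1 →
        P (fun k => (1 - s) * a k + s * b k) ((1 - s) * μ + s * μ') ≤
          (1 - s) * P a μ + s * P b μ') →
      (∀ μ : ℝ, ∃ C', ∀ a, Adm T a → ∀ s, 0 ≤ s → P a (μ + s) ≤ C' * (1 + s ^ 2)) →
      (∀ a, Adm (T - 1) a → ∀ μ t p₀ σ C₂ : ℝ, 0 < t → t ≤ 1 → 0 ≤ σ → 0 ≤ C₂ →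
        (∀ s : ℝ, 0 ≤ s → P a (μ + s) ≤ p₀ + σ * s + C₂ * s ^ 2) →
        8 * C * C₂ * t ≤ 1 → ∀ ε : ℝ, 0 < ε →
        ∀ᶠ k : ℕ in atTop, P (fun j => a j + if j = k then t else 0) μ ≤
          p₀ + C * t * σ ^ 2 + ε) →
      ∃ a, Adm T a ∧ ∃ μ, ¬ DifferentiableAt ℝ (P a) μ := by
  classical
  -- choice of the mixing weight and of ε
  obtain ⟨lam, hlam0, hlam1, hlam2⟩ : ∃ lam : ℝ, 0 < lam ∧ lam ≤ 1 ∧ C * (lam * ρ) ^ 2 < lam * c := by
    refine ⟨min 1 (c / (2 * C * ρ ^ 2)), by positivity, min_le_left _ _, ?_⟩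
    set lam := min 1 (c / (2 * C * ρ ^ 2)) with hlam
    have h0 : 0 < lam := by positivity
    have h1 : lam ≤ c / (2 * C * ρ ^ 2) := min_le_right _ _
    rw [le_div_iff₀ (by positivity)] at h1
    have h2 : C * lam * ρ ^ 2 < c := by nlinarith
    nlinarith
  obtain ⟨ε, hε, hεω⟩ : ∃ ε : ℝ, 0 < ε ∧ C * (lam * ρ + 2 * ε) ^ 2 + ε < lam * c := by
    have hcont : Continuous (fun ε : ℝ => C * (lam * ρ + 2 * ε) ^ 2 + ε) := by fun_prop
    have h0 : (fun ε : ℝ => C * (lam * ρ + 2 * ε) ^ 2 + ε) 0 < lam * c := by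
      simpa using hlam2
    have hev : ∀ᶠ ε in 𝓝[>] (0:ℝ), C * (lam * ρ + 2 * ε) ^ 2 + ε < lam * c :=
      nhdsWithin_le_nhds ((hcont.tendsto 0).eventually_lt_const h0)
    obtain ⟨ε, h1, h2⟩ := (hev.and self_mem_nhdsWithin).exists
    exact ⟨ε, h2, h1⟩
  have hTpos : 1 < 1 / ε + 3 := by
    have : 0 < 1 / ε := by positivity
    linarith
  refine ⟨1 / ε + 3, hTpos, ?_⟩
  set T : ℝ := 1 / ε + 3 with hT
  intro P h0 htrial hstart hmono hmono' hconv hgrow hkac
  -- the functional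
  set Gf : L1 × ℝ → ℝ := fun x =>
    P (fun k => x.1 k) x.2 - lam * (ρ * x.2 + c * ∑' k, x.1 k) with hGf
  have hKT : ∀ x ∈ KSet (T - 1), Adm (T - 1) (fun k => x.1 k) := fun x hx => KSet_adm hx
  have hup : ∀ a, Adm (T - 1) a → Adm T a := fun a ha => ⟨ha.1, ha.2.1, by linarith [ha.2.2]⟩
  have hG0 : ∀ x ∈ KSet (T - 1), 0 ≤ Gf x := by
    intro x hx
    have hA := hup _ (hKT x hx)
    have h1 : ρ * x.2 + c * (∑' k, x.1 k) ≤ P (fun k => x.1 k) x.2 := by
      have hs : Summable (fun k => x.1 k) := L1.summable' x.1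
      have ht : Tendsto (fun K : ℕ => ρ * x.2 + c * (∑ k ∈ Finset.range K, x.1 k)) atTop
          (𝓝 (ρ * x.2 + c * (∑' k, x.1 k))) :=
        (hs.hasSum.tendsto_sum_nat.const_mul c).const_add _
      exact le_of_tendsto' ht fun K => htrial _ hA x.2 K
    have h2 := h0 _ hA x.2
    have h3 := mul_le_mul_of_nonneg_left h1 hlam0.le
    simp only [hGf]
    nlinarith
  -- lower semicontinuity estimate
  have hlip : ∀ x ∈ KSet (T - 1), ∃ M : ℝ, 0 ≤ M ∧ ∀ y ∈ KSet (T - 1), dist x y ≤ 1 →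
      Gf x ≤ Gf y + M * dist x y := by
    intro x hx
    obtain ⟨C', hC'⟩ := hgrow x.2
    have hM : ∀ b, Adm T b → P b (x.2 + 2) ≤ C' * 5 := by
      intro b hb
      have := hC' b hb 2 (by norm_num)
      norm_num at this
      exact this
    have hM0 : 0 ≤ C' * 5 := by
      have h1 := hM _ (hup _ (hKT x hx))
      have h2 := h0 _ (hup _ (hKT x hx)) (x.2 + 2)
      linarith
    refine ⟨C' * 5 + lam * (ρ + c), by positivity, fun y hy hxy => ?_⟩
    rcases eq_or_lt_of_le (dist_nonneg (x := x) (y := y)) with hd | hd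
    · have : x = y := dist_eq_zero.1 hd.symm
      subst this; simp
    have hd1 : ‖x.1 - y.1‖ ≤ dist x y := by
      rw [← dist_eq_norm]; exact le_max_left _ _
    have hd2 : |x.2 - y.2| ≤ dist x y := by
      rw [← Real.dist_eq]; exact le_max_right _ _
    have h1 := lip_aux (T := T) P h0 hmono hmono' hconv (hKT x hx) (hKT y hy) hd hxy
      (by rw [L1.norm_eq] at hd1; exact hd1) hd2 hM
    have h2 := abs_le.1 ((lin_lip x.1 y.1).trans hd1)
    have h4 : ρ * (y.2 - x.2) ≤ ρ * dist x y := by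
      refine mul_le_mul_of_nonneg_left ?_ hρ.le
      have := neg_abs_le (x.2 - y.2)
      linarith
    have h5 : c * ((∑' k, y.1 k) - ∑' k, x.1 k) ≤ c * dist x y := by
      refine mul_le_mul_of_nonneg_left ?_ hc.le
      linarith [h2.1]
    have h6 := mul_le_mul_of_nonneg_left (add_le_add h4 h5) hlam0.le
    simp only [hGf]
    linarith
  -- Ekeland
  have hcomplete : CompleteSpace (KSet (T - 1)) := (isClosed_KSet (T - 1)).completeSpace_coe
  have hlsc : LowerSemicontinuous (fun x : KSet (T - 1) => Gf x) := by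
    intro x c hc
    obtain ⟨M, hM0, hM⟩ := hlip x.1 x.2
    have hpos : 0 < Gf x - c := sub_pos.2 hc
    have hev : ∀ᶠ y : KSet (T - 1) in 𝓝 x, dist x y < min 1 ((Gf x - c) / (M + 1)) := by
      have := Metric.ball_mem_nhds x (ε := min 1 ((Gf x - c) / (M + 1))) (by positivity)
      filter_upwards [this] with y hy
      rw [dist_comm]; exact hy
    filter_upwards [hev] with y hy
    have hy1 : dist (x : L1 × ℝ) y ≤ 1 := (hy.trans_le (min_le_left _ _)).le
    have hy2 : dist (x : L1 × ℝ) y < (Gf x - c) / (M + 1) := hy.trans_le (min_le_right _ _)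
    have h1 := hM y y.2 hy1
    rw [lt_div_iff₀ (by positivity)] at hy2
    have hdn : 0 ≤ dist (x : L1 × ℝ) y := dist_nonneg
    nlinarith
  have hbdd : BddBelow (range (fun x : KSet (T - 1) => Gf x)) :=
    ⟨0, by rintro _ ⟨x, rfl⟩; exact hG0 x x.2⟩
  have hzero : ((0 : L1), (0 : ℝ)) ∈ KSet (T - 1) := by
    refine ⟨fun k => le_rfl, ?_⟩
    have h1 : 0 < 1 / ε := by positivity
    simp only [norm_zero, hT]
    linarith
  obtain ⟨xs, hxs1, hxs2⟩ := ekeland (fun x : KSet (T - 1) => Gf x) hlsc hbdd ⟨_, hzero⟩ hε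
  obtain ⟨⟨xa, xμ⟩, hxK⟩ := xs
  set a : ℕ → ℝ := fun k => xa k with ha
  have hAx : Adm (T - 1) a := hKT _ hxK
  -- size of the Ekeland point
  have hsize : ∑' k, a k ≤ 1 / ε := by
    have h1 : 0 ≤ Gf (xa, xμ) := hG0 _ hxK
    have h2 : Gf ((0 : L1), (0 : ℝ)) ≤ 1 := by
      simp only [hGf]
      have : (fun k => (0 : L1) k) = (fun _ : ℕ => (0:ℝ)) := rfl
      rw [this, tsum_zero]
      linarith
    have h3 : ‖xa‖ ≤ dist ((0 : L1), (0 : ℝ)) (xa, xμ) := by
      have : ‖xa‖ = dist (0 : L1) xa := by rw [dist_zero_left]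
      rw [this]
      exact le_max_left _ _
    have h4 : Gf (xa, xμ) + ε * dist ((0 : L1), (0 : ℝ)) (xa, xμ) ≤ Gf ((0 : L1), (0 : ℝ)) := hxs1
    have h5 : ε * ‖xa‖ ≤ 1 := by
      have := mul_le_mul_of_nonneg_left h3 hε.le
      linarith
    have h6 : ‖xa‖ = ∑' k, a k := by
      rw [L1.norm_eq]
      exact tsum_congr fun k => abs_of_nonneg (hAx.1 k)
    rw [← h6, le_div_iff₀ hε]
    linarith
  refine ⟨a, hup a hAx, xμ, fun hdiff => ?_⟩
  set p₀ : ℝ := P a xμ with hp₀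
  have hp₀0 : 0 ≤ p₀ := h0 a (hup a hAx) xμ
  -- derivative bound
  have hD : deriv (P a) xμ ≤ lam * ρ + ε := by
    have hder := hdiff.hasDerivAt
    have hslope := hder.tendsto_slope.mono_left
      (nhdsWithin_mono xμ (fun y (hy : y ∈ Set.Iio xμ) => ne_of_lt hy) : 𝓝[<] xμ ≤ 𝓝[≠] xμ)
    refine le_of_tendsto hslope ?_
    filter_upwards [self_mem_nhdsWithin] with y hy
    have hy' : y < xμ := hy
    have hyK : ((xa, y) : L1 × ℝ) ∈ KSet (T - 1) := hxK
    have h1 : Gf (xa, xμ) ≤ Gf (xa, y) + ε * dist ((xa, xμ) : L1 × ℝ) (xa, y) := hxs2 ⟨_, hyK⟩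
    have h2 : dist ((xa, xμ) : L1 × ℝ) (xa, y) = xμ - y := by
      rw [Prod.dist_eq]
      simp only [dist_self, Real.dist_eq]
      rw [abs_of_pos (by linarith)]
      exact max_eq_right (by linarith)
    rw [h2] at h1
    simp only [hGf] at h1
    have h3 : P a xμ - P a y ≤ (lam * ρ + ε) * (xμ - y) := by
      have h31 : P a xμ - lam * (ρ * xμ + c * ∑' k, xa k) ≤
          P a y - lam * (ρ * y + c * ∑' k, xa k) + ε * (xμ - y) := h1
      linarith
    rw [slope_def_field]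
    have h4 : (P a y - P a xμ) / (y - xμ) = (P a xμ - P a y) / (xμ - y) := by
      rw [← neg_sub, ← neg_sub xμ y, neg_div_neg_eq]
    rw [h4, div_le_iff₀ (by linarith)]
    exact h3
  -- upper bound to the right
  set σ : ℝ := lam * ρ + 2 * ε with hσ
  have hσ0 : 0 ≤ σ := by positivity
  obtain ⟨δ, hδ, hδP⟩ : ∃ δ > 0, ∀ s, 0 ≤ s → s < δ → P a (xμ + s) ≤ p₀ + σ * s := by
    have hder := hdiff.hasDerivAt
    have hslope := hder.tendsto_slope.mono_left
      (nhdsWithin_mono xμ (fun y (hy : y ∈ Set.Ioi xμ) => (ne_of_lt hy).symm) : 𝓝[>] xμ ≤ 𝓝[≠] xμ)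
    have hlt : deriv (P a) xμ < σ := by linarith
    have hev := hslope.eventually_lt_const hlt
    rw [eventually_nhdsWithin_iff, Metric.eventually_nhds_iff] at hev
    obtain ⟨δ, hδ, hδ'⟩ := hev
    refine ⟨δ, hδ, fun s hs0 hsδ => ?_⟩
    rcases hs0.eq_or_lt with rfl | hs
    · simp [hp₀]
    · have h1 := @hδ' (xμ + s) (by rw [Real.dist_eq]; simpa [abs_of_pos hs] using hsδ)
        (by show xμ < xμ + s; linarith)
      rw [slope_def_field] at h1
      have h2 : xμ + s - xμ = s := by ring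
      rw [h2, div_lt_iff₀ hs] at h1
      linarith
  obtain ⟨C', hC'⟩ := hgrow xμ
  have hC'0 : 0 ≤ C' := by
    have h1 := hC' a (hup a hAx) 0 le_rfl
    have h2 := h0 a (hup a hAx) (xμ + 0)
    nlinarith
  set C₂ : ℝ := C' * (1 / δ ^ 2 + 1) with hC₂
  have hC₂0 : 0 ≤ C₂ := by positivity
  have hall : ∀ s : ℝ, 0 ≤ s → P a (xμ + s) ≤ p₀ + σ * s + C₂ * s ^ 2 := by
    intro s hs
    rcases lt_or_ge s δ with h | h
    · have h1 := hδP s hs h
      have : 0 ≤ C₂ * s ^ 2 := by positivity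
      linarith
    · have h1 := hC' a (hup a hAx) s hs
      have h2 : 1 ≤ s ^ 2 / δ ^ 2 := by
        rw [one_le_div (by positivity)]
        exact pow_le_pow_left₀ hδ.le h 2
      have h3 : C' * (1 + s ^ 2) ≤ C₂ * s ^ 2 := by
        have : C₂ * s ^ 2 = C' * (s ^ 2 / δ ^ 2 + s ^ 2) := by
          rw [hC₂]; field_simp
        rw [this]
        exact mul_le_mul_of_nonneg_left (by linarith) hC'0
      have : 0 ≤ σ * s := by positivity
      linarith
  -- choice of t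
  set t : ℝ := 1 / (8 * C * C₂ + 1) with ht
  have hden : 0 < 8 * C * C₂ + 1 := by positivity
  have ht0 : 0 < t := by positivity
  have ht1 : t ≤ 1 := by
    rw [ht, div_le_one hden]
    have : 0 ≤ 8 * C * C₂ := by positivity
    linarith
  have ht2 : 8 * C * C₂ * t ≤ 1 := by
    rw [ht, mul_one_div, div_le_one hden]
    linarith
  set κ : ℝ := lam * c - (C * σ ^ 2 + ε) with hκ
  have hκ0 : 0 < κ := by rw [hκ]; linarith
  have hev := hkac a hAx xμ t p₀ σ C₂ ht0 ht1 hσ0 hC₂0 hall ht2 (t * κ / 2) (by positivity)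
  -- lower bound from Ekeland
  have hlow : ∀ k, p₀ + lam * c * t - ε * t ≤ P (fun j => a j + if j = k then t else 0) xμ := by
    intro k
    set e : ℕ → ℝ := fun j => a j + if j = k then t else 0 with he
    have hind : Summable (fun j => if j = k then t else 0) :=
      summable_of_ne_finset_zero (s := {k}) (fun j hj => by
        have : j ≠ k := by simpa using hj
        simp [this])
    have hes : Summable e := hAx.2.1.add hind
    have he0 : ∀ j, 0 ≤ e j := by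
      intro j
      simp only [he]
      split_ifs
      · exact add_nonneg (hAx.1 j) ht0.le
      · simpa using hAx.1 j
    have hesum : ∑' j, e j = (∑' j, a j) + t := by
      simp only [he]
      rw [Summable.tsum_add hAx.2.1 hind, tsum_ite_eq]
    have heabs : Summable (fun j => |e j|) := by
      simpa [abs_of_nonneg (he0 _)] using hes.abs
    set y : L1 := L1.mk e heabs with hy
    have hyK : ((y, xμ) : L1 × ℝ) ∈ KSet (T - 1) := by
      refine ⟨he0, ?_⟩
      rw [L1.norm_eq]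
      have : (∑' j, |y j|) = ∑' j, e j := tsum_congr fun j => abs_of_nonneg (he0 j)
      rw [this, hesum]
      linarith
    have h1 : Gf (xa, xμ) ≤ Gf (y, xμ) + ε * dist ((xa, xμ) : L1 × ℝ) (y, xμ) := hxs2 ⟨_, hyK⟩
    have h2 : dist ((xa, xμ) : L1 × ℝ) (y, xμ) = t := by
      rw [Prod.dist_eq]
      simp only [dist_self]
      rw [max_eq_left dist_nonneg, dist_eq_norm, L1.norm_eq]
      have : ∀ j, |(xa - y) j| = if j = k then t else 0 := by
        intro j
        have h3 : (xa - y) j = a j - e j := rfl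
        rw [h3]
        simp only [he]
        split_ifs with hj
        · rw [show a j - (a j + t) = -t by ring, abs_neg, abs_of_pos ht0]
        · simp
      rw [tsum_congr this, tsum_ite_eq]
    rw [h2] at h1
    simp only [hGf] at h1
    have h6 : (∑' j, y j) = (∑' j, a j) + t := hesum
    have h7 : (fun j => y j) = e := rfl
    rw [h6, h7] at h1
    have h8 : (∑' j, xa j) = ∑' j, a j := rfl
    rw [h8] at h1
    have h9 : P (fun k => xa k) xμ = p₀ := rfl
    rw [h9] at h1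
    linarith
  obtain ⟨k, hk⟩ := hev.exists
  have hle := (hlow k).trans hk
  have hcon : t * κ ≤ t * κ / 2 := by
    have h1 : t * κ = lam * c * t - C * t * σ ^ 2 - ε * t := by
      rw [hκ]; ring
    linarith
  have : 0 < t * κ := by positivity
  linarith

end Vale.Agent.P171
end
end

section

section

open MeasureTheory Filter Topology
open scoped ENNReal

namespace Vale.Agent.P171

theorem Pr_ge_trial {T A : ℝ} (hA : 125 * T + 1 ≤ A) {a : ℕ → ℝ} (ha : Adm T a) (μ : ℝ) (K : ℕ) :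
    μ / 27 + (∑ k ∈ Finset.range K, a k) / 11664 ≤ Pr A a μ := by
  have hT0 : 0 ≤ T := le_trans (tsum_nonneg ha.1) ha.2.2
  have hL : (0 : ℝ) < 3 * 2 ^ K - 2 := by
    have : (1 : ℝ) ≤ 2 ^ K := one_le_pow₀ (by norm_num)
    linarith
  exact Pr_ge_trial_of (by linarith) ha.1 ha.2.1 μ K
    (ne_top_of_le_ne_top ENNReal.ofReal_ne_top (GX_box_le hA ha hL _)) (gL_le_Pr hA ha μ hL)

theorem stable_prof {T A : ℝ} (hA : 125 * T + 1 ≤ A) {a : ℕ → ℝ} (ha : Adm T a) :
    Stable (prof A a) := by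
  refine ⟨|prof A a 0| / 2, fun N x _ => ?_⟩
  rw [energy_eq]
  have h1 := quad_WA_ge hA ha x
  have h2 : 0 ≤ quad (same 1 0) x := by
    unfold quad same
    refine Finset.sum_nonneg (fun i _ => Finset.sum_nonneg (fun j _ => ?_))
    split_ifs <;> norm_num
  have h3 : (N : ℝ) * prof A a 0 ≤ N * |prof A a 0| :=
    mul_le_mul_of_nonneg_left (le_abs_self _) (Nat.cast_nonneg _)
  linarith

theorem hasPressure_prof {T A : ℝ} (hA : 125 * T + 1 ≤ A) {a : ℕ → ℝ} (ha : Adm T a) {z : ℝ}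
    (hz : 0 < z) :
    HasPressure (prof A a) 1 z (Pr A a (Real.log z + (prof A a 0 - A) / 2)) := by
  have hν : Real.log z + prof A a 0 / 2 = Real.log z + (prof A a 0 - A) / 2 + A / 2 := by ring
  constructor
  · intro L hL
    rw [Xi_eq_GX A a z L hz]
    exact ne_top_of_le_ne_top ENNReal.ofReal_ne_top (GX_box_le hA ha hL _)
  · have := tendsto_gL hA ha (Real.log z + (prof A a 0 - A) / 2)
    refine this.congr (fun L => ?_)
    rw [Xi_eq_GX A a z L hz, hν]
    rfl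

theorem main : ∃ φ : ℝ → ℝ, IsPotential φ ∧ Stable φ ∧ Tempered φ ∧ HasPhaseTransition φ := by
  obtain ⟨T, hT, hk⟩ := abstract_kink (1 / 27) (1 / 11664) 125 (by norm_num) (by norm_num)
    (by norm_num)
  set A : ℝ := 125 * (T + 2) + 1 with hAdef
  have hA : 125 * T + 1 ≤ A := by rw [hAdef]; linarith
  obtain ⟨a, haT, μ, hμ⟩ := hk (Pr A)
    (fun a ha μ => Pr_nonneg hA ha μ)
    (fun a ha μ K => by
      have := Pr_ge_trial hA ha μ K
      linarith)
    (Pr_zero_le hA (by linarith))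
    (fun a b ha hb h μ => Pr_mono hA ha hb h μ)
    (fun a ha μ μ' h => Pr_mono_mu hA ha h)
    (fun a b ha hb μ μ' s h0 h1 => Pr_convex hA ha hb μ μ' h0 h1)
    (fun μ => by
      refine ⟨1 + (|μ| + |A| / 2 + 1) ^ 2, fun a ha s hs => ?_⟩
      refine (Pr_le hA ha (μ + s)).trans ?_
      have h1 : (μ + s + A / 2) ^ 2 ≤ (|μ| + |A| / 2 + s) ^ 2 := by
        apply sq_le_sq'
        · have := neg_abs_le μ; have := neg_abs_le A; linarith
        · have := le_abs_self μ; have := le_abs_self A; linarith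
      have h2 : 0 ≤ |μ| + |A| / 2 := by positivity
      nlinarith [mul_nonneg h2 hs, sq_nonneg (|μ| + |A| / 2 - s), sq_nonneg s,
        mul_nonneg h2 (sq_nonneg s), mul_nonneg (mul_nonneg h2 h2) (sq_nonneg s)])
    (fun a ha μ t p₀ σ C₂ ht0 ht1 hσ hC hP hsmall ε hε =>
      kac_bound (T := T - 1) (A := A) (by rw [hAdef]; linarith) ha ht0 ht1 hσ hC hP hsmall hε)
  refine ⟨prof A a, isPotential_prof haT, stable_prof hA haT,
    tempered_prof haT, 1, one_pos, fun z => Pr A a (Real.log z + (prof A a 0 - A) / 2),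
    fun z hz => hasPressure_prof hA haT hz, Real.exp (μ - (prof A a 0 - A) / 2),
    Real.exp_pos _, ?_⟩
  intro hd
  apply hμ
  have h1 : DifferentiableAt ℝ (fun ν : ℝ => Real.exp (ν - (prof A a 0 - A) / 2)) μ := by
    fun_prop
  have h2 := DifferentiableAt.comp μ (f := fun ν : ℝ => Real.exp (ν - (prof A a 0 - A) / 2))
    (g := fun z => Pr A a (Real.log z + (prof A a 0 - A) / 2)) hd h1
  refine h2.congr_of_eventuallyEq ?_
  refine Filter.Eventually.of_forall (fun ν => ?_)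
  simp [Function.comp]

end Vale.Agent.P171
end
end

section

section

/-! Second model (two-sided temperedness): general class of pair functions and positive
definite Kac kernels. -/

open MeasureTheory Filter Topology
open scoped ENNReal

namespace Vale.Agent.P171

/-- Radial pair function. -/
noncomputable def rad (f : ℝ → ℝ) (x y : E3) : ℝ := f ‖x - y‖

/-- Superstable, translation invariant, symmetric pair functions that are attractive beyond
distance three. -/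
structure Nice (κ : ℝ) (W : E3 → E3 → ℝ) : Prop where
  meas : Measurable (Function.uncurry W)
  symm : ∀ x y, W x y = W y x
  trans : ∀ v x y, W (x + v) (y + v) = W x y
  far : ∀ x y, 3 ≤ ‖x - y‖ → W x y ≤ 0
  sup : ∀ {ι : Type} [Fintype ι] (x : ι → E3), κ * quad (same 1 0) x ≤ quad W x

/-- Log of the finite volume partition function. -/
noncomputable def pL (W : E3 → E3 → ℝ) (L ν : ℝ) : ℝ := Real.log (GX (box L) W ν).toReal

/-- Pressure. -/
noncomputable def PW (W : E3 → E3 → ℝ) (ν : ℝ) : ℝ :=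
  ⨆ L : {L : ℝ // 0 < L}, pL W L ν / ((L : ℝ) + 3) ^ 3

/-- Volume of a ball of radius `r`. -/
noncomputable def vball (r : ℝ) : ℝ := (volume (Metric.ball (0 : E3) r)).toReal

/-- Positive definite Kac kernel: volume of the intersection of two balls of radius `r` with
centres at distance `ρ`, divided by the square of the volume of one ball. -/
noncomputable def kac (r ρ : ℝ) : ℝ :=
  (volume (Metric.ball (0 : E3) r ∩ Metric.ball (EuclideanSpace.single (0 : Fin 3) ρ) r)).toReal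
    / vball r ^ 2

/-- The factor `(1 - 3R/l)⁻¹`. -/
noncomputable def cfac (R l : ℕ) : ℝ := (1 - 3 * (R : ℝ) / l)⁻¹

/-- Block mean-field constant. -/
noncomputable def tauf (α r : ℝ) (l : ℕ) : ℝ := α * (1 + 2 * (l : ℝ) / r) ^ 6 / (l : ℝ) ^ 3

end Vale.Agent.P171
end
end

section

section

open MeasureTheory Filter Topology
open scoped ENNReal

namespace Vale.Agent.P171

theorem nice_card_sq_le {L : ℝ} (hL : 0 < L) {N : ℕ} (x : Fin N → E3) (hx : ∀ i, x i ∈ box L) :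
    (N : ℝ) ^ 2 ≤ (L + 1) ^ 3 * quad (same 1 0) x := by
  set V : ℝ := (L + 1) ^ 3 with hV
  have hVpos : 0 < V := by positivity
  have h := exponent_same_le hL ((N : ℝ) / V) x hx
  have h1 : (N : ℝ) / V * N - quad (same 1 0) x / 2 ≤ ((N : ℝ) / V) ^ 2 / 2 * V := h
  have h2 : ((N : ℝ) / V) ^ 2 / 2 * V = (N : ℝ) ^ 2 / V / 2 := by
    field_simp
  have h3 : (N : ℝ) / V * N = (N : ℝ) ^ 2 / V := by
    field_simp
  rw [h2, h3] at h1
  have h4 : (N : ℝ) ^ 2 / V ≤ quad (same 1 0) x := by linarith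
  rw [div_le_iff₀ hVpos] at h4
  linarith

section
variable {κ : ℝ} (hκ : 1 ≤ κ) {W : E3 → E3 → ℝ} (hW : Nice κ W)
include hκ hW

theorem nice_exponent_le {L : ℝ} (hL : 0 < L) (ν : ℝ) {N : ℕ} (x : Fin N → E3)
    (hx : ∀ i, x i ∈ box L) : ν * N - quad W x / 2 ≤ ν ^ 2 / (2 * κ) * (L + 1) ^ 3 := by
  have hκ0 : 0 < κ := by linarith
  have h1 := nice_card_sq_le hL x hx
  have h2 := hW.sup x
  set V : ℝ := (L + 1) ^ 3 with hV
  have hVpos : 0 < V := by positivity
  have h3 : (N : ℝ) ^ 2 / V ≤ quad (same 1 0) x := by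
    rw [div_le_iff₀ hVpos]
    linarith
  have h4 : κ * ((N : ℝ) ^ 2 / V) ≤ quad W x := (mul_le_mul_of_nonneg_left h3 hκ0.le).trans h2
  have h5 : ν ^ 2 / (2 * κ) * V - (ν * N - κ * ((N : ℝ) ^ 2 / V) / 2)
      = (ν * V - κ * N) ^ 2 / (2 * κ * V) := by
    field_simp
    ring
  have h6 : 0 ≤ (ν * V - κ * N) ^ 2 / (2 * κ * V) := by positivity
  linarith

theorem nice_GX_le {L : ℝ} (hL : 0 < L) (ν : ℝ) :
    GX (box L) W ν ≤ ENNReal.ofReal (Real.exp ((ν ^ 2 / (2 * κ) + 1) * (L + 1) ^ 3)) := by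
  have h1 : volume (box L) ≤ ENNReal.ofReal ((L + 1) ^ 3) := by
    rw [volume_box hL.le]
    apply ENNReal.ofReal_le_ofReal
    gcongr
    linarith
  refine (GX_le_exp (measurableSet_box L) (by positivity) h1
    (fun N x hx => nice_exponent_le hκ hW hL ν x hx)).trans (le_of_eq ?_)
  congr 2
  ring

theorem nice_GX_ne_top {L : ℝ} (hL : 0 < L) (ν : ℝ) : GX (box L) W ν ≠ ⊤ :=
  ne_top_of_le_ne_top ENNReal.ofReal_ne_top (nice_GX_le hκ hW hL ν)

theorem nice_one_le_toReal {L : ℝ} (hL : 0 < L) (ν : ℝ) : 1 ≤ (GX (box L) W ν).toReal := by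
  have h := one_le_GX (box L) W ν
  have := (ENNReal.toReal_le_toReal ENNReal.one_ne_top (nice_GX_ne_top hκ hW hL ν)).2 h
  simpa using this

theorem pL_nonneg (ν : ℝ) {L : ℝ} (hL : 0 < L) : 0 ≤ pL W L ν :=
  Real.log_nonneg (nice_one_le_toReal hκ hW hL _)

theorem pL_le {L : ℝ} (hL : 0 < L) (ν : ℝ) :
    pL W L ν ≤ (ν ^ 2 / (2 * κ) + 1) * (L + 1) ^ 3 := by
  unfold pL
  rw [← Real.log_exp ((ν ^ 2 / (2 * κ) + 1) * (L + 1) ^ 3)]
  apply Real.log_le_log
  · exact lt_of_lt_of_le one_pos (nice_one_le_toReal hκ hW hL _)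
  · have := ENNReal.toReal_mono ENNReal.ofReal_ne_top (nice_GX_le hκ hW hL ν)
    rwa [ENNReal.toReal_ofReal (Real.exp_pos _).le] at this

theorem pL_div_le (ν : ℝ) {L : ℝ} (hL : 0 < L) :
    pL W L ν / (L + 3) ^ 3 ≤ 1 + ν ^ 2 / (2 * κ) := by
  rw [div_le_iff₀ (by positivity)]
  refine (pL_le hκ hW hL ν).trans ?_
  have h1 : (L + 1) ^ 3 ≤ (L + 3) ^ 3 := by gcongr; norm_num
  have h2 : 0 ≤ ν ^ 2 / (2 * κ) + 1 := by
    have : 0 < κ := by linarith
    positivity
  calc (ν ^ 2 / (2 * κ) + 1) * (L + 1) ^ 3 ≤ (ν ^ 2 / (2 * κ) + 1) * (L + 3) ^ 3 := by gcongr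
    _ = _ := by ring

theorem bddAbove_pL (ν : ℝ) :
    BddAbove (Set.range fun L : {L : ℝ // 0 < L} => pL W L ν / ((L : ℝ) + 3) ^ 3) := by
  refine ⟨1 + ν ^ 2 / (2 * κ), ?_⟩
  rintro _ ⟨L, rfl⟩
  exact pL_div_le hκ hW ν L.2

theorem pL_div_le_PW (ν : ℝ) {L : ℝ} (hL : 0 < L) : pL W L ν / (L + 3) ^ 3 ≤ PW W ν :=
  le_ciSup (bddAbove_pL hκ hW ν) ⟨L, hL⟩

theorem pL_le_PW (ν : ℝ) {L : ℝ} (hL : 0 < L) : pL W L ν ≤ (L + 3) ^ 3 * PW W ν := by
  have := pL_div_le_PW hκ hW ν hL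
  rwa [div_le_iff₀ (by positivity), mul_comm] at this

theorem GX_eq_exp_pL (ν : ℝ) {L : ℝ} (hL : 0 < L) :
    GX (box L) W ν = ENNReal.ofReal (Real.exp (pL W L ν)) := by
  unfold pL
  rw [Real.exp_log (lt_of_lt_of_le one_pos (nice_one_le_toReal hκ hW hL ν)),
    ENNReal.ofReal_toReal (nice_GX_ne_top hκ hW hL ν)]

theorem GX_le_exp_PW (ν : ℝ) {L : ℝ} (hL : 0 < L) :
    GX (box L) W ν ≤ ENNReal.ofReal (Real.exp ((L + 3) ^ 3 * PW W ν)) := by
  rw [GX_eq_exp_pL hκ hW ν hL]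
  exact ENNReal.ofReal_le_ofReal (Real.exp_le_exp.2 (pL_le_PW hκ hW ν hL))

theorem PW_nonneg (ν : ℝ) : 0 ≤ PW W ν := by
  have h1 := pL_div_le_PW hκ hW ν one_pos
  have h2 := pL_nonneg hκ hW ν one_pos
  exact le_trans (by positivity) h1

theorem PW_le (ν : ℝ) : PW W ν ≤ 1 + ν ^ 2 / (2 * κ) := by
  have : Nonempty {L : ℝ // 0 < L} := ⟨⟨1, one_pos⟩⟩
  exact ciSup_le fun L => pL_div_le hκ hW ν L.2

omit hW in
theorem PW_le_of_pL_le {W' : E3 → E3 → ℝ} (hW' : Nice κ W') {ν ν' : ℝ}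
    (h : ∀ L : ℝ, 0 < L → pL W L ν ≤ pL W' L ν') : PW W ν ≤ PW W' ν' := by
  have : Nonempty {L : ℝ // 0 < L} := ⟨⟨1, one_pos⟩⟩
  refine ciSup_le fun L => ?_
  refine le_trans ?_ (pL_div_le_PW hκ hW' ν' L.2)
  have hL : (0 : ℝ) < L := L.2
  gcongr
  exact h L L.2

omit hκ hW in
theorem pL_mono_of {W' : E3 → E3 → ℝ} {ν ν' L : ℝ}
    (hfin : GX (box L) W' ν' ≠ ⊤) (hfin' : GX (box L) W ν ≠ ⊤)
    (h : GX (box L) W ν ≤ GX (box L) W' ν') : pL W L ν ≤ pL W' L ν' := by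
  unfold pL
  apply Real.log_le_log
  · exact ENNReal.toReal_pos (one_pos.trans_le (one_le_GX _ _ _)).ne' hfin'
  · exact ENNReal.toReal_mono hfin h

theorem PW_mono_nu {ν ν' : ℝ} (h : ν ≤ ν') : PW W ν ≤ PW W ν' := by
  refine PW_le_of_pL_le hκ hW fun L hL => ?_
  refine pL_mono_of (nice_GX_ne_top hκ hW hL _) (nice_GX_ne_top hκ hW hL _) ?_
  refine GX_mono (measurableSet_box L) fun N x _ => ?_
  have : ν * (N : ℝ) ≤ ν' * N := by gcongr
  linarith

theorem PW_mono {κ' : ℝ} (hκ' : 1 ≤ κ') {W' : E3 → E3 → ℝ} (hW' : Nice κ' W')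
    (h : ∀ x y, W' x y ≤ W x y) (ν : ℝ) : PW W ν ≤ PW W' ν := by
  refine PW_le_of_pL_le hκ' hW' fun L hL => ?_
  refine pL_mono_of (nice_GX_ne_top hκ' hW' hL _) (nice_GX_ne_top hκ hW hL _) ?_
  refine GX_mono (measurableSet_box L) fun N x _ => ?_
  have : quad W' x ≤ quad W x := quad_mono x fun i j => h _ _
  linarith

theorem PW_convex {κ' : ℝ} (hκ' : 1 ≤ κ') {W' : E3 → E3 → ℝ} (hW' : Nice κ' W') (ν ν' : ℝ)
    {s : ℝ} (h0 : 0 ≤ s) (h1 : s ≤ 1) :
    PW (fun x y => (1 - s) * W x y + s * W' x y) ((1 - s) * ν + s * ν') ≤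
      (1 - s) * PW W ν + s * PW W' ν' := by
  have : Nonempty {L : ℝ // 0 < L} := ⟨⟨1, one_pos⟩⟩
  refine ciSup_le fun L => ?_
  have hL : (0 : ℝ) < L := L.2
  have hs0 : 0 ≤ 1 - s := sub_nonneg.2 h1
  have hH := GX_holder (measurableSet_box L) hW.meas hW'.meas ν ν' h0 h1
  have hga := nice_GX_ne_top hκ hW hL ν
  have hgb := nice_GX_ne_top hκ' hW' hL ν'
  have hpa := nice_one_le_toReal hκ hW hL ν
  have hpb := nice_one_le_toReal hκ' hW' hL ν'
  have hrhs : (GX (box L) W ν) ^ (1 - s) * (GX (box L) W' ν') ^ s ≠ ⊤ :=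
    ENNReal.mul_ne_top (ENNReal.rpow_ne_top_of_nonneg hs0 hga) (ENNReal.rpow_ne_top_of_nonneg h0 hgb)
  have h4 : pL (fun x y => (1 - s) * W x y + s * W' x y) L ((1 - s) * ν + s * ν')
      ≤ (1 - s) * pL W L ν + s * pL W' L ν' := by
    unfold pL
    have h5 := ENNReal.toReal_mono hrhs hH
    rw [ENNReal.toReal_mul, ← ENNReal.toReal_rpow, ← ENNReal.toReal_rpow] at h5
    have h6 : 0 < (GX (box L) (fun x y => (1 - s) * W x y + s * W' x y)
        ((1 - s) * ν + s * ν')).toReal :=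
      ENNReal.toReal_pos (one_pos.trans_le (one_le_GX _ _ _)).ne' (ne_top_of_le_ne_top hrhs hH)
    refine (Real.log_le_log h6 h5).trans (le_of_eq ?_)
    have hpa' : 0 < (GX (box L) W ν).toReal := by linarith
    have hpb' : 0 < (GX (box L) W' ν').toReal := by linarith
    rw [Real.log_mul (Real.rpow_pos_of_pos hpa' _).ne' (Real.rpow_pos_of_pos hpb' _).ne',
      Real.log_rpow hpa', Real.log_rpow hpb']
  have h7 := pL_div_le_PW hκ hW ν hL
  have h8 := pL_div_le_PW hκ' hW' ν' hL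
  calc pL (fun x y => (1 - s) * W x y + s * W' x y) L ((1 - s) * ν + s * ν') / ((L : ℝ) + 3) ^ 3
      ≤ ((1 - s) * pL W L ν + s * pL W' L ν') / ((L : ℝ) + 3) ^ 3 := by gcongr
    _ = (1 - s) * (pL W L ν / ((L : ℝ) + 3) ^ 3) + s * (pL W' L ν' / ((L : ℝ) + 3) ^ 3) := by
        ring
    _ ≤ _ := by gcongr

/-- superadditivity -/
theorem pL_super (ν : ℝ) {l : ℝ} (hl : 0 < l) (n : ℕ) {L : ℝ}
    (hL : 0 < L) (hnL : n * (l + 3) ≤ L) :
    (n : ℝ) ^ 3 * pL W l ν ≤ pL W L ν := by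
  classical
  let Λ : (Fin 3 → Fin n) → Set E3 := fun v =>
    {x | ∀ c, (l + 3) * (v c : ℝ) ≤ x c ∧ x c ≤ (l + 3) * (v c : ℝ) + l}
  let w : (Fin 3 → Fin n) → E3 := fun v => WithLp.toLp 2 fun c => (l + 3) * (v c : ℝ)
  have hΛ : ∀ v, Λ v = (fun x => x + w v) '' box l := by
    intro v
    ext x
    simp only [Λ, box, Set.mem_image, Set.mem_ofPred_eq]
    constructor
    · intro h
      refine ⟨x - w v, fun c => ?_, by simp⟩
      have := h c
      simp only [PiLp.sub_apply, w]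
      constructor <;> linarith [this.1, this.2]
    · rintro ⟨y, hy, rfl⟩ c
      have := hy c
      simp only [PiLp.add_apply, w]
      constructor <;> linarith [this.1, this.2]
  have hGX : ∀ v, GX (Λ v) W ν = GX (box l) W ν := by
    intro v
    rw [hΛ v]
    exact GX_translate (w v) (fun x y => hW.trans (w v) x y) _
  have hmeas : ∀ v, MeasurableSet (Λ v) := by
    intro v
    rw [hΛ v]
    exact (MeasurableEquiv.addRight (w v)).measurableEmbedding.measurableSet_image.2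
      (measurableSet_box l)
  have hsep : ∀ v v' : Fin 3 → Fin n, v ≠ v' → ∀ x ∈ Λ v, ∀ y ∈ Λ v', 3 ≤ ‖x - y‖ := by
    have key : ∀ (v v' : Fin 3 → Fin n) (c : Fin 3), v c < v' c → ∀ x ∈ Λ v, ∀ y ∈ Λ v',
        3 ≤ ‖x - y‖ := by
      intro v v' c hc x hx y hy
      have h1 := (hx c).2
      have h2 := (hy c).1
      have h3 : ((v c : ℕ) : ℝ) + 1 ≤ ((v' c : ℕ) : ℝ) := by exact_mod_cast hc
      have h4 := abs_coord_le_norm (x - y) c
      rw [PiLp.sub_apply] at h4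
      have h5 : (l + 3) * (((v c : ℕ) : ℝ) + 1) ≤ (l + 3) * ((v' c : ℕ) : ℝ) := by gcongr
      have h6 : 3 ≤ |x c - y c| := by
        rw [abs_sub_comm]
        refine le_trans ?_ (le_abs_self _)
        linarith
      exact h6.trans h4
    intro v v' hne x hx y hy
    obtain ⟨c, hc⟩ := Function.ne_iff.1 hne
    rcases lt_or_gt_of_ne hc with h | h
    · exact key v v' c h x hx y hy
    · rw [norm_sub_rev]
      exact key v' v c h y hy x hx
  have hdisj : ∀ v v' : Fin 3 → Fin n, v ≠ v' → Disjoint (Λ v) (Λ v') := by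
    intro v v' hne
    rw [Set.disjoint_left]
    intro x hx hx'
    have := hsep v v' hne x hx x hx'
    simp at this
    linarith
  have h1 := GX_le_biUnion (Finset.univ : Finset (Fin 3 → Fin n)) (Λ := Λ) (fun v _ => hmeas v)
    (fun v _ v' _ hne => hdisj v v' hne) hW.meas hW.symm ν
    (fun v _ v' _ hne x hx y hy => hW.far x y (hsep v v' hne x hx y hy))
  have h2 : (⋃ v ∈ (Finset.univ : Finset (Fin 3 → Fin n)), Λ v) ⊆ box L := by
    intro x hx
    rw [Set.mem_iUnion₂] at hx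
    obtain ⟨v, _, hx⟩ := hx
    intro c
    have h3 := hx c
    have h4 : ((v c : ℕ) : ℝ) + 1 ≤ n := by exact_mod_cast (v c).2
    have h5 : (l + 3) * (((v c : ℕ) : ℝ) + 1) ≤ (l + 3) * n := by gcongr
    have h6 : 0 ≤ (l + 3) * ((v c : ℕ) : ℝ) := by positivity
    constructor
    · linarith [h3.1]
    · linarith [h3.2]
  have h3 : GX (box l) W ν ^ (n ^ 3) ≤ GX (box L) W ν := by
    refine le_trans (le_of_eq ?_) (h1.trans (GX_mono_set h2 _ _))
    simp_rw [hGX]
    simp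
  unfold pL
  have h4 := ENNReal.toReal_mono (nice_GX_ne_top hκ hW hL ν) h3
  rw [ENNReal.toReal_pow] at h4
  have h5 := nice_one_le_toReal hκ hW hl ν
  have h6 := Real.log_le_log (by positivity) h4
  rw [Real.log_pow] at h6
  push_cast at h6
  exact h6

theorem tendsto_pL (ν : ℝ) :
    Tendsto (fun L : ℝ => pL W L ν / L ^ 3) atTop (𝓝 (PW W ν)) := by
  rw [tendsto_order]
  constructor
  · intro b hb
    have : Nonempty {L : ℝ // 0 < L} := ⟨⟨1, one_pos⟩⟩
    obtain ⟨⟨l, hl⟩, hbl⟩ := exists_lt_of_lt_ciSup hb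
    simp only at hbl
    have hfl : Tendsto (fun L : ℝ => ((⌊L / (l + 3)⌋₊ : ℝ) / (L / (l + 3))) ^ 3 *
        (pL W l ν / (l + 3) ^ 3)) atTop (𝓝 (1 ^ 3 * (pL W l ν / (l + 3) ^ 3))) := by
      refine Tendsto.mul_const _ (Tendsto.pow ?_ 3)
      have h1 : Tendsto (fun L : ℝ => L / (l + 3)) atTop atTop :=
        tendsto_id.atTop_div_const (by positivity)
      exact (tendsto_nat_floor_div_atTop (R := ℝ)).comp h1
    rw [one_pow, one_mul] at hfl
    have hev := (tendsto_order.1 hfl).1 b hbl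
    filter_upwards [hev, eventually_gt_atTop 0] with L hL1 hL0
    refine hL1.trans_le ?_
    have h2 := pL_super hκ hW ν hl ⌊L / (l + 3)⌋₊ hL0 (by
      have := Nat.floor_le (show 0 ≤ L / (l + 3) by positivity)
      rwa [le_div_iff₀ (by positivity)] at this)
    have h3 : ((⌊L / (l + 3)⌋₊ : ℝ) / (L / (l + 3))) ^ 3 * (pL W l ν / (l + 3) ^ 3)
        = (⌊L / (l + 3)⌋₊ : ℝ) ^ 3 * pL W l ν / L ^ 3 := by
      field_simp
    rw [h3]
    gcongr
  · intro b hb
    have h1 : Tendsto (fun L : ℝ => (1 + 3 / L) ^ 3 * PW W ν) atTop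
        (𝓝 ((1 + 0) ^ 3 * PW W ν)) := by
      refine Tendsto.mul_const _ (Tendsto.pow (Tendsto.const_add 1 ?_) 3)
      exact tendsto_const_nhds.div_atTop tendsto_id
    rw [add_zero, one_pow, one_mul] at h1
    have hev := (tendsto_order.1 h1).2 b hb
    filter_upwards [hev, eventually_gt_atTop 0] with L hL1 hL0
    refine lt_of_le_of_lt ?_ hL1
    have h2 := pL_le_PW hκ hW ν hL0
    rw [div_le_iff₀ (by positivity)]
    refine h2.trans (le_of_eq ?_)
    field_simp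

/-- one particle in the unit box -/
theorem PW_ge_trial {A : ℝ} (hA : ∀ x, W x x ≤ A) (ν : ℝ) : (ν - A / 2) / 64 ≤ PW W ν := by
  have h1 := pL_div_le_PW hκ hW ν one_pos
  have h2 : ENNReal.ofReal (Real.exp (ν - A / 2)) ≤ GX (box 1) W ν := by
    unfold GX
    refine le_trans ?_ (ENNReal.le_tsum 1)
    have h3 : ∀ x : Fin 1 → E3, ENNReal.ofReal (Real.exp (ν - A / 2)) ≤ wt W ν x := by
      intro x
      unfold wt quad
      apply ENNReal.ofReal_le_ofReal
      apply Real.exp_le_exp.2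
      simp only [Fintype.card_fin, Finset.univ_unique, Finset.sum_singleton]
      have := hA (x default)
      push_cast
      linarith
    calc ENNReal.ofReal (Real.exp (ν - A / 2))
        = (Nat.factorial 1 : ℝ≥0∞)⁻¹ * ∫⁻ x in {x : Fin 1 → E3 | ∀ i, x i ∈ box 1},
            ENNReal.ofReal (Real.exp (ν - A / 2)) := by
          rw [setLIntegral_const, volume_all, volume_box one_pos.le]
          simp
      _ ≤ _ := by
          gcongr with x
          exact h3 x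
  have h4 : ν - A / 2 ≤ pL W 1 ν := by
    unfold pL
    rw [← Real.log_exp (ν - A / 2)]
    apply Real.log_le_log (Real.exp_pos _)
    have := ENNReal.toReal_mono (nice_GX_ne_top hκ hW one_pos ν) h2
    rwa [ENNReal.toReal_ofReal (Real.exp_pos _).le] at this
  refine le_trans ?_ h1
  have h5 : ((1 : ℝ) + 3) ^ 3 = 64 := by norm_num
  rw [h5]
  gcongr

/-- ideal gas bound -/
theorem PW_le_one {ν : ℝ} (h : ∀ {ι : Type} [Fintype ι] (x : ι → E3),
    2 * ν * Fintype.card ι ≤ quad W x) : PW W ν ≤ 1 := by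
  have : Nonempty {L : ℝ // 0 < L} := ⟨⟨1, one_pos⟩⟩
  refine ciSup_le fun L => ?_
  have hL : (0 : ℝ) < L := L.2
  rw [div_le_one (by positivity)]
  have h1 : GX (box L) W ν ≤ ENNReal.ofReal (Real.exp (0 + (L : ℝ) ^ 3)) := by
    refine GX_le_exp (measurableSet_box L) (by positivity) (volume_box hL.le).le fun N x _ => ?_
    have h2 := h x
    rw [Fintype.card_fin] at h2
    linarith
  have h3 : pL W L ν ≤ (L : ℝ) ^ 3 := by
    unfold pL
    rw [← Real.log_exp ((L : ℝ) ^ 3)]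
    apply Real.log_le_log
    · exact lt_of_lt_of_le one_pos (nice_one_le_toReal hκ hW hL _)
    · have := ENNReal.toReal_mono ENNReal.ofReal_ne_top h1
      rwa [ENNReal.toReal_ofReal (Real.exp_pos _).le, zero_add (_ ^ 3)] at this
  refine h3.trans ?_
  gcongr
  linarith

theorem PW_le_of_blocks (ν : ℝ) {l : ℕ} (hl : 0 < l) {c : ℝ}
    (h : ∀ n : ℕ, 0 < n → GX (box ((l : ℝ) * n)) W ν ≤
      ENNReal.ofReal (Real.exp (c * ((n : ℝ) + 2) ^ 3))) : PW W ν ≤ c / (l : ℝ) ^ 3 := by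
  have hl' : (0 : ℝ) < l := by exact_mod_cast hl
  have hlim1 : Tendsto (fun n : ℕ => pL W ((l : ℝ) * n) ν / ((l : ℝ) * n) ^ 3) atTop
      (𝓝 (PW W ν)) := by
    have h1 : Tendsto (fun n : ℕ => (l : ℝ) * (n : ℝ)) atTop atTop :=
      (tendsto_natCast_atTop_atTop).const_mul_atTop hl'
    exact (tendsto_pL hκ hW ν).comp h1
  have hlim2 : Tendsto (fun n : ℕ => (1 + 2 / (n : ℝ)) ^ 3 * (c / (l : ℝ) ^ 3)) atTop
      (𝓝 ((1 + 0) ^ 3 * (c / (l : ℝ) ^ 3))) := by
    refine Tendsto.mul_const _ (Tendsto.pow (Tendsto.const_add 1 ?_) 3)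
    exact tendsto_const_nhds.div_atTop tendsto_natCast_atTop_atTop
  rw [add_zero, one_pow, one_mul] at hlim2
  refine le_of_tendsto_of_tendsto hlim1 hlim2 ?_
  filter_upwards [eventually_gt_atTop 0] with n hn
  have hn' : (0 : ℝ) < n := by exact_mod_cast hn
  have h1 : pL W ((l : ℝ) * n) ν ≤ c * ((n : ℝ) + 2) ^ 3 := by
    unfold pL
    rw [← Real.log_exp (c * ((n : ℝ) + 2) ^ 3)]
    apply Real.log_le_log
    · exact lt_of_lt_of_le one_pos (nice_one_le_toReal hκ hW (by positivity) _)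
    · have := ENNReal.toReal_mono ENNReal.ofReal_ne_top (h n hn)
      rwa [ENNReal.toReal_ofReal (Real.exp_pos _).le] at this
  rw [div_le_iff₀ (by positivity)]
  refine h1.trans (le_of_eq ?_)
  field_simp

end

end Vale.Agent.P171
end
end

section

section

open MeasureTheory Filter Topology
open scoped ENNReal

namespace Vale.Agent.P171

theorem energy_eq_rad (φ : ℝ → ℝ) {N : ℕ} (x : Fin N → E3) :
    energy φ x = (quad (rad φ) x - N * φ 0) / 2 := by
  have hsym : ∀ i j : Fin N, φ ‖x i - x j‖ = φ ‖x j - x i‖ := fun i j => by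
    rw [norm_sub_rev]
  have h : quad (rad φ) x = 2 * energy φ x + N * φ 0 := by
    unfold quad energy rad
    have h1 : ∀ i : Fin N, ∑ j, φ ‖x i - x j‖
        = ∑ j ∈ Finset.Ioi i, φ ‖x i - x j‖ + ∑ j ∈ Finset.Iio i, φ ‖x i - x j‖ + φ 0 := by
      intro i
      have hu : (Finset.univ : Finset (Fin N)) = insert i (Finset.Ioi i ∪ Finset.Iio i) := by
        ext j
        simp only [Finset.mem_univ, Finset.mem_insert, Finset.mem_union, Finset.mem_Ioi,
          Finset.mem_Iio, true_iff]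
        rcases lt_trichotomy j i with h | h | h
        · right; right; exact h
        · left; exact h
        · right; left; exact h
      rw [hu, Finset.sum_insert (by simp), Finset.sum_union]
      · simp; ring
      · rw [Finset.disjoint_left]
        intro j hj hj'
        simp at hj hj'
        exact absurd (hj.trans hj') (lt_irrefl _)
    simp_rw [h1]
    rw [Finset.sum_add_distrib, Finset.sum_add_distrib]
    have h2 : ∑ i : Fin N, ∑ j ∈ Finset.Iio i, φ ‖x i - x j‖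
        = ∑ i : Fin N, ∑ j ∈ Finset.Ioi i, φ ‖x i - x j‖ := by
      have : ∑ i : Fin N, ∑ j ∈ Finset.Iio i, φ ‖x i - x j‖
        = ∑ j : Fin N, ∑ i ∈ Finset.Ioi j, φ ‖x i - x j‖ := by
        apply Finset.sum_comm'
        intro i j; simp
      rw [this]
      refine Finset.sum_congr rfl (fun i _ => Finset.sum_congr rfl (fun j _ => hsym _ _))
    rw [h2]; simp; ring
  rw [h]; ring

theorem Xi_eq_GX_rad (φ : ℝ → ℝ) (z L : ℝ) (hz : 0 < z) :
    Xi φ 1 z L = GX (box L) (rad φ) (Real.log z + φ 0 / 2) := by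
  unfold Xi GX Z
  refine tsum_congr (fun N => ?_)
  rw [← mul_assoc, mul_comm (ENNReal.ofReal (z ^ N)), mul_assoc]
  congr 1
  rw [← lintegral_const_mul' _ _ ENNReal.ofReal_ne_top]
  refine lintegral_congr (fun x => ?_)
  unfold wt
  rw [← ENNReal.ofReal_mul (by positivity)]
  congr 1
  rw [energy_eq_rad, Fintype.card_fin]
  have : z ^ N = Real.exp (Real.log z * N) := by
    rw [Real.exp_mul, Real.exp_log hz, Real.rpow_natCast]
  rw [this, ← Real.exp_add]
  congr 1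
  ring

/-- Official consequences of niceness of the pair function of a radial potential. -/
theorem stable_of_nice {φ : ℝ → ℝ} {κ : ℝ} (hκ : 0 ≤ κ) (h : Nice κ (rad φ)) : Stable φ := by
  refine ⟨|φ 0| / 2, fun N x _ => ?_⟩
  rw [energy_eq_rad]
  have h1 := h.sup x
  have h2 : 0 ≤ quad (same 1 0) x := quad_nonneg x (fun i j => same_nonneg _ _ _ _)
  have h3 : (N : ℝ) * φ 0 ≤ N * |φ 0| :=
    mul_le_mul_of_nonneg_left (le_abs_self _) (Nat.cast_nonneg _)
  have h4 := mul_nonneg hκ h2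
  linarith

theorem hasPressure_of_nice {φ : ℝ → ℝ} {κ : ℝ} (hκ : 1 ≤ κ) (h : Nice κ (rad φ)) {z : ℝ}
    (hz : 0 < z) : HasPressure φ 1 z (PW (rad φ) (Real.log z + φ 0 / 2)) := by
  constructor
  · intro L hL
    rw [Xi_eq_GX_rad φ z L hz]
    exact nice_GX_ne_top hκ h hL _
  · refine (tendsto_pL hκ h (Real.log z + φ 0 / 2)).congr (fun L => ?_)
    rw [Xi_eq_GX_rad φ z L hz]
    rfl

theorem tempered_of_nonpos {φ : ℝ → ℝ} (h : ∀ r, 3 ≤ r → φ r ≤ 0) : Tempered φ := by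
  refine ⟨1, 1, 3, one_pos, one_pos, by norm_num, fun r hr => ?_⟩
  refine (h r hr).trans ?_
  have : 0 ≤ r ^ (-(3 + 1) : ℝ) := Real.rpow_nonneg (by linarith) _
  linarith

theorem isPotential_of_bdd {φ : ℝ → ℝ} (hm : Measurable φ) {M : ℝ} (hM : ∀ r, |φ r| ≤ M) :
    IsPotential φ :=
  ⟨hm.comp measurable_subtype_coe, fun _ _ _ => ⟨M, fun r _ _ => hM r⟩⟩

theorem hasPhaseTransition_of_kink {φ : ℝ → ℝ} {κ c : ℝ} (hκ : 1 ≤ κ) (h : Nice κ (rad φ))
    {μ : ℝ} (hd : ¬ DifferentiableAt ℝ (fun μ => PW (rad φ) (μ + c)) μ) :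
    HasPhaseTransition φ := by
  refine ⟨1, one_pos, fun z => PW (rad φ) (Real.log z + φ 0 / 2),
    fun z hz => hasPressure_of_nice hκ h hz, Real.exp (μ + (c - φ 0 / 2)), Real.exp_pos _, ?_⟩
  intro hd'
  apply hd
  have h1 : DifferentiableAt ℝ (fun ν : ℝ => Real.exp (ν + (c - φ 0 / 2))) μ := by
    fun_prop
  have h2 := DifferentiableAt.comp μ (f := fun ν : ℝ => Real.exp (ν + (c - φ 0 / 2)))
    (g := fun z => PW (rad φ) (Real.log z + φ 0 / 2)) hd' h1
  refine h2.congr_of_eventuallyEq ?_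
  refine Filter.Eventually.of_forall (fun ν => ?_)
  simp only [Function.comp, Real.log_exp]
  congr 1
  ring

end Vale.Agent.P171
end
end

section

section

open MeasureTheory Filter Topology Metric
open scoped ENNReal

namespace Vale.Agent.P171

/-- overlap volume of two balls of radius `r` -/
noncomputable def ovl (r : ℝ) (x y : E3) : ℝ := (volume (ball x r ∩ ball y r)).toReal

theorem kac_eq_ovl (r ρ : ℝ) :
    kac r ρ = ovl r 0 (EuclideanSpace.single (0 : Fin 3) ρ) / vball r ^ 2 := rfl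

theorem volume_ball_ne_top (x : E3) (r : ℝ) : volume (ball x r) ≠ ⊤ := measure_ball_lt_top.ne

theorem volume_ball_toReal (x : E3) (r : ℝ) : (volume (ball x r)).toReal = vball r := by
  unfold vball
  rw [Measure.addHaar_ball_center volume x r]

theorem vball_pos {r : ℝ} (hr : 0 < r) : 0 < vball r :=
  ENNReal.toReal_pos (measure_ball_pos volume _ hr).ne' (volume_ball_ne_top _ _)

theorem vball_nonneg (r : ℝ) : 0 ≤ vball r := ENNReal.toReal_nonneg

theorem vball_mul {r s : ℝ} (hr : 0 ≤ r) : vball (r * s) = r ^ 3 * vball s := by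
  unfold vball
  rw [Measure.addHaar_ball_mul volume (0 : E3) hr s, ENNReal.toReal_mul]
  simp [hr]

theorem vball_eq {r : ℝ} (hr : 0 ≤ r) : vball r = 4 / 3 * Real.pi * r ^ 3 := by
  unfold vball
  rw [EuclideanSpace.volume_ball_fin_three, ENNReal.toReal_mul, ENNReal.toReal_pow,
    ENNReal.toReal_ofReal hr, ENNReal.toReal_ofReal (by positivity)]
  ring

theorem pow_le_vball {r : ℝ} (hr : 0 ≤ r) : r ^ 3 ≤ vball r := by
  rw [vball_eq hr]
  have h1 := Real.pi_gt_three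
  have h2 : 0 ≤ r ^ 3 := by positivity
  nlinarith

/-- overlap invariance under affine isometries of the form `f` measure preserving -/
theorem ovl_isometry (f : E3 ≃ᵢ E3) (hf : MeasurePreserving f volume volume) (r : ℝ) (x y : E3) :
    ovl r (f x) (f y) = ovl r x y := by
  unfold ovl
  have hx : ∀ x, f ⁻¹' ball (f x) r = ball x r := fun x => by
    rw [IsometryEquiv.preimage_ball, f.symm_apply_apply]
  rw [← hx x, ← hx y, ← Set.preimage_inter]
  rw [hf.measure_preimage (measurableSet_ball.inter measurableSet_ball).nullMeasurableSet]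

theorem ovl_translate (r : ℝ) (v x y : E3) : ovl r (x + v) (y + v) = ovl r x y :=
  ovl_isometry (IsometryEquiv.addRight v) (measurePreserving_add_right volume v) r x y

theorem ovl_linear (f : E3 ≃ₗᵢ[ℝ] E3) (r : ℝ) (x y : E3) : ovl r (f x) (f y) = ovl r x y :=
  ovl_isometry f.toIsometryEquiv f.measurePreserving r x y

theorem exists_isometry (v w : E3) (h : ‖v‖ = ‖w‖) : ∃ f : E3 ≃ₗᵢ[ℝ] E3, f v = w :=
  ⟨Submodule.reflection (ℝ ∙ (v - w))ᗮ, Submodule.reflection_sub h⟩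

theorem kac_norm_sub (r : ℝ) (x y : E3) : kac r ‖x - y‖ = ovl r x y / vball r ^ 2 := by
  rw [kac_eq_ovl]
  congr 1
  have h1 : ovl r x y = ovl r 0 (y - x) := by
    have := ovl_translate r (-x) x y
    rw [← this]
    congr 1
    · simp
  have h2 : ‖y - x‖ = ‖EuclideanSpace.single (0 : Fin 3) ‖x - y‖‖ := by
    rw [PiLp.norm_single, norm_norm, norm_sub_rev]
  obtain ⟨f, hf⟩ := exists_isometry _ _ h2
  rw [h1, ← ovl_linear f r 0 (y - x), hf, map_zero]

theorem ovl_nonneg (r : ℝ) (x y : E3) : 0 ≤ ovl r x y := ENNReal.toReal_nonneg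

theorem ovl_le (r : ℝ) (x y : E3) : ovl r x y ≤ vball r := by
  unfold ovl
  rw [← volume_ball_toReal x r]
  exact ENNReal.toReal_mono (volume_ball_ne_top _ _) (measure_mono Set.inter_subset_left)

theorem kac_nonneg (r ρ : ℝ) : 0 ≤ kac r ρ := div_nonneg (ovl_nonneg _ _ _) (sq_nonneg _)

theorem kac_le' {r : ℝ} (hr : 0 < r) (ρ : ℝ) : kac r ρ ≤ (vball r)⁻¹ := by
  rw [kac_eq_ovl]
  have h := vball_pos hr
  rw [div_le_iff₀ (by positivity), sq, ← mul_assoc, inv_mul_cancel₀ h.ne', one_mul]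
  exact ovl_le _ _ _

theorem kac_le {r : ℝ} (hr : 0 < r) (ρ : ℝ) : kac r ρ ≤ (r ^ 3)⁻¹ :=
  (kac_le' hr ρ).trans (inv_anti₀ (by positivity) (pow_le_vball hr.le))

theorem kac_eq_zero {r ρ : ℝ} (_hr : 0 < r) (h : 2 * r ≤ ρ) : kac r ρ = 0 := by
  rw [kac_eq_ovl]
  unfold ovl
  have : ball (0 : E3) r ∩ ball (EuclideanSpace.single (0 : Fin 3) ρ) r = ∅ := by
    rw [← Set.disjoint_iff_inter_eq_empty]
    apply ball_disjoint_ball
    rw [dist_zero_left, PiLp.norm_single, Real.norm_eq_abs]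
    refine le_trans ?_ (le_abs_self ρ)
    linarith
  rw [this]
  simp

theorem measurable_ovl (r : ℝ) : Measurable (fun y : E3 => ovl r 0 y) := by
  unfold ovl
  apply Measurable.ennreal_toReal
  have h1 : ∀ y : E3, volume (ball (0 : E3) r ∩ ball y r)
      = ∫⁻ z, ({p : E3 × E3 | p.2 ∈ ball (0 : E3) r ∧ dist p.2 p.1 < r}.indicator
        (fun _ => (1 : ℝ≥0∞)) (y, z)) := by
    intro y
    have h2 : MeasurableSet (ball (0 : E3) r ∩ ball y r) := measurableSet_ball.inter measurableSet_ball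
    rw [← lintegral_indicator_one h2]
    refine lintegral_congr fun z => ?_
    by_cases hz : z ∈ ball (0 : E3) r ∩ ball y r
    · rw [Set.indicator_of_mem hz, Set.indicator_of_mem]
      · rfl
      · exact ⟨hz.1, hz.2⟩
    · rw [Set.indicator_of_notMem hz, Set.indicator_of_notMem]
      intro h
      exact hz ⟨h.1, h.2⟩
  simp_rw [h1]
  apply Measurable.lintegral_prod_right'
  apply measurable_const.indicator
  apply MeasurableSet.inter
  · exact measurable_snd measurableSet_ball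
  · exact measurableSet_lt (measurable_snd.dist measurable_fst) measurable_const

theorem measurable_kac (r : ℝ) : Measurable (kac r) := by
  have h1 : kac r = fun ρ => ovl r 0 (EuclideanSpace.single (0 : Fin 3) ρ) / vball r ^ 2 := rfl
  rw [h1]
  apply Measurable.div_const
  have h2 : Measurable (fun ρ : ℝ => (EuclideanSpace.single (0 : Fin 3) ρ : E3)) := by
    have h3 : (fun ρ : ℝ => (EuclideanSpace.single (0 : Fin 3) ρ : E3))
        = fun ρ : ℝ => ρ • (EuclideanSpace.single (0 : Fin 3) (1 : ℝ) : E3) := by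
      funext ρ
      ext i
      by_cases hi : i = 0 <;> simp [hi]
    rw [h3]
    exact measurable_id.smul_const _
  exact (measurable_ovl r).comp h2

/-! ### The integral formula -/

/-- number of points of the configuration within distance `r` of `z` -/
noncomputable def cntB (r : ℝ) {ι : Type} [Fintype ι] (x : ι → E3) (z : E3) : ℝ :=
  ∑ i, (ball (x i) r).indicator (fun _ => (1 : ℝ)) z

theorem integrable_ind {s : Set E3} (hs : MeasurableSet s) (h : volume s ≠ ⊤) :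
    Integrable (s.indicator (fun _ => (1 : ℝ))) :=
  (integrable_indicator_iff hs).2 (integrableOn_const h)

theorem integral_ind {s : Set E3} (hs : MeasurableSet s) :
    ∫ z, s.indicator (fun _ => (1 : ℝ)) z = (volume s).toReal := by
  rw [integral_indicator hs]
  simp [Measure.real]

theorem cntB_sq (r : ℝ) {ι : Type} [Fintype ι] (x : ι → E3) (z : E3) :
    cntB r x z ^ 2 = ∑ i, ∑ j, (ball (x i) r ∩ ball (x j) r).indicator (fun _ => (1 : ℝ)) z := by
  unfold cntB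
  rw [sq, Finset.sum_mul_sum]
  refine Finset.sum_congr rfl fun i _ => Finset.sum_congr rfl fun j _ => ?_
  rw [← Set.inter_indicator_mul]
  simp

theorem inter_ball_ne_top (x y : E3) (r : ℝ) : volume (ball x r ∩ ball y r) ≠ ⊤ :=
  ne_top_of_le_ne_top (volume_ball_ne_top x r) (measure_mono Set.inter_subset_left)

theorem integrable_cntB (r : ℝ) {ι : Type} [Fintype ι] (x : ι → E3) :
    Integrable (fun z => cntB r x z) := by
  unfold cntB
  exact integrable_finsetSum _ fun i _ => integrable_ind measurableSet_ball (volume_ball_ne_top _ _)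

theorem integrable_cntB_sq (r : ℝ) {ι : Type} [Fintype ι] (x : ι → E3) :
    Integrable (fun z => cntB r x z ^ 2) := by
  simp_rw [cntB_sq]
  exact integrable_finsetSum _ fun i _ => integrable_finsetSum _ fun j _ =>
    integrable_ind (measurableSet_ball.inter measurableSet_ball) (inter_ball_ne_top _ _ _)

theorem integral_cntB (r : ℝ) {ι : Type} [Fintype ι] (x : ι → E3) :
    ∫ z, cntB r x z = Fintype.card ι * vball r := by
  unfold cntB
  rw [integral_finsetSum _ fun i _ => integrable_ind measurableSet_ball (volume_ball_ne_top _ _)]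
  simp_rw [integral_ind measurableSet_ball, volume_ball_toReal]
  simp

theorem integral_cntB_sq (r : ℝ) {ι : Type} [Fintype ι] (x : ι → E3) :
    ∫ z, cntB r x z ^ 2 = ∑ i, ∑ j, ovl r (x i) (x j) := by
  simp_rw [cntB_sq]
  rw [integral_finsetSum _ fun i _ => integrable_finsetSum _ fun j _ =>
    integrable_ind (measurableSet_ball.inter measurableSet_ball) (inter_ball_ne_top _ _ _)]
  refine Finset.sum_congr rfl fun i _ => ?_
  rw [integral_finsetSum _ fun j _ =>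
    integrable_ind (measurableSet_ball.inter measurableSet_ball) (inter_ball_ne_top _ _ _)]
  refine Finset.sum_congr rfl fun j _ => ?_
  rw [integral_ind (measurableSet_ball.inter measurableSet_ball)]
  rfl

theorem quad_kac_eq (r : ℝ) {ι : Type} [Fintype ι] (x : ι → E3) :
    quad (fun x y => kac r ‖x - y‖) x = (∫ z, cntB r x z ^ 2) / vball r ^ 2 := by
  rw [integral_cntB_sq]
  unfold quad
  simp_rw [kac_norm_sub, Finset.sum_div]

/-- Positive definiteness in linearised form. -/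
theorem quad_kac_ge' {r L m : ℝ} (hr : 0 < r) (hL : 0 ≤ L) {ι : Type} [Fintype ι]
    (x : ι → E3) (hx : ∀ i, x i ∈ box L) :
    2 * m * Fintype.card ι - m ^ 2 * (L + 2 * r) ^ 3 ≤ quad (fun x y => kac r ‖x - y‖) x := by
  have hv := vball_pos hr
  let v : E3 := WithLp.toLp 2 fun _ => -r
  let Q : Set E3 := (fun x => x + v) '' box (L + 2 * r)
  have hQm : MeasurableSet Q :=
    (MeasurableEquiv.addRight v).measurableEmbedding.measurableSet_image.2 (measurableSet_box _)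
  have hQv : (volume Q).toReal = (L + 2 * r) ^ 3 := by
    have : volume Q = volume (box (L + 2 * r)) := by
      simp only [Q]
      rw [Set.image_add_right, measure_preimage_add_right]
    rw [this, volume_box (by linarith), ENNReal.toReal_ofReal (by positivity)]
  have hQtop : volume Q ≠ ⊤ := by
    intro h
    rw [h] at hQv
    have : (0 : ℝ) < (L + 2 * r) ^ 3 := by positivity
    simp at hQv
    linarith
  have hQmem : ∀ z i, z ∈ ball (x i) r → z ∈ Q := by
    intro z i hz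
    refine ⟨z - v, fun c => ?_, by simp⟩
    have h1 : |z c - x i c| < r := by
      have := abs_coord_le_norm (z - x i) c
      rw [mem_ball, dist_eq_norm] at hz
      exact lt_of_le_of_lt this hz
    have h2 := hx i c
    have h3 := abs_lt.1 h1
    have h4 : (z - v) c = z c + r := by
      simp [v]
    rw [h4]
    constructor <;> linarith [h2.1, h2.2, h3.1, h3.2]
  have hpt : ∀ z, 0 ≤ cntB r x z ^ 2 / vball r ^ 2 - 2 * m / vball r * cntB r x z
      + m ^ 2 * Q.indicator (fun _ => (1 : ℝ)) z := by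
    intro z
    by_cases hz : z ∈ Q
    · rw [Set.indicator_of_mem hz]
      have : cntB r x z ^ 2 / vball r ^ 2 - 2 * m / vball r * cntB r x z + m ^ 2 * 1
          = (cntB r x z / vball r - m) ^ 2 := by
        field_simp
        ring
      rw [this]
      positivity
    · have h0 : cntB r x z = 0 := by
        unfold cntB
        refine Finset.sum_eq_zero fun i _ => ?_
        rw [Set.indicator_of_notMem fun h => hz (hQmem z i h)]
      rw [h0, Set.indicator_of_notMem hz]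
      simp
  have hint : 0 ≤ ∫ z, (cntB r x z ^ 2 / vball r ^ 2 - 2 * m / vball r * cntB r x z
      + m ^ 2 * Q.indicator (fun _ => (1 : ℝ)) z) := integral_nonneg fun z => hpt z
  have i1 : Integrable (fun z => cntB r x z ^ 2 / vball r ^ 2) := (integrable_cntB_sq r x).div_const _
  have i2 : Integrable (fun z => 2 * m / vball r * cntB r x z) := (integrable_cntB r x).const_mul _
  have i3 : Integrable (fun z => m ^ 2 * Q.indicator (fun _ => (1 : ℝ)) z) :=
    (integrable_ind hQm hQtop).const_mul _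
  have i12 : Integrable (fun z => cntB r x z ^ 2 / vball r ^ 2 - 2 * m / vball r * cntB r x z) :=
    i1.sub i2
  rw [integral_add i12 i3, integral_sub i1 i2, integral_div, integral_const_mul,
    integral_const_mul, integral_cntB, integral_ind hQm, hQv, ← quad_kac_eq] at hint
  have h5 : 2 * m / vball r * (Fintype.card ι * vball r) = 2 * m * Fintype.card ι := by
    field_simp
  linarith

/-! ### Comparison with blocks -/

/-- the block with index `g`, as a product of half open intervals -/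
theorem blk_eq_iff (l θ : ℕ) (hl : 0 < l) (y : E3) (g : Fin 3 → ℤ) :
    blk l θ y = g ↔ ∀ c, (l : ℝ) * g c - θ ≤ y c ∧ y c < (l : ℝ) * g c - θ + l := by
  have hl' : (0 : ℤ) < (l : ℤ) := by exact_mod_cast hl
  rw [funext_iff]
  refine forall_congr' fun c => ?_
  unfold blk
  have h1 : (⌊y c⌋ + (θ : ℤ)) / (l : ℤ) = g c ↔
      g c * (l : ℤ) ≤ ⌊y c⌋ + (θ : ℤ) ∧ ⌊y c⌋ + (θ : ℤ) < (g c + 1) * (l : ℤ) := by
    rw [← Int.le_ediv_iff_mul_le hl', ← Int.ediv_lt_iff_lt_mul hl']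
    omega
  rw [h1]
  have h2 : g c * (l : ℤ) ≤ ⌊y c⌋ + (θ : ℤ) ↔ (l : ℝ) * g c - θ ≤ y c := by
    have : g c * (l : ℤ) ≤ ⌊y c⌋ + (θ : ℤ) ↔ g c * (l : ℤ) - θ ≤ ⌊y c⌋ := by omega
    rw [this, Int.le_floor]
    push_cast
    rw [mul_comm]
  have h3 : ⌊y c⌋ + (θ : ℤ) < (g c + 1) * (l : ℤ) ↔ y c < (l : ℝ) * g c - θ + l := by
    have : ⌊y c⌋ + (θ : ℤ) < (g c + 1) * (l : ℤ) ↔ ⌊y c⌋ < (g c + 1) * (l : ℤ) - θ := by omega
    rw [this, Int.floor_lt]
    push_cast
    constructor <;> intro h <;> linarith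
  rw [h2, h3]

theorem volume_block (l θ : ℕ) (hl : 0 < l) (g : Fin 3 → ℤ) :
    volume {y : E3 | blk l θ y = g} = ENNReal.ofReal ((l : ℝ) ^ 3) := by
  have h := PiLp.volume_preserving_ofLp (Fin 3)
  have hset : {y : E3 | blk l θ y = g} = (@WithLp.ofLp 2 (Fin 3 → ℝ)) ⁻¹'
      (Set.univ.pi fun c => Set.Ico ((l : ℝ) * g c - θ) ((l : ℝ) * g c - θ + l)) := by
    ext y
    simp only [Set.mem_ofPred_eq, blk_eq_iff l θ hl, Set.mem_preimage, Set.mem_pi, Set.mem_univ,
      Set.mem_Ico, true_implies]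
  rw [hset, h.measure_preimage (MeasurableSet.univ_pi fun _ => measurableSet_Ico).nullMeasurableSet,
    volume_pi_pi]
  simp only [Real.volume_Ico, add_sub_cancel_left, Finset.prod_const, Finset.card_univ,
    Fintype.card_fin]
  rw [ENNReal.ofReal_pow (by positivity)]

theorem measurableSet_block (l θ : ℕ) (hl : 0 < l) (g : Fin 3 → ℤ) :
    MeasurableSet {y : E3 | blk l θ y = g} := by
  have hset : {y : E3 | blk l θ y = g} = (@WithLp.ofLp 2 (Fin 3 → ℝ)) ⁻¹'
      (Set.univ.pi fun c => Set.Ico ((l : ℝ) * g c - θ) ((l : ℝ) * g c - θ + l)) := by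
    ext y
    simp only [Set.mem_ofPred_eq, blk_eq_iff l θ hl, Set.mem_preimage, Set.mem_pi, Set.mem_univ,
      Set.mem_Ico, true_implies]
  rw [hset]
  exact (PiLp.volume_preserving_ofLp (Fin 3)).measurable
    (MeasurableSet.univ_pi fun _ => measurableSet_Ico)

theorem same_block_near (l θ : ℕ) (hl : 0 < l) {x y : E3} (h : blk l θ x = blk l θ y) :
    ‖x - y‖ < 2 * l := by
  have hl' : (0 : ℝ) < l := by exact_mod_cast hl
  have hx := (blk_eq_iff l θ hl x (blk l θ y)).1 h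
  have hy := (blk_eq_iff l θ hl y (blk l θ y)).1 rfl
  have h1 : ∀ c, |x c - y c| < l := by
    intro c
    rw [abs_lt]
    constructor <;> linarith [(hx c).1, (hx c).2, (hy c).1, (hy c).2]
  rw [EuclideanSpace.norm_eq, Real.sqrt_lt' (by positivity), Fin.sum_univ_three]
  have h2 : ∀ c, ‖(x - y) c‖ ^ 2 < (l : ℝ) ^ 2 := by
    intro c
    rw [Real.norm_eq_abs]
    have : (x - y) c = x c - y c := rfl
    rw [this]
    exact pow_lt_pow_left₀ (h1 c) (abs_nonneg _) two_ne_zero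
  have h3 := h2 0
  have h4 := h2 1
  have h5 := h2 2
  nlinarith [sq_nonneg (l : ℝ)]

/-- number of blocks met by points of a ball -/
theorem card_blocks_le (l θ : ℕ) (hl : 0 < l) {r : ℝ} (z : E3) (S : Finset (Fin 3 → ℤ))
    (hS : ∀ g ∈ S, ∃ y, blk l θ y = g ∧ y ∈ ball z r) :
    (S.card : ℝ) * (l : ℝ) ^ 3 ≤ vball (r + 2 * l) := by
  have h1 : volume (⋃ g ∈ S, {y : E3 | blk l θ y = g}) = S.card * ENNReal.ofReal ((l : ℝ) ^ 3) := by
    rw [measure_biUnion_finset]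
    · simp_rw [volume_block l θ hl]
      rw [Finset.sum_const, nsmul_eq_mul]
    · intro g _ g' _ hne
      rw [Function.onFun, Set.disjoint_left]
      intro y hy hy'
      exact hne (hy.symm.trans hy')
    · intro g _
      exact measurableSet_block l θ hl g
  have h2 : (⋃ g ∈ S, {y : E3 | blk l θ y = g}) ⊆ ball z (r + 2 * l) := by
    intro w hw
    rw [Set.mem_iUnion₂] at hw
    obtain ⟨g, hg, hw⟩ := hw
    obtain ⟨y, hy, hyz⟩ := hS g hg
    have h3 := same_block_near l θ hl (x := w) (y := y) (hw.trans hy.symm)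
    rw [mem_ball] at hyz ⊢
    have h4 := dist_triangle w y z
    rw [← dist_eq_norm] at h3
    linarith
  have h3 := measure_mono (μ := volume) h2
  rw [h1] at h3
  have h4 := ENNReal.toReal_mono (volume_ball_ne_top _ _) h3
  rw [ENNReal.toReal_mul, ENNReal.toReal_natCast, ENNReal.toReal_ofReal (by positivity),
    volume_ball_toReal] at h4
  exact h4

/-- block decomposition of the square of the number of points in a ball -/
theorem cntB_sq_le (l θ : ℕ) (hl : 0 < l) (r : ℝ) {ι : Type} [Fintype ι] (x : ι → E3)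
    (q : (Fin 3 → ℤ) → E3) (hq : ∀ g, blk l θ (q g) = g) (z : E3) :
    cntB r x z ^ 2 ≤ vball (r + 2 * l) / (l : ℝ) ^ 3 *
      ∑ g ∈ Finset.univ.image (fun i => blk l θ (x i)),
        (cnt (fun i => blk l θ (x i)) g : ℝ) ^ 2 *
          (ball (q g) (r + 2 * l)).indicator (fun _ => (1 : ℝ)) z := by
  classical
  have hl' : (0 : ℝ) < l := by exact_mod_cast hl
  set κ : ι → (Fin 3 → ℤ) := fun i => blk l θ (x i) with hκ
  let I : Finset ι := Finset.univ.filter fun i => z ∈ ball (x i) r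
  let S : Finset (Fin 3 → ℤ) := I.image κ
  have h1 : cntB r x z = (I.card : ℝ) := by
    unfold cntB
    rw [Finset.card_filter]
    push_cast
    refine Finset.sum_congr rfl fun i _ => ?_
    rw [Set.indicator_apply]
  have h2 : (I.card : ℝ) ≤ ∑ g ∈ S, (cnt κ g : ℝ) := by
    rw [Finset.card_eq_sum_card_image κ I]
    push_cast
    refine Finset.sum_le_sum fun g _ => ?_
    have : (I.filter fun i => κ i = g).card ≤ cnt κ g := by
      unfold cnt
      apply Finset.card_le_card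
      intro i hi
      rw [Finset.mem_filter] at hi ⊢
      exact ⟨Finset.mem_univ i, hi.2⟩
    exact_mod_cast this
  have h3 : (S.card : ℝ) ≤ vball (r + 2 * l) / (l : ℝ) ^ 3 := by
    rw [le_div_iff₀ (by positivity)]
    apply card_blocks_le l θ hl z
    intro g hg
    obtain ⟨i, hi, rfl⟩ := Finset.mem_image.1 hg
    refine ⟨x i, rfl, ?_⟩
    rw [mem_ball_comm]
    exact (Finset.mem_filter.1 hi).2
  have h4 : (∑ g ∈ S, (cnt κ g : ℝ)) ^ 2 ≤ S.card * ∑ g ∈ S, (cnt κ g : ℝ) ^ 2 :=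
    sq_sum_le_card_mul_sum_sq
  have h5 : ∑ g ∈ S, (cnt κ g : ℝ) ^ 2 ≤ ∑ g ∈ Finset.univ.image κ, (cnt κ g : ℝ) ^ 2 *
      (ball (q g) (r + 2 * l)).indicator (fun _ => (1 : ℝ)) z := by
    have h6 : ∑ g ∈ S, (cnt κ g : ℝ) ^ 2 = ∑ g ∈ S, (cnt κ g : ℝ) ^ 2 *
        (ball (q g) (r + 2 * l)).indicator (fun _ => (1 : ℝ)) z := by
      refine Finset.sum_congr rfl fun g hg => ?_
      rw [Set.indicator_of_mem, mul_one]
      obtain ⟨i, hi, rfl⟩ := Finset.mem_image.1 hg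
      have h7 := (Finset.mem_filter.1 hi).2
      have h8 := same_block_near l θ hl (x := q (κ i)) (y := x i) (hq _)
      rw [mem_ball] at h7 ⊢
      have h9 := dist_triangle z (x i) (q (κ i))
      rw [← dist_eq_norm, dist_comm] at h8
      linarith
    rw [h6]
    apply Finset.sum_le_sum_of_subset_of_nonneg
    · exact Finset.image_subset_image (Finset.filter_subset _ _)
    · intro g _ _
      exact mul_nonneg (sq_nonneg _) (Set.indicator_nonneg (fun _ _ => zero_le_one) _)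
  have h0 : 0 ≤ ∑ g ∈ S, (cnt κ g : ℝ) ^ 2 := Finset.sum_nonneg fun _ _ => sq_nonneg _
  have h7 : 0 ≤ vball (r + 2 * l) / (l : ℝ) ^ 3 := div_nonneg (vball_nonneg _) (by positivity)
  have h8 : cntB r x z ^ 2 ≤ (∑ g ∈ S, (cnt κ g : ℝ)) ^ 2 := by
    rw [h1]
    exact pow_le_pow_left₀ (Nat.cast_nonneg _) h2 2
  exact ((h8.trans h4).trans (mul_le_mul_of_nonneg_right h3 h0)).trans
    (mul_le_mul_of_nonneg_left h5 h7)

/-- Upper bound of the Kac energy by block occupation numbers, sharp as `r / l → ∞`. -/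
theorem quad_kac_le' (l θ : ℕ) (hl : 0 < l) {r : ℝ} (hr : 0 < r) {ι : Type} [Fintype ι]
    (x : ι → E3) :
    quad (fun x y => kac r ‖x - y‖) x ≤
      (1 + 2 * l / r) ^ 6 / (l : ℝ) ^ 3 * quad (same l θ) x := by
  have hl' : (0 : ℝ) < l := by exact_mod_cast hl
  have hv := vball_pos hr
  let q : (Fin 3 → ℤ) → E3 := fun g => WithLp.toLp 2 fun c => (l : ℝ) * g c - θ
  have hq : ∀ g, blk l θ (q g) = g := by
    intro g
    rw [blk_eq_iff l θ hl]
    intro c
    simp only [q]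
    constructor <;> linarith
  set κ : ι → (Fin 3 → ℤ) := fun i => blk l θ (x i) with hκ
  have h1 : ∫ z, cntB r x z ^ 2 ≤ ∫ z, vball (r + 2 * l) / (l : ℝ) ^ 3 *
      ∑ g ∈ Finset.univ.image κ, (cnt κ g : ℝ) ^ 2 *
          (ball (q g) (r + 2 * l)).indicator (fun _ => (1 : ℝ)) z := by
    apply integral_mono (integrable_cntB_sq r x)
    · apply Integrable.const_mul
      exact integrable_finsetSum _ fun g _ =>
        (integrable_ind measurableSet_ball (volume_ball_ne_top _ _)).const_mul _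
    · exact fun z => cntB_sq_le l θ hl r x q hq z
  rw [integral_const_mul, integral_finsetSum _ fun g _ =>
    (integrable_ind measurableSet_ball (volume_ball_ne_top _ _)).const_mul _] at h1
  simp_rw [integral_const_mul, integral_ind measurableSet_ball, volume_ball_toReal] at h1
  rw [← Finset.sum_mul, ← double_same κ] at h1
  rw [quad_kac_eq, quad_same, div_le_iff₀ (by positivity)]
  refine h1.trans (le_of_eq ?_)
  have h2 : vball (r + 2 * l) = (1 + 2 * l / r) ^ 3 * vball r := by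
    rw [← vball_mul (by positivity)]
    congr 1
    field_simp
  rw [h2]
  ring

theorem kac_quad_le (l θ : ℕ) (hl : 0 < l) {r : ℝ} (hr : 0 < r) {ι : Type} [Fintype ι]
    (x : ι → E3) :
    quad (rad (kac r)) x ≤ (1 + 2 * (l : ℝ) / r) ^ 6 / (l : ℝ) ^ 3 * quad (same l θ) x :=
  quad_kac_le' l θ hl hr x

/-- positive definiteness -/
theorem kac_quad_ge {r : ℝ} (hr : 0 < r) {L : ℝ} (hL : 0 < L) {m : ℝ} {N : ℕ}
    (x : Fin N → E3) (hx : ∀ i, x i ∈ box L) :
    2 * m * N - m ^ 2 * (L + 2 * r) ^ 3 ≤ quad (rad (kac r)) x := by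
  have := quad_kac_ge' (m := m) hr hL.le x hx
  rw [Fintype.card_fin] at this
  exact this

end Vale.Agent.P171
end
end

section

section

open MeasureTheory Filter Topology
open scoped ENNReal

namespace Vale.Agent.P171

/-- Repulsive core: `A` for `ρ ≤ 2`, linear between `2` and `3`, zero beyond `3`. -/
noncomputable def core3 (A ρ : ℝ) : ℝ := A * max 0 (min 1 (3 - ρ))

/-- Attractive part with coefficients `c` and radii `rr`. -/
noncomputable def gsum (rr c : ℕ → ℝ) (ρ : ℝ) : ℝ := ∑' k, c k * kac (rr k) ρ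

theorem core3_nonneg {A : ℝ} (hA : 0 ≤ A) (ρ : ℝ) : 0 ≤ core3 A ρ :=
  mul_nonneg hA (le_max_left _ _)

theorem core3_le {A : ℝ} (hA : 0 ≤ A) (ρ : ℝ) : core3 A ρ ≤ A := by
  unfold core3
  have : max 0 (min 1 (3 - ρ)) ≤ 1 := max_le zero_le_one (min_le_left _ _)
  nlinarith

theorem core3_eq_zero {A ρ : ℝ} (h : 3 ≤ ρ) : core3 A ρ = 0 := by
  unfold core3
  have h1 : min 1 (3 - ρ) ≤ 0 := (min_le_right _ _).trans (by linarith)
  rw [max_eq_left h1, mul_zero]

theorem core3_eq {A ρ : ℝ} (h : ρ ≤ 2) : core3 A ρ = A := by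
  unfold core3
  have h1 : min 1 (3 - ρ) = 1 := min_eq_left (by linarith)
  rw [h1, max_eq_right zero_le_one, mul_one]

theorem measurable_core3 (A : ℝ) : Measurable (core3 A) := by
  unfold core3; fun_prop

/-- Standing assumptions on coefficients and radii. -/
structure Coef (rr c : ℕ → ℝ) : Prop where
  nn : ∀ k, 0 ≤ c k
  sm : Summable c
  rad2 : ∀ k, 2 ≤ rr k

theorem kac_le_one {r : ℝ} (hr : 2 ≤ r) (ρ : ℝ) : kac r ρ ≤ 1 := by
  refine (kac_le (by linarith) ρ).trans ?_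
  apply inv_le_one_of_one_le₀
  exact one_le_pow₀ (by linarith)

theorem Coef.summable {rr c : ℕ → ℝ} (h : Coef rr c) (ρ : ℝ) :
    Summable (fun k => c k * kac (rr k) ρ) := by
  refine Summable.of_nonneg_of_le (fun k => mul_nonneg (h.nn k) (kac_nonneg _ _)) (fun k => ?_) h.sm
  exact mul_le_of_le_one_right (h.nn k) (kac_le_one (h.rad2 k) ρ)

theorem gsum_nonneg {rr c : ℕ → ℝ} (h : Coef rr c) (ρ : ℝ) : 0 ≤ gsum rr c ρ :=
  tsum_nonneg fun k => mul_nonneg (h.nn k) (kac_nonneg _ _)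

theorem gsum_le {rr c : ℕ → ℝ} (h : Coef rr c) (ρ : ℝ) : gsum rr c ρ ≤ ∑' k, c k :=
  (h.summable ρ).tsum_le_tsum (fun k => mul_le_of_le_one_right (h.nn k) (kac_le_one (h.rad2 k) ρ))
    h.sm

theorem measurable_gsum {rr c : ℕ → ℝ} (h : Coef rr c) : Measurable (gsum rr c) := by
  refine measurable_of_tendsto_metrizable
    (f := fun (n : ℕ) (ρ : ℝ) => ∑ k ∈ Finset.range n, c k * kac (rr k) ρ) (fun n => ?_) ?_
  · exact Finset.measurable_sum _ (fun k _ => (measurable_kac _).const_mul _)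
  · rw [tendsto_pi_nhds]
    intro r
    exact (h.summable r).hasSum.tendsto_sum_nat

theorem quad_gsum {rr c : ℕ → ℝ} (h : Coef rr c) {ι : Type} [Fintype ι] (x : ι → E3) :
    HasSum (fun k => c k * quad (rad (kac (rr k))) x) (quad (rad (gsum rr c)) x) := by
  have h1 : ∀ k, c k * quad (rad (kac (rr k))) x = ∑ i, ∑ j, c k * kac (rr k) ‖x i - x j‖ := by
    intro k
    unfold quad rad
    rw [Finset.mul_sum]
    refine Finset.sum_congr rfl fun i _ => ?_
    rw [Finset.mul_sum]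
  simp_rw [h1]
  unfold quad rad gsum
  refine hasSum_sum fun i _ => hasSum_sum fun j _ => (h.summable _).hasSum

theorem quad_gsum_le {rr c : ℕ → ℝ} (h : Coef rr c) {ι : Type} [Fintype ι] (x : ι → E3) :
    quad (rad (gsum rr c)) x ≤ 64 * (∑' k, c k) * quad (same 1 0) x := by
  have h1 := quad_gsum h x
  have h2 : ∀ k, c k * quad (rad (kac (rr k))) x ≤ c k * (64 * quad (same 1 0) x) := by
    intro k
    apply mul_le_mul_of_nonneg_left _ (h.nn k)
    have hr := h.rad2 k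
    have h3 := kac_quad_le 1 0 one_pos (by linarith : 0 < rr k) x
    refine h3.trans ?_
    apply mul_le_mul_of_nonneg_right
    · have h4 : 2 * ((1 : ℕ) : ℝ) / rr k ≤ 1 := by
        rw [div_le_one (by linarith)]; simpa using hr
      have h5 : (1 + 2 * ((1 : ℕ) : ℝ) / rr k) ^ 6 ≤ 2 ^ 6 := by
        apply pow_le_pow_left₀
        · have : 0 ≤ 2 * ((1 : ℕ) : ℝ) / rr k := by
            apply div_nonneg _ (by linarith)
            norm_num
          linarith
        · linarith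
      have h6 : ((1 : ℕ) : ℝ) ^ 3 = 1 := by norm_num
      rw [h6, div_one]
      linarith
    · exact quad_nonneg x (fun i j => same_nonneg _ _ _ _)
  have h3 : HasSum (fun k => c k * (64 * quad (same 1 0) x))
      ((∑' k, c k) * (64 * quad (same 1 0) x)) := h.sm.hasSum.mul_right _
  have h4 := hasSum_le h2 h1 h3
  linarith

theorem nice_core_sub {rr c : ℕ → ℝ} (h : Coef rr c) {A κ : ℝ} (hA : 0 ≤ A)
    (hle : 64 * (∑' k, c k) + κ ≤ A) : Nice κ (rad (fun ρ => core3 A ρ - gsum rr c ρ)) where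
  meas := by
    have : Measurable (fun ρ => core3 A ρ - gsum rr c ρ) :=
      (measurable_core3 A).sub (measurable_gsum h)
    exact this.comp (measurable_fst.sub measurable_snd).norm
  symm := fun x y => by unfold rad; rw [norm_sub_rev]
  trans := fun v x y => by unfold rad; rw [add_sub_add_right_eq_sub]
  far := fun x y hxy => by
    change core3 A ‖x - y‖ - gsum rr c ‖x - y‖ ≤ 0
    rw [core3_eq_zero hxy]
    linarith [gsum_nonneg h ‖x - y‖]
  sup := fun x => by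
    have h1 : quad (rad (fun ρ => core3 A ρ - gsum rr c ρ)) x =
        quad (rad (core3 A)) x - quad (rad (gsum rr c)) x := by
      rw [← quad_sub]; rfl
    have h2 : A * quad (same 1 0) x ≤ quad (rad (core3 A)) x := by
      rw [← quad_smul]
      apply quad_mono
      intro i j
      unfold rad same
      split_ifs with hb
      · rw [core3_eq (same_one_near hb).le, mul_one]
      · rw [mul_zero]; exact core3_nonneg hA _
    have h3 := quad_gsum_le h x
    have h4 : 0 ≤ quad (same 1 0) x := quad_nonneg x (fun i j => same_nonneg _ _ _ _)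
    have h5 := mul_le_mul_of_nonneg_right hle h4
    rw [h1]
    linarith

/-- Truncation of a coefficient sequence. -/
noncomputable def trunc (c : ℕ → ℝ) (K j : ℕ) : ℝ := if j < K then c j else 0

/-- The complementary tail. -/
noncomputable def ctail (c : ℕ → ℝ) (K j : ℕ) : ℝ := if j < K then 0 else c j

theorem Coef.trunc {rr c : ℕ → ℝ} (h : Coef rr c) (K : ℕ) : Coef rr (trunc c K) where
  nn := fun k => by unfold P171.trunc; split_ifs; exacts [h.nn k, le_rfl]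
  sm := Summable.of_nonneg_of_le
    (fun k => by unfold P171.trunc; split_ifs; exacts [h.nn k, le_rfl])
    (fun k => by unfold P171.trunc; split_ifs; exacts [le_rfl, h.nn k]) h.sm
  rad2 := h.rad2

theorem Coef.ctail {rr c : ℕ → ℝ} (h : Coef rr c) (K : ℕ) : Coef rr (ctail c K) where
  nn := fun k => by unfold P171.ctail; split_ifs; exacts [le_rfl, h.nn k]
  sm := Summable.of_nonneg_of_le
    (fun k => by unfold P171.ctail; split_ifs; exacts [le_rfl, h.nn k])
    (fun k => by unfold P171.ctail; split_ifs; exacts [h.nn k, le_rfl]) h.sm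
  rad2 := h.rad2

theorem tsum_trunc_le {rr c : ℕ → ℝ} (h : Coef rr c) (K : ℕ) : ∑' k, trunc c K k ≤ ∑' k, c k :=
  (h.trunc K).sm.tsum_le_tsum (fun k => by
    unfold P171.trunc; split_ifs; exacts [le_rfl, h.nn k]) h.sm

theorem tsum_ctail {c : ℕ → ℝ} (hs : Summable c) (K : ℕ) :
    ∑' k, ctail c K k = ∑' j, c (j + K) := by
  have h1 : Summable (ctail c K) := by
    rw [← summable_nat_add_iff K]
    have : (fun n => ctail c K (n + K)) = fun n => c (n + K) := by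
      funext n; unfold ctail; rw [if_neg (by omega)]
    rw [this]
    exact (summable_nat_add_iff K).mpr hs
  rw [← h1.sum_add_tsum_nat_add K]
  have h2 : ∑ i ∈ Finset.range K, ctail c K i = 0 := by
    apply Finset.sum_eq_zero
    intro i hi
    unfold ctail; rw [if_pos (Finset.mem_range.mp hi)]
  rw [h2, zero_add]
  congr 1
  funext j; unfold ctail; rw [if_neg (by omega)]

theorem gsum_add {rr c c' : ℕ → ℝ} (h : Coef rr c) (h' : Coef rr c') (ρ : ℝ) :
    gsum rr (fun k => c k + c' k) ρ = gsum rr c ρ + gsum rr c' ρ := by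
  unfold gsum
  rw [← (h.summable ρ).tsum_add (h'.summable ρ)]
  congr 1; funext k; ring

theorem gsum_smul {rr c : ℕ → ℝ} (s ρ : ℝ) :
    gsum rr (fun k => s * c k) ρ = s * gsum rr c ρ := by
  unfold gsum
  rw [← tsum_mul_left]
  congr 1; funext k; ring

theorem Coef.add {rr c c' : ℕ → ℝ} (h : Coef rr c) (h' : Coef rr c') :
    Coef rr (fun k => c k + c' k) where
  nn := fun k => add_nonneg (h.nn k) (h'.nn k)
  sm := h.sm.add h'.sm
  rad2 := h.rad2

theorem Coef.smul {rr c : ℕ → ℝ} (h : Coef rr c) {s : ℝ} (hs : 0 ≤ s) :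
    Coef rr (fun k => s * c k) where
  nn := fun k => mul_nonneg hs (h.nn k)
  sm := h.sm.mul_left s
  rad2 := h.rad2

theorem gsum_split {rr c : ℕ → ℝ} (h : Coef rr c) (K : ℕ) (ρ : ℝ) :
    gsum rr c ρ = gsum rr (trunc c K) ρ + gsum rr (ctail c K) ρ := by
  rw [← gsum_add (h.trunc K) (h.ctail K)]
  congr 1; funext k; unfold P171.trunc P171.ctail; split_ifs <;> simp

theorem gsum_trunc_succ {rr c : ℕ → ℝ} (h : Coef rr c) (K : ℕ) (ρ : ℝ) :
    gsum rr (trunc c (K + 1)) ρ = gsum rr (trunc c K) ρ + c K * kac (rr K) ρ := by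
  unfold gsum
  have h1 : (fun k => trunc c (K + 1) k * kac (rr k) ρ) = fun k => trunc c K k * kac (rr k) ρ +
      if k = K then c K * kac (rr K) ρ else 0 := by
    funext k
    unfold P171.trunc
    rcases lt_trichotomy k K with hk | hk | hk
    · rw [if_pos (by omega), if_pos hk, if_neg (by omega), add_zero]
    · subst hk
      rw [if_pos (by omega), if_neg (by omega), if_pos rfl, zero_mul, zero_add]
    · rw [if_neg (by omega), if_neg (by omega), if_neg (by omega), zero_mul, zero_add]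
  rw [h1, Summable.tsum_add ((h.trunc K).summable ρ), tsum_ite_eq]
  exact summable_of_ne_finset_zero (s := {K}) (by
    intro j hj
    rw [if_neg (by simpa using hj)])

theorem gsum_trunc_zero (rr c : ℕ → ℝ) (ρ : ℝ) : gsum rr (trunc c 0) ρ = 0 := by
  unfold gsum P171.trunc; simp

/-- Vanishing of the truncated sum beyond the largest range. -/
theorem gsum_trunc_eq_zero {rr c : ℕ → ℝ} (h : Coef rr c) (K : ℕ) {ρ : ℝ}
    (hρ : ∀ j < K, 2 * rr j ≤ ρ) : gsum rr (trunc c K) ρ = 0 := by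
  unfold gsum
  have : ∀ k, trunc c K k * kac (rr k) ρ = 0 := by
    intro k
    unfold P171.trunc
    split_ifs with hk
    · rw [kac_eq_zero (by linarith [h.rad2 k]) (hρ k hk), mul_zero]
    · rw [zero_mul]
  simp [this]

end Vale.Agent.P171
end
end

section

section

open MeasureTheory Filter Topology
open scoped ENNReal

namespace Vale.Agent.P171

/-- Super-exponentially growing base scales. -/
def bB (B k : ℕ) : ℕ := B ^ (2 ^ k)

/-- Radii. -/
noncomputable def rr3 (B k : ℕ) : ℝ := (bB B k : ℝ) ^ 16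

/-- Coefficients. -/
noncomputable def al3 (B k : ℕ) : ℝ := if k = 0 then 2 ^ 22 else ((bB B k : ℕ) : ℝ)⁻¹

/-- Range of the truncated sums. -/
def RR3 (B k : ℕ) : ℕ := if k = 0 then 0 else 2 * bB B k ^ 8

/-- Block sides. -/
def ll3 (B k : ℕ) : ℕ := bB B k ^ 12

theorem bB_succ (B k : ℕ) : bB B (k + 1) = bB B k ^ 2 := by
  unfold bB; rw [pow_succ, pow_mul]

theorem two_pow_le_bB {B : ℕ} (hB : 2 ≤ B) (k : ℕ) : 2 ^ (k + 1) ≤ bB B k := by
  unfold bB
  calc 2 ^ (k + 1) ≤ 2 ^ (2 ^ k) := Nat.pow_le_pow_right (by norm_num) (Nat.lt_two_pow_self)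
    _ ≤ B ^ (2 ^ k) := Nat.pow_le_pow_left hB _

theorem B_le_bB {B : ℕ} (hB : 1 ≤ B) (k : ℕ) : B ≤ bB B k := by
  unfold bB
  calc B = B ^ 1 := (pow_one B).symm
    _ ≤ B ^ (2 ^ k) := Nat.pow_le_pow_right hB Nat.one_le_two_pow

theorem two_le_bB {B : ℕ} (hB : 2 ≤ B) (k : ℕ) : 2 ≤ bB B k :=
  hB.trans (B_le_bB (by omega) k)

theorem bB_mono {B : ℕ} (hB : 2 ≤ B) : Monotone (bB B) := by
  intro i j hij
  unfold bB
  exact Nat.pow_le_pow_right (by omega) (Nat.pow_le_pow_right (by norm_num) hij)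

theorem two_le_bBr {B : ℕ} (hB : 2 ≤ B) (k : ℕ) : (2 : ℝ) ≤ (bB B k : ℝ) := by
  exact_mod_cast two_le_bB hB k

theorem al3_pos {B : ℕ} (hB : 2 ≤ B) (k : ℕ) : 0 < al3 B k := by
  unfold al3
  have := two_le_bBr hB k
  split_ifs
  · positivity
  · apply inv_pos.mpr; linarith

theorem al3_succ_le {B : ℕ} (hB : 2 ≤ B) (k : ℕ) : al3 B (k + 1) ≤ (1 / 2 : ℝ) / 2 ^ k / 2 := by
  unfold al3
  rw [if_neg (by omega)]
  have h1 : (2 : ℝ) ^ (k + 1 + 1) ≤ (bB B (k + 1) : ℝ) := by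
    exact_mod_cast two_pow_le_bB hB (k + 1)
  calc ((bB B (k + 1) : ℕ) : ℝ)⁻¹ ≤ ((2 : ℝ) ^ (k + 1 + 1))⁻¹ := inv_anti₀ (by positivity) h1
    _ = (1 / 2 : ℝ) / 2 ^ k / 2 := by rw [pow_succ, pow_succ]; field_simp

theorem summable_al3 {B : ℕ} (hB : 2 ≤ B) : Summable (al3 B) := by
  rw [← summable_nat_add_iff 1]
  refine Summable.of_nonneg_of_le (fun k => (al3_pos hB _).le) (fun k => al3_succ_le hB k) ?_
  have : (fun k : ℕ => (1 / 2 : ℝ) / 2 ^ k / 2) = fun k : ℕ => (1 / 4 : ℝ) * (1 / 2) ^ k := by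
    funext k; rw [one_div, one_div, inv_pow]; field_simp; norm_num
  rw [this]
  exact (summable_geometric_of_lt_one (by norm_num) (by norm_num)).mul_left _

theorem tsum_al3_le {B : ℕ} (hB : 2 ≤ B) : ∑' k, al3 B k ≤ 2 ^ 22 + 1 := by
  rw [(summable_al3 hB).tsum_eq_zero_add]
  have h0 : al3 B 0 = 2 ^ 22 := by unfold al3; simp
  rw [h0]
  have h1 : ∑' k, al3 B (k + 1) ≤ ∑' k : ℕ, (1 / 4 : ℝ) * (1 / 2) ^ k := by
    refine ((summable_nat_add_iff 1).mpr (summable_al3 hB)).tsum_le_tsum (fun k => ?_)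
      ((summable_geometric_of_lt_one (by norm_num) (by norm_num)).mul_left _)
    refine (al3_succ_le hB k).trans (le_of_eq ?_)
    rw [one_div, one_div, inv_pow]; field_simp; norm_num
  rw [tsum_mul_left, tsum_geometric_of_lt_one (by norm_num) (by norm_num)] at h1
  norm_num at h1 ⊢
  linarith

theorem coef3 {B : ℕ} (hB : 2 ≤ B) : Coef (rr3 B) (al3 B) where
  nn := fun k => (al3_pos hB k).le
  sm := summable_al3 hB
  rad2 := fun k => by
    unfold rr3
    have := two_le_bBr hB k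
    calc (2 : ℝ) ≤ (bB B k : ℝ) ^ 1 := by simpa using this
      _ ≤ (bB B k : ℝ) ^ 16 := pow_le_pow_right₀ (by linarith) (by norm_num)

theorem gsum3_zero {B : ℕ} (hB : 2 ≤ B) (K : ℕ) (ρ : ℝ) (hρ : ((RR3 B K : ℕ) : ℝ) ≤ ρ) :
    gsum (rr3 B) (trunc (al3 B) K) ρ = 0 := by
  apply gsum_trunc_eq_zero (coef3 hB)
  intro j hj
  have hK : K ≠ 0 := by omega
  refine le_trans ?_ hρ
  unfold RR3 rr3
  rw [if_neg hK]
  push_cast
  have h1 : bB B (j + 1) ≤ bB B K := bB_mono hB hj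
  rw [bB_succ] at h1
  have h2 : (bB B j : ℝ) ^ 2 ≤ (bB B K : ℝ) := by exact_mod_cast h1
  have h3 : ((bB B j : ℝ) ^ 2) ^ 8 ≤ (bB B K : ℝ) ^ 8 := pow_le_pow_left₀ (by positivity) h2 8
  rw [← pow_mul] at h3
  norm_num at h3
  linarith

/-- The error of one step. -/
noncomputable def errf (K1 : ℝ) (B k : ℕ) : ℝ :=
  K1 * ((ll3 B k : ℝ) / rr3 B k + (RR3 B k : ℝ) / (ll3 B k : ℝ) + 1 / (ll3 B k : ℝ))

theorem errf_le {K1 : ℝ} (hK1 : 0 ≤ K1) {B : ℕ} (hB : 2 ≤ B) (k : ℕ) :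
    errf K1 B k ≤ 4 * K1 / (bB B k : ℝ) ^ 4 := by
  have hb := two_le_bBr hB k
  obtain ⟨b, hb'⟩ : ∃ b, b = (bB B k : ℝ) := ⟨_, rfl⟩
  rw [← hb'] at hb
  have hb0 : 0 < b := by linarith
  have h1 : (ll3 B k : ℝ) / rr3 B k = 1 / b ^ 4 := by
    unfold ll3 rr3; push_cast; rw [← hb']; field_simp
  have h2 : (RR3 B k : ℝ) / (ll3 B k : ℝ) ≤ 2 / b ^ 4 := by
    have : (RR3 B k : ℝ) ≤ 2 * b ^ 8 := by
      unfold RR3
      split_ifs
      · push_cast; positivity
      · push_cast; rw [← hb']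
    unfold ll3; push_cast; rw [← hb', div_le_div_iff₀ (by positivity) (by positivity)]
    calc (RR3 B k : ℝ) * b ^ 4 ≤ 2 * b ^ 8 * b ^ 4 := mul_le_mul_of_nonneg_right this (by positivity)
      _ = 2 * b ^ 12 := by ring
  have h3 : 1 / (ll3 B k : ℝ) ≤ 1 / b ^ 4 := by
    unfold ll3; push_cast; rw [← hb']
    apply one_div_le_one_div_of_le (by positivity)
    exact pow_le_pow_right₀ (by linarith) (by norm_num)
  unfold errf
  rw [h1, ← hb']
  calc K1 * (1 / b ^ 4 + (RR3 B k : ℝ) / (ll3 B k : ℝ) + 1 / (ll3 B k : ℝ))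
      ≤ K1 * (1 / b ^ 4 + 2 / b ^ 4 + 1 / b ^ 4) := by
        apply mul_le_mul_of_nonneg_left _ hK1; linarith
    _ = 4 * K1 / b ^ 4 := by ring

theorem errf_nonneg {K1 : ℝ} (hK1 : 0 ≤ K1) (B k : ℕ) : 0 ≤ errf K1 B k := by
  unfold errf rr3; positivity

theorem errf_lt {K1 : ℝ} (hK1 : 0 ≤ K1) {B : ℕ} (hB : 2 ≤ B)
    (hBK : 4 * K1 * 2 ^ 23 < (B : ℝ)) (k : ℕ) :
    errf K1 B k < al3 B (k + 1) * ((1 / 2 : ℝ) ^ (11 + k)) ^ 2 / 2 := by
  refine (errf_le hK1 hB k).trans_lt ?_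
  have hb := two_le_bBr hB k
  have hb0 : (0 : ℝ) < (bB B k : ℝ) := by linarith
  have hal : al3 B (k + 1) = 1 / (bB B k : ℝ) ^ 2 := by
    unfold al3; rw [if_neg (by omega), bB_succ]; push_cast; rw [one_div]
  rw [hal]
  -- b^2 ≥ B * 4^k
  have h1 : (B : ℝ) * 4 ^ k ≤ (bB B k : ℝ) ^ 2 := by
    have e1 : (B : ℝ) ≤ (bB B k : ℝ) := by exact_mod_cast B_le_bB (by omega) k
    have hk : B * 4 ^ k ≤ bB B k ^ 2 := by
      unfold bB
      rw [← pow_mul]
      have h4 : (4 : ℕ) ^ k = 2 ^ (2 * k) := by rw [pow_mul]; norm_num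
      have h5 : 2 * k + 1 ≤ 2 ^ k * 2 := by
        have := Nat.lt_two_pow_self (n := k); omega
      calc B * 4 ^ k = B * 2 ^ (2 * k) := by rw [h4]
        _ ≤ B * B ^ (2 * k) := Nat.mul_le_mul_left _ (Nat.pow_le_pow_left hB _)
        _ = B ^ (2 * k + 1) := by ring
        _ ≤ B ^ (2 ^ k * 2) := Nat.pow_le_pow_right (by omega) h5
    exact_mod_cast hk
  have h2 : ((1 / 2 : ℝ) ^ (11 + k)) ^ 2 / 2 = 1 / (2 ^ 23 * 4 ^ k) := by
    have : (4 : ℝ) ^ k = 2 ^ (2 * k) := by rw [pow_mul]; norm_num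
    rw [this, one_div, inv_pow, inv_pow, ← pow_mul, one_div, ← pow_add, div_eq_mul_inv,
      ← mul_inv, ← pow_succ]
    congr 2; ring
  rw [mul_div_assoc (1 / (bB B k : ℝ) ^ 2), h2]
  have h3 : 4 * K1 * (2 ^ 23 * 4 ^ k) < (bB B k : ℝ) ^ 2 := by
    calc 4 * K1 * (2 ^ 23 * 4 ^ k) = (4 * K1 * 2 ^ 23) * 4 ^ k := by ring
      _ < (B : ℝ) * 4 ^ k := mul_lt_mul_of_pos_right hBK (by positivity)
      _ ≤ _ := h1
  rw [one_div_mul_one_div, div_lt_div_iff₀ (by positivity) (by positivity)]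
  calc 4 * K1 * ((bB B k : ℝ) ^ 2 * (2 ^ 23 * 4 ^ k))
      = (bB B k : ℝ) ^ 2 * (4 * K1 * (2 ^ 23 * 4 ^ k)) := by ring
    _ < (bB B k : ℝ) ^ 2 * (bB B k : ℝ) ^ 2 := mul_lt_mul_of_pos_left h3 (by positivity)
    _ = 1 * (bB B k : ℝ) ^ 4 := by ring

theorem errf_tendsto {K1 : ℝ} (hK1 : 0 ≤ K1) {B : ℕ} (hB : 2 ≤ B) :
    Tendsto (errf K1 B) atTop (𝓝 0) := by
  refine squeeze_zero (fun k => errf_nonneg hK1 B k) (fun k => ?_)
    (g := fun k : ℕ => 4 * K1 * (1 / 2 : ℝ) ^ k) ?_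
  · refine (errf_le hK1 hB k).trans ?_
    rw [div_eq_mul_inv]
    apply mul_le_mul_of_nonneg_left _ (by linarith)
    rw [one_div, inv_pow]
    apply inv_anti₀ (by positivity)
    have h1 : (2 : ℝ) ^ (k + 1) ≤ (bB B k : ℝ) := by exact_mod_cast two_pow_le_bB hB k
    have h2 : (1 : ℝ) ≤ (bB B k : ℝ) := by linarith [two_le_bBr hB k]
    calc (2 : ℝ) ^ k ≤ 2 ^ (k + 1) := pow_le_pow_right₀ (by norm_num) (by omega)
      _ ≤ (bB B k : ℝ) ^ 1 := by simpa using h1
      _ ≤ (bB B k : ℝ) ^ 4 := pow_le_pow_right₀ h2 (by norm_num)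
  · have := (tendsto_pow_atTop_nhds_zero_of_lt_one (r := (1 / 2 : ℝ)) (by norm_num)
      (by norm_num)).const_mul (4 * K1)
    simpa using this

end Vale.Agent.P171
end
end

section

section

open MeasureTheory Filter Topology
open scoped ENNReal

namespace Vale.Agent.P171

/-! ### Continuity of the profile -/

theorem continuous_core3 (A : ℝ) : Continuous (core3 A) := by
  unfold core3
  fun_prop

theorem continuous_kac (r : ℝ) : Continuous (kac r) := by
  have h1 : kac r = fun ρ => ovl r 0 (EuclideanSpace.single (0 : Fin 3) ρ) / vball r ^ 2 := rfl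
  rw [h1]
  apply Continuous.div_const
  have h2 : Continuous (fun ρ : ℝ => (EuclideanSpace.single (0 : Fin 3) ρ : E3)) := by
    have h3 : (fun ρ : ℝ => (EuclideanSpace.single (0 : Fin 3) ρ : E3))
        = fun ρ : ℝ => ρ • (EuclideanSpace.single (0 : Fin 3) (1 : ℝ) : E3) := by
      funext ρ
      ext i
      by_cases hi : i = 0 <;> simp [hi]
    rw [h3]
    fun_prop
  refine Continuous.comp (g := fun y : E3 => ovl r 0 y) ?_ h2
  have h4 : (fun y : E3 => ovl r 0 y) = fun y => ∫ z,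
      (Metric.ball (0 : E3) r ∩ Metric.ball y r).indicator (fun _ => (1 : ℝ)) z := by
    funext y
    rw [integral_ind (measurableSet_ball.inter measurableSet_ball)]
    rfl
  rw [h4, continuous_iff_continuousAt]
  intro y₀
  refine continuousAt_of_dominated
    (bound := fun z => (Metric.ball (0 : E3) r).indicator (fun _ => (1 : ℝ)) z) ?_ ?_ ?_ ?_
  · refine Eventually.of_forall fun y => ?_
    exact (measurable_const.indicator
      (measurableSet_ball.inter measurableSet_ball)).aestronglyMeasurable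
  · refine Eventually.of_forall fun y => Eventually.of_forall fun z => ?_
    rw [Real.norm_eq_abs, abs_of_nonneg (Set.indicator_nonneg (fun _ _ => zero_le_one) _)]
    by_cases hz : z ∈ Metric.ball (0 : E3) r ∩ Metric.ball y r
    · rw [Set.indicator_of_mem hz, Set.indicator_of_mem hz.1]
    · rw [Set.indicator_of_notMem hz]
      exact Set.indicator_nonneg (fun _ _ => zero_le_one) _
  · exact integrable_ind measurableSet_ball (volume_ball_ne_top _ _)
  · have h5 : ∀ᵐ z : E3, z ∉ Metric.sphere y₀ r := by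
      rw [ae_iff]
      simp only [not_not]
      exact Measure.addHaar_sphere volume y₀ r
    filter_upwards [h5] with z hz
    have hz' : dist z y₀ ≠ r := hz
    have hc : Continuous fun y : E3 => dist z y := by fun_prop
    rcases lt_or_gt_of_ne hz' with h | h
    · have h6 : ∀ᶠ y in 𝓝 y₀, dist z y < r := hc.continuousAt.eventually_lt_const h
      refine EventuallyEq.continuousAt (y := (Metric.ball (0 : E3) r).indicator
        (fun _ => (1 : ℝ)) z) ?_
      filter_upwards [h6] with y hy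
      by_cases h0 : z ∈ Metric.ball (0 : E3) r
      · rw [Set.indicator_of_mem
          (show z ∈ Metric.ball (0 : E3) r ∩ Metric.ball y r from ⟨h0, hy⟩),
          Set.indicator_of_mem h0]
      · rw [Set.indicator_of_notMem (fun h' => h0 h'.1), Set.indicator_of_notMem h0]
    · have h6 : ∀ᶠ y in 𝓝 y₀, r < dist z y := hc.continuousAt.eventually_const_lt h
      refine EventuallyEq.continuousAt (y := 0) ?_
      filter_upwards [h6] with y hy
      rw [Set.indicator_of_notMem]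
      intro h'
      have h7 : dist z y < r := h'.2
      exact lt_asymm h7 hy

theorem continuous_gsum {rr c : ℕ → ℝ} (h : Coef rr c) : Continuous (gsum rr c) := by
  refine continuous_tsum (fun j => (continuous_kac (rr j)).const_mul _) h.sm fun j ρ => ?_
  rw [Real.norm_eq_abs, abs_of_nonneg (mul_nonneg (h.nn j) (kac_nonneg _ _))]
  exact mul_le_of_le_one_right (h.nn j) (kac_le_one (h.rad2 j) ρ)

theorem continuous_prof3 (A : ℝ) {rr c : ℕ → ℝ} (h : Coef rr c) :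
    Continuous (fun ρ => core3 A ρ - gsum rr c ρ) :=
  (continuous_core3 A).sub (continuous_gsum h)

theorem prof3_bounded {A : ℝ} (hA : 0 ≤ A) {rr c : ℕ → ℝ} (h : Coef rr c) (ρ : ℝ) :
    |core3 A ρ - gsum rr c ρ| ≤ A + ∑' k, c k := by
  have h1 := core3_nonneg hA ρ
  have h2 := core3_le hA ρ
  have h3 := gsum_nonneg h ρ
  have h4 := gsum_le h ρ
  rw [abs_le]
  constructor <;> linarith

/-! ### Two-sided decay -/

/-- the decay exponent -/
noncomputable def dexp : ℝ := 97 / 32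

theorem one_le_rpow_of_le {s t : ℝ} (hs : 0 < s) (hst : s ≤ t) :
    1 ≤ t ^ dexp * s ^ (-dexp) := by
  have hd : 0 ≤ dexp := by unfold dexp; norm_num
  rw [Real.rpow_neg hs.le, ← div_eq_mul_inv, ← Real.div_rpow (hs.le.trans hst) hs.le]
  apply Real.one_le_rpow _ hd
  rw [le_div_iff₀ hs]
  linarith

theorem core3_decay {A : ℝ} (hA : 0 ≤ A) {ρ : ℝ} (hρ : 0 < ρ) :
    core3 A ρ ≤ A * 3 ^ dexp * ρ ^ (-dexp) := by
  rcases le_total 3 ρ with h | h
  · rw [core3_eq_zero h]; positivity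
  · have h1 := one_le_rpow_of_le hρ h
    have h2 := core3_le hA ρ
    calc core3 A ρ ≤ A * 1 := by simpa using h2
      _ ≤ A * (3 ^ dexp * ρ ^ (-dexp)) := mul_le_mul_of_nonneg_left h1 hA
      _ = _ := by ring

theorem term_zero_decay {B : ℕ} (hB : 2 ≤ B) {ρ : ℝ} (hρ : 0 < ρ) :
    al3 B 0 * kac (rr3 B 0) ρ ≤ 2 ^ 22 * (2 * rr3 B 0) ^ dexp * ρ ^ (-dexp) := by
  have hr : 0 < rr3 B 0 := by linarith [(coef3 hB).rad2 0]
  have h0 : al3 B 0 = 2 ^ 22 := by unfold al3; simp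
  rw [h0]
  rcases le_total (2 * rr3 B 0) ρ with h | h
  · rw [kac_eq_zero hr h, mul_zero]; positivity
  · have h1 := one_le_rpow_of_le hρ h
    have h2 := kac_le_one ((coef3 hB).rad2 0) ρ
    have h3 : (0 : ℝ) ≤ 2 ^ 22 := by norm_num
    calc (2 : ℝ) ^ 22 * kac (rr3 B 0) ρ ≤ 2 ^ 22 * 1 := mul_le_mul_of_nonneg_left h2 h3
      _ ≤ 2 ^ 22 * ((2 * rr3 B 0) ^ dexp * ρ ^ (-dexp)) := mul_le_mul_of_nonneg_left h1 h3
      _ = _ := by ring

theorem term_succ_decay {B : ℕ} (hB : 2 ≤ B) (k : ℕ) {ρ : ℝ} (hρ : 0 < ρ) :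
    al3 B (k + 1) * kac (rr3 B (k + 1)) ρ ≤ 16 * ρ ^ (-dexp) * (1 / 2) ^ (k + 1) := by
  have hr : 0 < rr3 B (k + 1) := by linarith [(coef3 hB).rad2 (k + 1)]
  obtain ⟨c, hc⟩ : ∃ c : ℝ, c = (bB B k : ℝ) := ⟨_, rfl⟩
  have hc2 : 2 ≤ c := hc ▸ two_le_bBr hB k
  have hc0 : 0 < c := by linarith
  have hrr : rr3 B (k + 1) = c ^ 32 := by
    unfold rr3
    rw [bB_succ, hc]
    push_cast
    rw [← pow_mul]
  have hal : al3 B (k + 1) = (c ^ 2)⁻¹ := by
    unfold al3
    rw [if_neg (by omega), bB_succ, hc]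
    push_cast
    rfl
  have hck : (1 / c) ≤ (1 / 2) ^ (k + 1) := by
    have h1 : (2 : ℝ) ^ (k + 1) ≤ c := by
      rw [hc]
      exact_mod_cast two_pow_le_bB hB k
    rw [one_div, one_div, inv_pow]
    exact inv_anti₀ (by positivity) h1
  have hρn : 0 ≤ ρ ^ (-dexp) := Real.rpow_nonneg hρ.le _
  rcases le_total (2 * rr3 B (k + 1)) ρ with h | h
  · rw [kac_eq_zero hr h, mul_zero]
    positivity
  · have h1 := one_le_rpow_of_le hρ h
    have h2 := kac_le hr ρ
    have h3 : (2 * rr3 B (k + 1)) ^ dexp ≤ 16 * c ^ 97 := by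
      rw [hrr, Real.mul_rpow (by norm_num) (by positivity)]
      have h4 : (c ^ 32) ^ dexp = c ^ 97 := by
        rw [← Real.rpow_natCast c 32, ← Real.rpow_mul hc0.le, ← Real.rpow_natCast c 97]
        congr 1
        unfold dexp
        norm_num
      have h5 : (2 : ℝ) ^ dexp ≤ 16 := by
        calc (2 : ℝ) ^ dexp ≤ 2 ^ (4 : ℝ) := by
              apply Real.rpow_le_rpow_of_exponent_le (by norm_num)
              unfold dexp; norm_num
          _ = 16 := by norm_num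
      rw [h4]
      exact mul_le_mul_of_nonneg_right h5 (by positivity)
    have h6 : al3 B (k + 1) * kac (rr3 B (k + 1)) ρ ≤ (c ^ 2)⁻¹ * ((c ^ 32) ^ 3)⁻¹ := by
      rw [hal]
      rw [hrr] at h2 ⊢
      exact mul_le_mul_of_nonneg_left h2 (by positivity)
    have h7 : (c ^ 2)⁻¹ * ((c ^ 32) ^ 3)⁻¹ = (c ^ 97)⁻¹ * (1 / c) := by
      field_simp
    calc al3 B (k + 1) * kac (rr3 B (k + 1)) ρ ≤ (c ^ 97)⁻¹ * (1 / c) * 1 := by
          rw [mul_one, ← h7]; exact h6
      _ ≤ (c ^ 97)⁻¹ * (1 / c) * ((2 * rr3 B (k + 1)) ^ dexp * ρ ^ (-dexp)) :=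
          mul_le_mul_of_nonneg_left h1 (by positivity)
      _ ≤ (c ^ 97)⁻¹ * (1 / c) * (16 * c ^ 97 * ρ ^ (-dexp)) := by
          apply mul_le_mul_of_nonneg_left _ (by positivity)
          exact mul_le_mul_of_nonneg_right h3 hρn
      _ = 16 * ρ ^ (-dexp) * (1 / c) := by
          field_simp
      _ ≤ 16 * ρ ^ (-dexp) * (1 / 2) ^ (k + 1) :=
          mul_le_mul_of_nonneg_left hck (by positivity)

theorem gsum3_decay {B : ℕ} (hB : 2 ≤ B) {ρ : ℝ} (hρ : 0 < ρ) :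
    gsum (rr3 B) (al3 B) ρ ≤ (2 ^ 22 * (2 * rr3 B 0) ^ dexp + 16) * ρ ^ (-dexp) := by
  unfold gsum
  have hs := (coef3 hB).summable ρ
  rw [hs.tsum_eq_zero_add]
  have h0 := term_zero_decay hB hρ
  have hg : Summable (fun k : ℕ => 16 * ρ ^ (-dexp) * (1 / 2 : ℝ) ^ (k + 1)) := by
    apply Summable.mul_left
    exact (summable_nat_add_iff 1).mpr
      (summable_geometric_of_lt_one (by norm_num) (by norm_num : (1 / 2 : ℝ) < 1))
  have h1 := ((summable_nat_add_iff 1).mpr hs).tsum_le_tsum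
    (fun k => term_succ_decay hB k hρ) hg
  have h2 : ∑' k : ℕ, (16 * ρ ^ (-dexp) * (1 / 2 : ℝ) ^ (k + 1)) = 16 * ρ ^ (-dexp) := by
    rw [tsum_mul_left]
    have h3 : ∑' k : ℕ, (1 / 2 : ℝ) ^ (k + 1) = 1 := by
      simp_rw [pow_succ]
      rw [tsum_mul_right, tsum_geometric_of_lt_one (by norm_num) (by norm_num)]
      norm_num
    rw [h3, mul_one]
  rw [h2] at h1
  linarith

/-- Two-sided bound `|φ(r)| ≤ C r ^ (-(3 + ε))`. -/
theorem two_sided3 {A : ℝ} (hA : 0 ≤ A) {B : ℕ} (hB : 2 ≤ B) :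
    ∃ C ε : ℝ, 0 < C ∧ 0 < ε ∧ ∀ ρ : ℝ, 0 < ρ →
      |core3 A ρ - gsum (rr3 B) (al3 B) ρ| ≤ C * ρ ^ (-(3 + ε)) := by
  refine ⟨A * 3 ^ dexp + (2 ^ 22 * (2 * rr3 B 0) ^ dexp + 16), 1 / 32, ?_, by norm_num,
    fun ρ hρ => ?_⟩
  · have hr : 0 < rr3 B 0 := by linarith [(coef3 hB).rad2 0]
    positivity
  · have hd : (-(3 + 1 / 32) : ℝ) = -dexp := by unfold dexp; norm_num
    rw [hd]
    have h1 := core3_nonneg hA ρ
    have h2 := core3_decay hA hρ
    have h3 := gsum_nonneg (coef3 hB) ρ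
    have h4 := gsum3_decay hB hρ
    have h5 : 0 ≤ A * 3 ^ dexp * ρ ^ (-dexp) := by positivity
    rw [abs_le]
    constructor <;> linarith

end Vale.Agent.P171
end
end

section

section

open MeasureTheory Filter Topology
open scoped ENNReal

namespace Vale.Agent.P171

/-- comparison of partition functions with an additive constant in the exponent -/
theorem GX_exp_mul_le {Λ : Set E3} (hΛ : MeasurableSet Λ) {W W' : E3 → E3 → ℝ} {ν ν' c : ℝ}
    (h : ∀ (N : ℕ) (x : Fin N → E3), (∀ i, x i ∈ Λ) →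
      c + (ν * N - quad W x / 2) ≤ ν' * N - quad W' x / 2) :
    ENNReal.ofReal (Real.exp c) * GX Λ W ν ≤ GX Λ W' ν' := by
  unfold GX
  rw [← ENNReal.tsum_mul_left]
  refine ENNReal.tsum_le_tsum fun N => ?_
  rw [mul_left_comm]
  refine mul_le_mul' le_rfl ?_
  rw [← lintegral_const_mul' _ _ ENNReal.ofReal_ne_top]
  refine setLIntegral_mono' (measurableSet_all hΛ) fun x hx => ?_
  unfold wt
  rw [← ENNReal.ofReal_mul (Real.exp_pos _).le, ← Real.exp_add]
  apply ENNReal.ofReal_le_ofReal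
  apply Real.exp_le_exp.2
  simpa using h N x hx

theorem quad_sub_smul (W V : E3 → E3 → ℝ) (α : ℝ) {ι : Type} [Fintype ι] (x : ι → E3) :
    quad (fun x y => W x y - α * V x y) x = quad W x - α * quad V x := by
  unfold quad
  simp only [Finset.sum_sub_distrib, Finset.mul_sum]

theorem pL_lower3 {κ κ' : ℝ} (hκ : 1 ≤ κ) (hκ' : 1 ≤ κ') {W : E3 → E3 → ℝ} (hW : Nice κ W)
    {α r : ℝ} (hα : 0 ≤ α) (hr : 0 < r) (hW' : Nice κ' (fun x y => W x y - α * rad (kac r) x y))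
    (ν : ℝ) (m : ℝ) {L : ℝ} (hL : 0 < L) :
    pL W L (ν + α * m) - α * m ^ 2 / 2 * (L + 2 * r) ^ 3 ≤
      pL (fun x y => W x y - α * rad (kac r) x y) L ν := by
  have h1 := GX_exp_mul_le (measurableSet_box L) (W := W)
    (W' := fun x y => W x y - α * rad (kac r) x y) (ν := ν + α * m) (ν' := ν)
    (c := -(α * m ^ 2 / 2 * (L + 2 * r) ^ 3)) (fun N x hx => by
      have h2 := kac_quad_ge (m := m) hr hL x hx
      rw [quad_sub_smul]
      have h3 := mul_le_mul_of_nonneg_left h2 hα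
      linarith)
  have hf := nice_GX_ne_top hκ' hW' hL ν
  have h4 := ENNReal.toReal_mono hf h1
  rw [ENNReal.toReal_mul, ENNReal.toReal_ofReal (Real.exp_pos _).le] at h4
  have h5 := nice_one_le_toReal hκ hW hL (ν + α * m)
  have h6 := Real.log_le_log (mul_pos (Real.exp_pos _) (by linarith)) h4
  rw [Real.log_mul (Real.exp_pos _).ne' (by linarith), Real.log_exp] at h6
  unfold pL
  linarith

theorem lower3 {κ κ' : ℝ} (hκ : 1 ≤ κ) (hκ' : 1 ≤ κ') {W : E3 → E3 → ℝ} (hW : Nice κ W)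
    {α r : ℝ} (hα : 0 ≤ α) (hr : 0 < r) (hW' : Nice κ' (fun x y => W x y - α * rad (kac r) x y))
    (ν : ℝ) (m : ℝ) :
    PW W (ν + α * m) - α * m ^ 2 / 2 ≤ PW (fun x y => W x y - α * rad (kac r) x y) ν := by
  have hlim1 := tendsto_pL hκ hW (ν + α * m)
  have hlim2 : Tendsto (fun L : ℝ => α * m ^ 2 / 2 * (1 + 2 * r / L) ^ 3) atTop
      (𝓝 (α * m ^ 2 / 2 * (1 + 0) ^ 3)) := by
    refine Tendsto.const_mul _ (Tendsto.pow (Tendsto.const_add 1 ?_) 3)
    exact tendsto_const_nhds.div_atTop tendsto_id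
  rw [add_zero, one_pow, mul_one] at hlim2
  have hlim3 := tendsto_pL hκ' hW' ν
  refine le_of_tendsto_of_tendsto (hlim1.sub hlim2) hlim3 ?_
  filter_upwards [eventually_gt_atTop 0] with L hL
  have h1 := pL_lower3 hκ hκ' hW hα hr hW' ν m hL
  have h2 : α * m ^ 2 / 2 * (1 + 2 * r / L) ^ 3 = α * m ^ 2 / 2 * (L + 2 * r) ^ 3 / L ^ 3 := by
    field_simp
  rw [h2, ← sub_div]
  gcongr

end Vale.Agent.P171
end
end

section

section

open MeasureTheory Filter Topology
open scoped ENNReal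

namespace Vale.Agent.P171

/-- decoupled pair function -/
noncomputable def V3 (h : E3 → E3 → ℝ) (τ : ℝ) (l θ : ℕ) (x y : E3) : ℝ :=
  (h x y - τ) * same l θ x y

theorem measurable_V3 {h : E3 → E3 → ℝ} (hm : Measurable (Function.uncurry h)) (τ : ℝ)
    (l θ : ℕ) : Measurable (Function.uncurry (V3 h τ l θ)) := by
  have h2 := measurable_same l θ
  exact (hm.sub measurable_const).mul h2

theorem V3_symm {h : E3 → E3 → ℝ} (hs : ∀ x y, h x y = h y x) (τ : ℝ) (l θ : ℕ) (x y : E3) :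
    V3 h τ l θ x y = V3 h τ l θ y x := by
  unfold V3
  rw [hs, same_symm]

theorem block_product3 {h : E3 → E3 → ℝ} (hm : Measurable (Function.uncurry h))
    (hs : ∀ x y, h x y = h y x) (ht : ∀ v x y, h (x + v) (y + v) = h x y) (τ ν : ℝ)
    {l θ m : ℕ} (hl : 0 < l) (hθ : θ < l) :
    GX (box ((m * l : ℕ) : ℝ)) (V3 h τ l θ) ν ≤
      (GX (box l) (fun x y => h x y - τ) ν) ^ ((m + 1) ^ 3) := by
  set S := Fintype.piFinset (fun _ : Fin 3 => Finset.Icc (0 : ℤ) m) with hS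
  have h1 : GX (box ((m * l : ℕ) : ℝ)) (V3 h τ l θ) ν ≤
      GX (⋃ g ∈ S, Bg l θ g) (V3 h τ l θ) ν := GX_mono_set (box_cover l θ m hl hθ) _ _
  have h2 : GX (⋃ g ∈ S, Bg l θ g) (V3 h τ l θ) ν ≤ ∏ g ∈ S, GX (Bg l θ g) (V3 h τ l θ) ν := by
    apply GX_biUnion_le S (fun g _ => measurableSet_Bg l θ g) _ (measurable_V3 hm τ l θ)
      (V3_symm hs τ l θ) ν
    · intro g _ g' _ hgg x hx y hy
      have : same l θ x y = 0 := by
        unfold same
        rw [if_neg]
        intro h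
        apply hgg
        rw [← (show blk l θ x = g from hx), ← (show blk l θ y = g' from hy), h]
      unfold V3
      rw [this, mul_zero]
    · intro g _ g' _ hgg
      rw [Set.disjoint_left]
      intro x hx hx'
      exact hgg ((show blk l θ x = g from hx).symm.trans hx')
  have h3 : ∀ g, GX (Bg l θ g) (V3 h τ l θ) ν ≤ GX (box l) (fun x y => h x y - τ) ν := by
    intro g
    calc GX (Bg l θ g) (V3 h τ l θ) ν ≤ GX (Bg l θ g) (fun x y => h x y - τ) ν := by
          apply GX_mono (measurableSet_Bg l θ g)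
          intro N x hx
          have : quad (V3 h τ l θ) x = quad (fun x y => h x y - τ) x := by
            unfold quad V3
            refine Finset.sum_congr rfl fun i _ => Finset.sum_congr rfl fun j _ => ?_
            have hij : same l θ (x i) (x j) = 1 := by
              unfold same
              rw [if_pos]
              rw [show blk l θ (x i) = g from hx i, show blk l θ (x j) = g from hx j]
            rw [hij, mul_one]
          rw [this]
      _ ≤ GX ((fun x => x + (WithLp.toLp 2 (fun c => (l : ℝ) * (g c : ℝ) - θ) : E3)) '' box l)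
            (fun x y => h x y - τ) ν := GX_mono_set (Bg_subset l θ hl g) _ _
      _ = GX (box l) (fun x y => h x y - τ) ν := by
          apply GX_translate
          intro x y
          rw [ht]
  have hcard : S.card = (m + 1) ^ 3 := by
    rw [hS, Fintype.card_piFinset]
    simp only [Int.card_Icc, Finset.prod_const, Finset.card_univ, Fintype.card_fin]
    congr 1
  calc GX (box ((m * l : ℕ) : ℝ)) (V3 h τ l θ) ν ≤ ∏ g ∈ S, GX (Bg l θ g) (V3 h τ l θ) ν :=
        h1.trans h2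
    _ ≤ ∏ _g ∈ S, GX (box l) (fun x y => h x y - τ) ν :=
        Finset.prod_le_prod' fun g _ => h3 g
    _ = _ := by rw [Finset.prod_const, hcard]

theorem sum_quad_same (F : E3 → E3 → ℝ) (l : ℕ) {ι : Type} [Fintype ι] (x : ι → E3) :
    ∑ θ ∈ Finset.range l, quad (fun x y => F x y * same l θ x y) x =
      quad (fun x y => F x y * ∑ θ ∈ Finset.range l, same l θ x y) x := by
  unfold quad
  rw [Finset.sum_comm]
  refine Finset.sum_congr rfl fun i _ => ?_
  rw [Finset.sum_comm]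
  refine Finset.sum_congr rfl fun j _ => ?_
  beta_reduce
  rw [Finset.mul_sum]

theorem decouple3 {κ₀ f : ℝ → ℝ} (hκ0 : ∀ ρ, 0 ≤ κ₀ ρ) (hf0 : ∀ ρ, 0 ≤ f ρ) {R l : ℕ}
    (hfR : ∀ ρ : ℝ, (R : ℝ) ≤ ρ → f ρ = 0) (hl : 3 * R < l) {α r : ℝ} (hα : 0 ≤ α) (hr : 0 < r)
    {ι : Type} [Fintype ι] (x : ι → E3) :
    (∑ θ ∈ Finset.range l, quad (V3 (rad (fun ρ => κ₀ ρ - cfac R l * f ρ)) (tauf α r l) l θ) x) ≤
      l * quad (rad (fun ρ => κ₀ ρ - f ρ - α * kac r ρ)) x := by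
  have hl0 : 0 < l := by omega
  have hl0' : (0 : ℝ) < l := by exact_mod_cast hl0
  set c : ℝ := cfac R l with hc
  have hRl : 3 * (R : ℝ) / l < 1 := by
    rw [div_lt_one hl0']
    exact_mod_cast hl
  have h1pos : 0 < 1 - 3 * (R : ℝ) / l := by linarith
  have hcpos : 0 < c := inv_pos.mpr h1pos
  set τ : ℝ := tauf α r l with hτ
  -- expand the right side
  have hR : quad (rad (fun ρ => κ₀ ρ - f ρ - α * kac r ρ)) x =
      quad (rad κ₀) x - quad (rad f) x - α * quad (rad (kac r)) x := by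
    rw [← quad_smul, ← quad_sub, ← quad_sub]
    rfl
  -- expand each term of the left side
  have hL : ∀ θ, quad (V3 (rad (fun ρ => κ₀ ρ - c * f ρ)) τ l θ) x =
      quad (fun x y => rad κ₀ x y * same l θ x y) x -
        quad (fun x y => (c * rad f x y) * same l θ x y) x - τ * quad (same l θ) x := by
    intro θ
    rw [← quad_smul, ← quad_sub, ← quad_sub]
    unfold quad V3 rad
    refine Finset.sum_congr rfl fun i _ => Finset.sum_congr rfl fun j _ => ?_
    ring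
  have hcore : ∀ θ, quad (fun x y => rad κ₀ x y * same l θ x y) x ≤ quad (rad κ₀) x := by
    intro θ
    apply quad_mono
    intro i j
    refine mul_le_of_le_one_right (hκ0 _) ?_
    unfold same
    split_ifs <;> norm_num
  have hkac : ∀ θ, α * quad (rad (kac r)) x ≤ τ * quad (same l θ) x := by
    intro θ
    have h := kac_quad_le l θ hl0 hr x
    have h' := mul_le_mul_of_nonneg_left h hα
    refine h'.trans (le_of_eq ?_)
    rw [hτ, tauf]; ring
  have htail : (l : ℝ) * quad (rad f) x ≤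
      ∑ θ ∈ Finset.range l, quad (fun x y => (c * rad f x y) * same l θ x y) x := by
    rw [sum_quad_same, ← quad_smul]
    apply quad_mono
    intro i j
    by_cases hr' : ‖x i - x j‖ < (R : ℝ)
    · have h2 := sum_same_ge l hl0 R hr'
      have h3 : (l : ℝ) ≤ c * ∑ θ ∈ Finset.range l, same l θ (x i) (x j) := by
        have h4 : (l : ℝ) = c * ((l : ℝ) - 3 * (R : ℝ)) := by
          have h6 : (l : ℝ) - 3 * (R : ℝ) = (1 - 3 * (R : ℝ) / l) * l := by
            field_simp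
          rw [h6, ← mul_assoc, hc, cfac, inv_mul_cancel₀ h1pos.ne', one_mul]
        calc (l : ℝ) = c * ((l : ℝ) - 3 * (R : ℝ)) := h4
          _ ≤ _ := mul_le_mul_of_nonneg_left h2 hcpos.le
      have h5 := mul_le_mul_of_nonneg_right h3 (hf0 ‖x i - x j‖)
      have h6 : rad f (x i) (x j) = f ‖x i - x j‖ := rfl
      rw [h6]
      linarith
    · have h6 : rad f (x i) (x j) = 0 := hfR _ (not_lt.mp hr')
      rw [h6]
      simp
  rw [hR]
  simp_rw [hL]
  rw [Finset.sum_sub_distrib, Finset.sum_sub_distrib]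
  have hsum1 : ∑ θ ∈ Finset.range l, quad (fun x y => rad κ₀ x y * same l θ x y) x
      ≤ l * quad (rad κ₀) x := by
    have := Finset.sum_le_sum (fun θ (_ : θ ∈ Finset.range l) => hcore θ)
    rwa [Finset.sum_const, Finset.card_range, nsmul_eq_mul] at this
  have hsum2 : (l : ℝ) * (α * quad (rad (kac r)) x) ≤
      ∑ θ ∈ Finset.range l, τ * quad (same l θ) x := by
    have := Finset.sum_le_sum (fun θ (_ : θ ∈ Finset.range l) => hkac θ)
    rwa [Finset.sum_const, Finset.card_range, nsmul_eq_mul] at this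
  linarith

theorem upper3 {κ₀ f : ℝ → ℝ} (_hκm : Measurable κ₀) (_hfm : Measurable f)
    (hκ0 : ∀ ρ, 0 ≤ κ₀ ρ) (hf0 : ∀ ρ, 0 ≤ f ρ) {R l : ℕ} (hfR : ∀ ρ : ℝ, (R : ℝ) ≤ ρ → f ρ = 0)
    (hl : 3 * R < l) {α r : ℝ} (hα : 0 ≤ α) (hr : 0 < r) {κ κ' : ℝ} (hκ : 1 ≤ κ) (_hκ' : 1 ≤ κ')
    (hN : Nice κ (rad (fun ρ => κ₀ ρ - f ρ - α * kac r ρ)))
    (hN' : Nice κ' (rad (fun ρ => κ₀ ρ - cfac R l * f ρ))) (ν C : ℝ)
    (hC : ∑' i : ℕ, ENNReal.ofReal (Real.exp (-(tauf α r l * (i : ℝ) ^ 2 / 2))) *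
        GX (box l) (rad (fun ρ => κ₀ ρ - cfac R l * f ρ)) (ν + tauf α r l * i) ≤
      ENNReal.ofReal (Real.exp C)) :
    PW (rad (fun ρ => κ₀ ρ - f ρ - α * kac r ρ)) ν ≤ C / (l : ℝ) ^ 3 := by
  have hl0 : 0 < l := by omega
  have hl0' : (0 : ℝ) < l := by exact_mod_cast hl0
  have hX := GX_laplace (measurableSet_box l) hN'.meas ν (tauf α r l)
  have hX2 := hX.trans hC
  have hC0 : 0 ≤ C := by
    have h1 : (1 : ℝ≥0∞) ≤ ENNReal.ofReal (Real.exp C) := (one_le_GX _ _ _).trans hX2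
    have h2 := ENNReal.toReal_mono ENNReal.ofReal_ne_top h1
    rw [ENNReal.toReal_one, ENNReal.toReal_ofReal (Real.exp_pos _).le] at h2
    exact Real.one_le_exp_iff.1 h2
  refine PW_le_of_blocks hκ hN ν hl0 fun n hn => ?_
  have hbox : ((l : ℝ) * n) = ((n * l : ℕ) : ℝ) := by push_cast; ring
  rw [hbox]
  refine GX_jensen (ν' := ν) (measurableSet_box _) hl0
    (fun θ => V3 (rad (fun ρ => κ₀ ρ - cfac R l * f ρ)) (tauf α r l) l θ)
    (fun θ => measurable_V3 hN'.meas _ l θ) ?_ ?_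
  · intro θ hθ
    refine (block_product3 hN'.meas hN'.symm hN'.trans _ ν hl0 hθ).trans ?_
    refine (pow_le_pow_left' hX2 _).trans ?_
    rw [← ENNReal.ofReal_pow (Real.exp_pos _).le, ← Real.exp_nat_mul]
    apply ENNReal.ofReal_le_ofReal
    apply Real.exp_le_exp.2
    push_cast
    have h3 : ((n : ℝ) + 1) ^ 3 ≤ ((n : ℝ) + 2) ^ 3 := by gcongr; norm_num
    calc ((n : ℝ) + 1) ^ 3 * C ≤ ((n : ℝ) + 2) ^ 3 * C := by gcongr
      _ = _ := by ring
  · intro N x _
    have h := decouple3 hκ0 hf0 hfR hl hα hr x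
    rw [Finset.sum_sub_distrib, Finset.sum_const, Finset.card_range, nsmul_eq_mul,
      ← Finset.sum_div, le_div_iff₀ hl0']
    linarith

end Vale.Agent.P171
end
end

section

section

open MeasureTheory Filter Topology
open scoped ENNReal

namespace Vale.Agent.P171

theorem tsum_exp_le_bd930 {γ : ℝ} (hγ : 0 < γ) :
    ∑' i : ℕ, ENNReal.ofReal (Real.exp (-(γ * (i : ℝ) ^ 2))) ≤ ENNReal.ofReal (1 + 1 / γ) := by
  have h1 : ∀ i : ℕ, ENNReal.ofReal (Real.exp (-(γ * (i : ℝ) ^ 2))) ≤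
      ENNReal.ofReal ((Real.exp (-γ)) ^ i) := by
    intro i
    apply ENNReal.ofReal_le_ofReal
    rw [← Real.exp_nat_mul]
    apply Real.exp_le_exp.mpr
    have : (i : ℝ) ≤ (i : ℝ) ^ 2 := by
      rcases Nat.eq_zero_or_pos i with h | h
      · simp [h]
      · have : (1 : ℝ) ≤ i := by exact_mod_cast h
        nlinarith
    nlinarith
  have hlt : Real.exp (-γ) < 1 := by
    rw [Real.exp_lt_one_iff]; linarith
  have h0 : 0 ≤ Real.exp (-γ) := (Real.exp_pos _).le
  calc ∑' i : ℕ, ENNReal.ofReal (Real.exp (-(γ * (i : ℝ) ^ 2)))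
      ≤ ∑' i : ℕ, ENNReal.ofReal ((Real.exp (-γ)) ^ i) := ENNReal.tsum_le_tsum h1
    _ = ENNReal.ofReal (∑' i : ℕ, (Real.exp (-γ)) ^ i) := by
        rw [ENNReal.ofReal_tsum_of_nonneg (fun i => pow_nonneg h0 i)
          (summable_geometric_of_lt_one h0 hlt)]
    _ = ENNReal.ofReal ((1 - Real.exp (-γ))⁻¹) := by rw [tsum_geometric_of_lt_one h0 hlt]
    _ ≤ ENNReal.ofReal (1 + 1 / γ) := by
        apply ENNReal.ofReal_le_ofReal
        have h2 : Real.exp (-γ) ≤ (1 + γ)⁻¹ := by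
          rw [Real.exp_neg]
          apply inv_anti₀ (by linarith)
          linarith [Real.add_one_le_exp γ]
        have h3 : γ / (1 + γ) ≤ 1 - Real.exp (-γ) := by
          have : γ / (1 + γ) = 1 - (1 + γ)⁻¹ := by field_simp; ring
          linarith
        have h4 : 0 < γ / (1 + γ) := by positivity
        calc (1 - Real.exp (-γ))⁻¹ ≤ (γ / (1 + γ))⁻¹ := inv_anti₀ h4 h3
          _ = 1 + 1 / γ := by field_simp; ring

theorem pow_six_le {x : ℝ} (h0 : 0 ≤ x) (h1 : x ≤ 1 / 100) : (1 + x) ^ 6 ≤ 1 + 7 * x := by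
  have h2 : x ^ 2 ≤ x * (1 / 100) := by nlinarith
  have h3 : x ^ 3 ≤ x * (1 / 100) := by nlinarith [mul_nonneg h0 h0, mul_nonneg (mul_nonneg h0 h0) h0]
  have h4 : x ^ 4 ≤ x * (1 / 100) := by
    have : x ^ 4 = x ^ 3 * x := by ring
    nlinarith [mul_nonneg h0 h0, mul_nonneg (mul_nonneg h0 h0) h0, pow_nonneg h0 3]
  have h5 : x ^ 5 ≤ x * (1 / 100) := by
    have : x ^ 5 = x ^ 4 * x := by ring
    nlinarith [mul_nonneg h0 h0, pow_nonneg h0 3, pow_nonneg h0 4]
  have h6 : x ^ 6 ≤ x * (1 / 100) := by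
    have : x ^ 6 = x ^ 5 * x := by ring
    nlinarith [mul_nonneg h0 h0, pow_nonneg h0 3, pow_nonneg h0 4, pow_nonneg h0 5]
  have : (1 + x) ^ 6 = 1 + 6 * x + 15 * x ^ 2 + 20 * x ^ 3 + 15 * x ^ 4 + 6 * x ^ 5 + x ^ 6 := by
    ring
  rw [this]
  nlinarith

/-- Real arithmetic of one step: the exponent of the `i`-th term (`Q = α (1+δ) y²`). -/
theorem step_exponent {C1 S δ s s' Q p h : ℝ} (hC1 : 0 ≤ C1) (hS : 0 ≤ S) (hδ : 0 ≤ δ)
    (hs : 0 ≤ s) (hs' : 0 ≤ s') (hQ : 0 ≤ Q)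
    (hε : 4 * (δ + s + s') ≤ 1)
    (hp1 : p ≤ S + Q * (1 + δ) / 2)
    (hp2 : p ≤ C1 + Q / 8)
    (hh : h ≤ (1 - s) * p + s * (C1 + Q / 8)) :
    (1 + s') * h - Q / 2 ≤ S + 5 * (δ + s + s') * C1 - Q * (δ + s + s') := by
  obtain ⟨g, hg⟩ : ∃ g, g = C1 + Q / 8 := ⟨_, rfl⟩
  obtain ⟨l, hl⟩ : ∃ l, l = 4 * (δ + s + s') := ⟨_, rfl⟩
  obtain ⟨R, hR⟩ : ∃ R, R = (1 - l) * (S + Q * (1 + δ) / 2) + l * g := ⟨_, rfl⟩
  rw [← hg] at hp2 hh
  have hs1 : s ≤ 1 := by linarith
  have hg0 : 0 ≤ g := by rw [hg]; positivity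
  have hl0 : 0 ≤ l := by rw [hl]; positivity
  have hl1 : 0 ≤ 1 - l := by rw [hl]; linarith
  have hX : (1 - s) * p + s * g ≤ g := by
    have := mul_le_mul_of_nonneg_left hp2 (sub_nonneg.mpr hs1)
    linarith
  have hhg : h ≤ g := hh.trans hX
  have h1 : (1 + s') * h ≤ (1 - s) * p + s * g + s' * g := by
    have := mul_le_mul_of_nonneg_left hhg hs'
    linarith
  have hB0 : 0 ≤ S + Q * (1 + δ) / 2 := by positivity
  have hR0 : 0 ≤ R := by rw [hR]; positivity
  have hpR : p ≤ R := by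
    have e1 := mul_le_mul_of_nonneg_left hp1 hl1
    have e2 := mul_le_mul_of_nonneg_left hp2 hl0
    rw [hR]
    linarith
  have h2 : (1 - s) * p ≤ R := by
    have e1 := mul_le_mul_of_nonneg_left hpR (sub_nonneg.mpr hs1)
    have e2 := mul_nonneg hs hR0
    linarith
  have h3 : (1 + s') * h ≤ R + s * g + s' * g := by linarith
  have hlS : 0 ≤ l * S := mul_nonneg hl0 hS
  have hlC : (l + s + s') * C1 ≤ 5 * (δ + s + s') * C1 := by
    apply mul_le_mul_of_nonneg_right _ hC1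
    rw [hl]; linarith
  have hb : (1 - l) * (1 + δ) / 2 + (l + s + s') / 8 - 1 / 2 + (δ + s + s') ≤ 0 := by
    have e1 : 0 ≤ l * δ := mul_nonneg hl0 hδ
    have e2 : (1 - l) * (1 + δ) / 2 + (l + s + s') / 8 - 1 / 2 + (δ + s + s')
        = δ / 2 - 3 * l / 8 - l * δ / 2 + (s + s') / 8 + (δ + s + s') := by ring
    rw [e2]
    have e3 : 3 * l / 8 = 3 / 2 * (δ + s + s') := by rw [hl]; ring
    rw [e3]
    linarith
  have hQb : Q * ((1 - l) * (1 + δ) / 2 + (l + s + s') / 8 - 1 / 2 + (δ + s + s')) ≤ 0 :=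
    mul_nonpos_of_nonneg_of_nonpos hQ hb
  have hexp : R + s * g + s' * g - Q / 2 = S - l * S + (l + s + s') * C1 +
      Q * ((1 - l) * (1 + δ) / 2 + (l + s + s') / 8 - 1 / 2 + (δ + s + s'))
        - Q * (δ + s + s') := by
    rw [hR, hg]; ring
  linarith

theorem Nice.convex {κ : ℝ} {W W' : E3 → E3 → ℝ} (hW : Nice κ W) (hW' : Nice κ W') {s : ℝ}
    (h0 : 0 ≤ s) (h1 : s ≤ 1) : Nice κ (fun x y => (1 - s) * W x y + s * W' x y) where
  meas := by
    have e : Function.uncurry (fun x y => (1 - s) * W x y + s * W' x y) =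
        fun p => (1 - s) * Function.uncurry W p + s * Function.uncurry W' p := by
      ext p; rfl
    rw [e]
    exact (hW.meas.const_mul _).add (hW'.meas.const_mul _)
  symm := fun x y => by rw [hW.symm, hW'.symm]
  trans := fun v x y => by rw [hW.trans, hW'.trans]
  far := fun x y h => by
    have e1 := mul_nonpos_of_nonneg_of_nonpos (sub_nonneg.mpr h1) (hW.far x y h)
    have e2 := mul_nonpos_of_nonneg_of_nonpos h0 (hW'.far x y h)
    linarith
  sup := fun x => by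
    have e1 := mul_le_mul_of_nonneg_left (hW.sup x) (sub_nonneg.mpr h1)
    have e2 := mul_le_mul_of_nonneg_left (hW'.sup x) h0
    have e3 : quad (fun x y => (1 - s) * W x y + s * W' x y) x =
        (1 - s) * quad W x + s * quad W' x := by
      rw [quad_add, quad_smul, quad_smul]
    rw [e3]
    linarith

theorem cfac_bounds {R l : ℕ} (hl : 1 ≤ l) (hRl : 100 * R ≤ l) :
    0 ≤ cfac R l - 1 ∧ cfac R l - 1 ≤ 6 * ((R : ℝ) / l) := by
  have hl0 : (0 : ℝ) < l := by exact_mod_cast hl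
  have hx0 : 0 ≤ (R : ℝ) / l := by positivity
  have hx1 : (R : ℝ) / l ≤ 1 / 100 := by
    rw [div_le_div_iff₀ hl0 (by norm_num)]
    have : (100 : ℝ) * R ≤ l := by exact_mod_cast hRl
    linarith
  unfold cfac
  have e : 3 * (R : ℝ) / l = 3 * ((R : ℝ) / l) := by ring
  rw [e]
  obtain ⟨x, hx⟩ : ∃ x, x = (R : ℝ) / l := ⟨_, rfl⟩
  rw [← hx] at hx0 hx1 ⊢
  have hpos : 0 < 1 - 3 * x := by linarith
  constructor
  · have : 1 ≤ (1 - 3 * x)⁻¹ := by
      rw [one_le_inv₀ hpos]; linarith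
    linarith
  · have : (1 - 3 * x)⁻¹ ≤ 1 + 6 * x := by
      rw [inv_le_iff_one_le_mul₀ hpos]
      nlinarith
    linarith

theorem grow_bound {κ D A μ a y : ℝ} {W : E3 → E3 → ℝ} (hκ : 1 ≤ κ) (hμ : |μ| ≤ D) (hA : 0 ≤ A)
    (ha0 : 0 ≤ a) (ha : 8 * a ≤ κ) (hW : Nice κ W) :
    PW W (μ + a * y + A / 2) ≤ (1 + (D + A / 2) ^ 2 / κ) + a * y ^ 2 / 8 := by
  have hκ0 : 0 < κ := by linarith
  refine (PW_le hκ hW _).trans ?_
  have e1 : (μ + A / 2) ^ 2 ≤ (D + A / 2) ^ 2 := by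
    apply sq_le_sq'
    · have := neg_abs_le μ; linarith
    · have := le_abs_self μ; linarith
  have e2 : (μ + a * y + A / 2) ^ 2 ≤ 2 * ((μ + A / 2) ^ 2 + (a * y) ^ 2) := by
    have := sq_nonneg ((μ + A / 2) - a * y)
    nlinarith only [this]
  have h1 : (μ + a * y + A / 2) ^ 2 / (2 * κ) ≤ ((D + A / 2) ^ 2 + (a * y) ^ 2) / κ := by
    rw [div_le_div_iff₀ (by positivity) hκ0]
    have : (μ + a * y + A / 2) ^ 2 ≤ 2 * ((D + A / 2) ^ 2 + (a * y) ^ 2) := by linarith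
    calc (μ + a * y + A / 2) ^ 2 * κ ≤ 2 * ((D + A / 2) ^ 2 + (a * y) ^ 2) * κ :=
          mul_le_mul_of_nonneg_right this hκ0.le
      _ = _ := by ring
  have h3 : (a * y) ^ 2 / κ ≤ a * y ^ 2 / 8 := by
    rw [div_le_div_iff₀ hκ0 (by norm_num)]
    have e2 : 0 ≤ a * y ^ 2 := by positivity
    calc (a * y) ^ 2 * 8 = (a * y ^ 2) * (8 * a) := by ring
      _ ≤ (a * y ^ 2) * κ := mul_le_mul_of_nonneg_left ha e2
  rw [add_div] at h1
  linarith

theorem sp_bounds {u : ℝ} (h0 : 0 < u) (h1 : u ≤ 1 / 1000) :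
    9 * u ≤ (1 + 3 * u) ^ 3 - 1 ∧ (1 + 3 * u) ^ 3 - 1 ≤ 10 * u := by
  have e2 : u ^ 2 ≤ u * (1 / 1000) := by nlinarith only [h0, h1]
  have e3 : u ^ 3 ≤ u * (1 / 1000) := by
    have : u ^ 3 = u ^ 2 * u := by ring
    nlinarith only [h0, h1, e2, this, pow_pos h0 2]
  have e : (1 + 3 * u) ^ 3 - 1 = 9 * u + 27 * u ^ 2 + 27 * u ^ 3 := by ring
  rw [e]
  constructor
  · have := pow_pos h0 2; have := pow_pos h0 3; linarith
  · linarith

/-- the bound of each term of the Laplace sum -/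
theorem term_bound {W0 W2 : E3 → E3 → ℝ} {κ : ℝ} (hκ : 1 ≤ κ) (hN0 : Nice κ W0)
    (hN2 : Nice κ W2) {l : ℕ} (hl0 : (0 : ℝ) < l) {α δ s s' μ A D S : ℝ} (hα : 0 < α)
    (hδ0 : 0 ≤ δ) (hs0 : 0 ≤ s) (hs'0 : 0 ≤ s') (hε1 : 4 * (δ + s + s') ≤ 1)
    (hs' : ((l : ℝ) + 3) ^ 3 = (l : ℝ) ^ 3 * (1 + s'))
    (hκa : 8 * (α * (1 + δ)) ≤ κ)
    (hμ : |μ| ≤ D) (hA : 0 ≤ A) (hS0 : 0 ≤ S)
    (hS : ∀ y, 0 ≤ y → PW W0 (μ + α * y + A / 2) - α * y ^ 2 / 2 ≤ S) (i : ℕ) :
    ENNReal.ofReal (Real.exp (-((α * (1 + δ) / (l : ℝ) ^ 3) * (i : ℝ) ^ 2 / 2))) *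
        GX (box l) (fun x y => (1 - s) * W0 x y + s * W2 x y)
          (μ + A / 2 + (α * (1 + δ) / (l : ℝ) ^ 3) * i) ≤
      ENNReal.ofReal (Real.exp ((l : ℝ) ^ 3 * (S + 5 * (δ + s + s') * (1 + (D + A / 2) ^ 2 / κ)))) *
        ENNReal.ofReal (Real.exp (-(α * (1 + δ) * (δ + s + s') / (l : ℝ) ^ 3 * (i : ℝ) ^ 2))) := by
  obtain ⟨C1, hC1⟩ : ∃ C1, C1 = 1 + (D + A / 2) ^ 2 / κ := ⟨_, rfl⟩
  have hκ0 : 0 < κ := by linarith
  have hC1pos : 0 < C1 := by rw [hC1]; positivity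
  obtain ⟨a, ha⟩ : ∃ a, a = α * (1 + δ) := ⟨_, rfl⟩
  have ha0 : 0 < a := by rw [ha]; positivity
  rw [← hC1, ← ha]
  rw [← ha] at hκa
  obtain ⟨y, hy⟩ : ∃ y, y = (i : ℝ) / (l : ℝ) ^ 3 := ⟨_, rfl⟩
  have hy0 : 0 ≤ y := by rw [hy]; positivity
  have hi : (i : ℝ) = (l : ℝ) ^ 3 * y := by rw [hy]; field_simp
  have hν : μ + A / 2 + a / (l : ℝ) ^ 3 * i = μ + a * y + A / 2 := by
    rw [hi]; field_simp; ring
  have hs1 : s ≤ 1 := by linarith
  have hNc : Nice κ (fun x y => (1 - s) * W0 x y + s * W2 x y) := hN0.convex hN2 hs0 hs1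
  rw [hν]
  have hG := GX_le_exp_PW hκ hNc (μ + a * y + A / 2) hl0
  have hg0 : PW W0 (μ + a * y + A / 2) ≤ C1 + a * y ^ 2 / 8 := by
    rw [hC1]; exact grow_bound hκ hμ hA ha0.le hκa hN0
  have hg2 : PW W2 (μ + a * y + A / 2) ≤ C1 + a * y ^ 2 / 8 := by
    rw [hC1]; exact grow_bound hκ hμ hA ha0.le hκa hN2
  have hh : PW (fun x y => (1 - s) * W0 x y + s * W2 x y) (μ + a * y + A / 2) ≤
      (1 - s) * PW W0 (μ + a * y + A / 2) + s * (C1 + a * y ^ 2 / 8) := by
    have h1 := PW_convex hκ hN0 hκ hN2 (μ + a * y + A / 2) (μ + a * y + A / 2) hs0 hs1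
    have e : (1 - s) * (μ + a * y + A / 2) + s * (μ + a * y + A / 2) = μ + a * y + A / 2 := by
      ring
    rw [e] at h1
    have h2 := mul_le_mul_of_nonneg_left hg2 hs0
    linarith
  have hp1 : PW W0 (μ + a * y + A / 2) ≤ S + (a * y ^ 2) * (1 + δ) / 2 := by
    have h1 := hS ((1 + δ) * y) (by positivity)
    have e1 : μ + α * ((1 + δ) * y) + A / 2 = μ + a * y + A / 2 := by rw [ha]; ring
    rw [e1] at h1
    have e2 : α * ((1 + δ) * y) ^ 2 / 2 = (a * y ^ 2) * (1 + δ) / 2 := by rw [ha]; ring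
    rw [e2] at h1
    linarith
  have hexp := step_exponent hC1pos.le hS0 hδ0 hs0 hs'0
    (by positivity : 0 ≤ a * y ^ 2) hε1 hp1 hg0 hh
  obtain ⟨ε, hε⟩ : ∃ ε, ε = δ + s + s' := ⟨_, rfl⟩
  rw [← hε] at hexp ⊢
  rw [← ENNReal.ofReal_mul (Real.exp_pos _).le, ← Real.exp_add]
  refine (mul_le_mul_right hG _).trans ?_
  rw [← ENNReal.ofReal_mul (Real.exp_pos _).le, ← Real.exp_add]
  apply ENNReal.ofReal_le_ofReal
  apply Real.exp_le_exp.mpr
  have hl3 : (0 : ℝ) < (l : ℝ) ^ 3 := by positivity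
  have h4 := mul_le_mul_of_nonneg_left hexp hl3.le
  rw [hs']
  have e1 : a / (l : ℝ) ^ 3 * (i : ℝ) ^ 2 / 2 = (l : ℝ) ^ 3 * (a * y ^ 2 / 2) := by
    rw [hi]; field_simp
  have e2 : a * ε / (l : ℝ) ^ 3 * (i : ℝ) ^ 2 = (l : ℝ) ^ 3 * (a * y ^ 2 * ε) := by
    rw [hi]; field_simp
  rw [e1, e2]
  linarith

theorem log_small {l w : ℝ} (hl : 1000 ≤ l) (hw0 : 0 ≤ w) (hw : w ≤ l ^ 5 / 9) :
    Real.log (1 + w) / l ^ 3 ≤ 10 * (1 / l) := by
  have hl0 : 0 < l := by linarith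
  have h1 : 1 + w ≤ l ^ 5 := by
    have : (1 : ℝ) ≤ l ^ 5 / 9 := by
      have : (1 : ℝ) ≤ l / 9 := by linarith
      have h2 : (1 : ℝ) ≤ l ^ 4 := one_le_pow₀ (by linarith)
      calc (1 : ℝ) ≤ l ^ 4 * (l / 9) := by nlinarith
        _ = l ^ 5 / 9 := by ring
    linarith
  have h2 : Real.log (1 + w) ≤ 5 * l := by
    calc Real.log (1 + w) ≤ Real.log (l ^ 5) := Real.log_le_log (by linarith) h1
      _ = 5 * Real.log l := by rw [Real.log_pow]; norm_num
      _ ≤ 5 * l := by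
        have := Real.log_le_sub_one_of_pos hl0
        linarith
  rw [div_le_iff₀ (by positivity)]
  have h3 : 10 * (1 / l) * l ^ 3 = 10 * l ^ 2 := by field_simp
  rw [h3]
  nlinarith

theorem step3 {κ₀ f : ℝ → ℝ} (hκm : Measurable κ₀) (hfm : Measurable f)
    (hκ0 : ∀ ρ, 0 ≤ κ₀ ρ) (hf0 : ∀ ρ, 0 ≤ f ρ) {R l : ℕ} (hfR : ∀ ρ : ℝ, (R : ℝ) ≤ ρ → f ρ = 0)
    (hl : 1000 ≤ l) (hRl : 100 * R ≤ l) {α r : ℝ} (hα : 0 < α) (hαl : 1 ≤ α * l)
    (hr : 200 * (l : ℝ) ≤ r) {κ : ℝ} (hκ : 1 ≤ κ) (hκα : 16 * α ≤ κ)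
    (hN0 : Nice κ (rad (fun ρ => κ₀ ρ - f ρ)))
    (hN1 : Nice κ (rad (fun ρ => κ₀ ρ - f ρ - α * kac r ρ)))
    (hN2 : Nice κ (rad (fun ρ => κ₀ ρ - 2 * f ρ)))
    {A D μ S : ℝ} (hμ : |μ| ≤ D) (hA : 0 ≤ A) (hS0 : 0 ≤ S)
    (hS : ∀ y, 0 ≤ y → PW (rad (fun ρ => κ₀ ρ - f ρ)) (μ + α * y + A / 2) - α * y ^ 2 / 2 ≤ S) :
    PW (rad (fun ρ => κ₀ ρ - f ρ - α * kac r ρ)) (μ + A / 2) ≤
      S + (315 * (1 + (D + A / 2) ^ 2 / κ) + 10) * ((l : ℝ) / r + R / l + 1 / l) := by
  have hl1 : 1 ≤ l := by omega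
  have hlr : (1000 : ℝ) ≤ l := by exact_mod_cast hl
  have hl0 : (0 : ℝ) < l := by linarith
  have hr0 : 0 < r := by linarith
  have hκ0' : 0 < κ := by linarith
  obtain ⟨hs0, hs6⟩ := cfac_bounds hl1 hRl
  obtain ⟨s, hs⟩ : ∃ s, s = cfac R l - 1 := ⟨_, rfl⟩
  rw [← hs] at hs0 hs6
  have hRl1 : (R : ℝ) / l ≤ 1 / 100 := by
    rw [div_le_div_iff₀ hl0 (by norm_num)]
    have : (100 : ℝ) * R ≤ l := by exact_mod_cast hRl
    linarith
  have hRl0 : 0 ≤ (R : ℝ) / l := by positivity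
  -- the constant δ
  obtain ⟨x, hx⟩ : ∃ x, x = 2 * (l : ℝ) / r := ⟨_, rfl⟩
  have hx0 : 0 ≤ x := by rw [hx]; positivity
  have hx1 : x ≤ 1 / 100 := by
    rw [hx, div_le_div_iff₀ hr0 (by norm_num)]; linarith
  obtain ⟨δ, hδ⟩ : ∃ δ, δ = (1 + x) ^ 6 - 1 := ⟨_, rfl⟩
  have hδ0 : 0 ≤ δ := by
    have : 1 ≤ (1 + x) ^ 6 := one_le_pow₀ (by linarith)
    rw [hδ]; linarith
  have hδ7 : δ ≤ 7 * x := by rw [hδ]; linarith [pow_six_le hx0 hx1]
  -- the constant s'
  obtain ⟨u, hu⟩ : ∃ u, u = 1 / (l : ℝ) := ⟨_, rfl⟩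
  have hu0 : 0 < u := by rw [hu]; positivity
  have hu1 : u ≤ 1 / 1000 := by
    rw [hu, div_le_div_iff₀ hl0 (by norm_num)]; linarith
  obtain ⟨s', hs'⟩ : ∃ s', s' = (1 + 3 * u) ^ 3 - 1 := ⟨_, rfl⟩
  obtain ⟨hs'9, hs'10⟩ := sp_bounds hu0 hu1
  rw [← hs'] at hs'9 hs'10
  have hs'0 : 0 ≤ s' := by linarith
  obtain ⟨ε, hε⟩ : ∃ ε, ε = δ + s + s' := ⟨_, rfl⟩
  have hε9 : 9 * u ≤ ε := by rw [hε]; linarith
  have hε0 : 0 < ε := by linarith
  have hε1 : 4 * (δ + s + s') ≤ 1 := by linarith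
  have hεb : ε ≤ 63 * ((l : ℝ) / r + R / l + 1 / l) := by
    have e1 : x = 2 * ((l : ℝ) / r) := by rw [hx]; ring
    have e2 : 0 ≤ (l : ℝ) / r := by positivity
    rw [hε, ← hu]; linarith
  obtain ⟨C1, hC1⟩ : ∃ C1, C1 = 1 + (D + A / 2) ^ 2 / κ := ⟨_, rfl⟩
  have hC1pos : 0 < C1 := by rw [hC1]; positivity
  have hs3 : ((l : ℝ) + 3) ^ 3 = (l : ℝ) ^ 3 * (1 + s') := by
    rw [hs', hu]; field_simp; ring
  have hc : cfac R l = 1 + s := by rw [hs]; ring
  have hWc : rad (fun ρ => κ₀ ρ - cfac R l * f ρ) =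
      fun x y => (1 - s) * rad (fun ρ => κ₀ ρ - f ρ) x y + s * rad (fun ρ => κ₀ ρ - 2 * f ρ) x y := by
    funext x y
    simp only [rad, hc]; ring
  have hs1 : s ≤ 1 := by linarith
  have hNc : Nice κ (rad (fun ρ => κ₀ ρ - cfac R l * f ρ)) := by
    rw [hWc]; exact hN0.convex hN2 hs0 hs1
  have hτ : tauf α r l = α * (1 + δ) / (l : ℝ) ^ 3 := by
    unfold tauf; rw [hδ, hx]; ring
  have hδ1 : δ ≤ 1 := by linarith
  have hκa : 8 * (α * (1 + δ)) ≤ κ := by
    have : α * (1 + δ) ≤ α * 2 := mul_le_mul_of_nonneg_left (by linarith) hα.le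
    linarith
  have hterm : ∀ i : ℕ, ENNReal.ofReal (Real.exp (-(tauf α r l * (i : ℝ) ^ 2 / 2))) *
        GX (box l) (rad (fun ρ => κ₀ ρ - cfac R l * f ρ)) (μ + A / 2 + tauf α r l * i) ≤
      ENNReal.ofReal (Real.exp ((l : ℝ) ^ 3 * (S + 5 * ε * C1))) *
        ENNReal.ofReal (Real.exp (-(α * (1 + δ) * ε / (l : ℝ) ^ 3 * (i : ℝ) ^ 2))) := by
    intro i
    rw [hτ, hWc, hε, hC1]
    exact term_bound hκ hN0 hN2 hl0 hα hδ0 hs0 hs'0 hε1 hs3 hκa hμ hA hS0 hS i
  obtain ⟨γ, hγ⟩ : ∃ γ, γ = α * (1 + δ) * ε / (l : ℝ) ^ 3 := ⟨_, rfl⟩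
  have hγ0 : 0 < γ := by rw [hγ]; positivity
  have hw : 1 / γ ≤ (l : ℝ) ^ 5 / 9 := by
    have e1 : 9 / (l : ℝ) ^ 5 ≤ γ := by
      rw [hγ, div_le_div_iff₀ (by positivity) (by positivity)]
      have e2 : 9 * (1 / (l : ℝ)) ≤ ε := by rw [← hu]; exact hε9
      have e3 : 1 ≤ α * (1 + δ) * l := by
        have : α * l ≤ α * l * (1 + δ) := le_mul_of_one_le_right (by positivity) (by linarith)
        linarith
      have e4 : 9 ≤ ε * l := by
        have := mul_le_mul_of_nonneg_right e2 hl0.le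
        have e5 : 9 * (1 / (l : ℝ)) * l = 9 := by field_simp
        linarith
      calc 9 * (l : ℝ) ^ 3 ≤ (α * (1 + δ) * l) * (ε * l) * (l : ℝ) ^ 3 := by
            apply mul_le_mul_of_nonneg_right _ (by positivity)
            calc (9 : ℝ) ≤ 1 * (ε * l) := by linarith
              _ ≤ (α * (1 + δ) * l) * (ε * l) :=
                mul_le_mul_of_nonneg_right e3 (by positivity)
        _ = α * (1 + δ) * ε * (l : ℝ) ^ 5 := by ring
    calc 1 / γ ≤ 1 / (9 / (l : ℝ) ^ 5) := one_div_le_one_div_of_le (by positivity) e1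
      _ = (l : ℝ) ^ 5 / 9 := by field_simp
  have hup := upper3 hκm hfm hκ0 hf0 hfR (by omega : 3 * R < l) hα.le hr0 hκ hκ hN1 hNc
    (μ + A / 2) ((l : ℝ) ^ 3 * (S + 5 * ε * C1) + Real.log (1 + 1 / γ)) (by
      refine (ENNReal.tsum_le_tsum hterm).trans ?_
      rw [ENNReal.tsum_mul_left, Real.exp_add, Real.exp_log (by positivity),
        ENNReal.ofReal_mul (Real.exp_pos _).le]
      gcongr
      rw [← hγ]
      exact tsum_exp_le_bd930 hγ0)
  refine hup.trans ?_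
  rw [add_div]
  have hlog := log_small hlr (by positivity : 0 ≤ 1 / γ) hw
  have e1 : (l : ℝ) ^ 3 * (S + 5 * ε * C1) / (l : ℝ) ^ 3 = S + 5 * ε * C1 := by field_simp
  rw [e1, ← hC1]
  have e2 : 5 * ε * C1 ≤ 5 * (63 * ((l : ℝ) / r + R / l + 1 / l)) * C1 := by
    apply mul_le_mul_of_nonneg_right _ hC1pos.le
    linarith
  have e3 : 0 ≤ (l : ℝ) / r := by positivity
  have e4 : 0 ≤ (1 : ℝ) / l := by positivity
  calc S + 5 * ε * C1 + Real.log (1 + 1 / γ) / (l : ℝ) ^ 3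
      ≤ S + 5 * (63 * ((l : ℝ) / r + R / l + 1 / l)) * C1 + 10 * (1 / l) := by linarith
    _ ≤ S + (315 * C1 + 10) * ((l : ℝ) / r + R / l + 1 / l) := by nlinarith

end Vale.Agent.P171
end
end

section

section

open MeasureTheory Filter Topology
open scoped ENNReal

namespace Vale.Agent.P171

/-- Strength of the core. -/
noncomputable def A3 : ℝ := 64 * (2 * (2 ^ 22 + 2)) + 2 ^ 26

/-- Superstability constant. -/
noncomputable def kap3 : ℝ := 2 ^ 26

theorem one_le_kap3 : 1 ≤ kap3 := by unfold kap3; norm_num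

theorem A3_pos : 0 < A3 := by unfold A3; norm_num

/-- Truncated pair functions. -/
noncomputable def WK (B K : ℕ) : E3 → E3 → ℝ :=
  rad (fun ρ => core3 A3 ρ - gsum (rr3 B) (trunc (al3 B) K) ρ)

/-- The limiting pair function. -/
noncomputable def WI (B : ℕ) : E3 → E3 → ℝ :=
  rad (fun ρ => core3 A3 ρ - gsum (rr3 B) (al3 B) ρ)

section
variable {B : ℕ} (hB : 2 ≤ B)
include hB

theorem nice_WI : Nice kap3 (WI B) := by
  refine nice_core_sub (coef3 hB) A3_pos.le ?_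
  have := tsum_al3_le hB
  unfold A3 kap3; linarith

theorem nice_WK (K : ℕ) : Nice kap3 (WK B K) := by
  refine nice_core_sub ((coef3 hB).trunc K) A3_pos.le ?_
  have := (tsum_trunc_le (coef3 hB) K).trans (tsum_al3_le hB)
  unfold A3 kap3; linarith

theorem nice_WK2 (K : ℕ) : Nice kap3 (rad (fun ρ => core3 A3 ρ -
    2 * gsum (rr3 B) (trunc (al3 B) K) ρ)) := by
  have h := nice_core_sub (A := A3) (κ := kap3)
    (((coef3 hB).trunc K).smul (by norm_num : (0 : ℝ) ≤ 2)) A3_pos.le (by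
      rw [tsum_mul_left]
      have := (tsum_trunc_le (coef3 hB) K).trans (tsum_al3_le hB)
      unfold A3 kap3; linarith)
  have e : (fun ρ => core3 A3 ρ - 2 * gsum (rr3 B) (trunc (al3 B) K) ρ) =
      fun ρ => core3 A3 ρ - gsum (rr3 B) (fun k => 2 * trunc (al3 B) K k) ρ := by
    funext ρ; rw [gsum_smul]
  rw [e]; exact h

theorem WK_succ (K : ℕ) : WK B (K + 1) =
    rad (fun ρ => core3 A3 ρ - gsum (rr3 B) (trunc (al3 B) K) ρ - al3 B K * kac (rr3 B K) ρ) := by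
  unfold WK
  congr 1; funext ρ
  rw [gsum_trunc_succ (coef3 hB)]; ring

theorem WK_succ' (K : ℕ) : WK B (K + 1) =
    fun x y => WK B K x y - al3 B K * rad (kac (rr3 B K)) x y := by
  rw [WK_succ hB]
  funext x y
  simp only [WK, rad]

theorem WI_le_WK (K : ℕ) (x y : E3) : WI B x y ≤ WK B K x y := by
  have h := gsum_split (coef3 hB) K ‖x - y‖
  have h1 := gsum_nonneg ((coef3 hB).ctail K) ‖x - y‖
  simp only [WI, WK, rad]
  rw [h]; linarith

/-- error of the truncation -/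
theorem PW_WI_le (K : ℕ) (ν : ℝ) :
    PW (WI B) ν ≤ PW (WK B K) ν + (∑' j, al3 B (j + K)) * (1 + ν ^ 2 / (2 * kap3)) := by
  obtain ⟨s, hs⟩ : ∃ s, s = ∑' j, al3 B (j + K) := ⟨_, rfl⟩
  rw [← hs]
  have hκ := one_le_kap3
  have hκ0 : 0 < kap3 := by linarith
  have hg : 0 ≤ 1 + ν ^ 2 / (2 * kap3) := by positivity
  have hsum : Summable fun j => al3 B (j + K) := (summable_nat_add_iff K).mpr (summable_al3 hB)
  have hs0 : 0 < s := by
    rw [hs]
    exact hsum.tsum_pos (fun j => (al3_pos hB _).le) 0 (al3_pos hB _)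
  have h0 := PW_nonneg hκ (nice_WK hB K) ν
  by_cases hs1 : 1 ≤ s
  · have h1 := PW_le hκ (nice_WI hB) ν
    nlinarith
  · have hs1' : s ≤ 1 := (not_le.mp hs1).le
    -- the auxiliary pair function
    have hc : Coef (rr3 B) (fun k => trunc (al3 B) K k + s⁻¹ * ctail (al3 B) K k) :=
      ((coef3 hB).trunc K).add (((coef3 hB).ctail K).smul (inv_nonneg.mpr hs0.le))
    have hct : ∑' k, ctail (al3 B) K k = s := by rw [tsum_ctail (summable_al3 hB), hs]
    have hN : Nice kap3 (rad (fun ρ => core3 A3 ρ -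
        gsum (rr3 B) (fun k => trunc (al3 B) K k + s⁻¹ * ctail (al3 B) K k) ρ)) := by
      refine nice_core_sub hc A3_pos.le ?_
      rw [Summable.tsum_add ((coef3 hB).trunc K).sm (((coef3 hB).ctail K).sm.mul_left _),
        tsum_mul_left, hct, inv_mul_cancel₀ hs0.ne']
      have := (tsum_trunc_le (coef3 hB) K).trans (tsum_al3_le hB)
      unfold A3 kap3; linarith
    have hW : WI B = fun x y => (1 - s) * WK B K x y + s * rad (fun ρ => core3 A3 ρ -
        gsum (rr3 B) (fun k => trunc (al3 B) K k + s⁻¹ * ctail (al3 B) K k) ρ) x y := by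
      funext x y
      simp only [WI, WK, rad]
      rw [gsum_add ((coef3 hB).trunc K) (((coef3 hB).ctail K).smul (inv_nonneg.mpr hs0.le)),
        gsum_smul, gsum_split (coef3 hB) K]
      field_simp
      ring
    have h1 := PW_convex hκ (nice_WK hB K) hκ hN ν ν hs0.le hs1'
    rw [← hW] at h1
    have e : (1 - s) * ν + s * ν = ν := by ring
    rw [e] at h1
    have h2 := PW_le hκ hN ν
    have h3 := mul_le_mul_of_nonneg_left h2 hs0.le
    have h4 : (1 - s) * PW (WK B K) ν ≤ PW (WK B K) ν := by nlinarith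
    linarith

end

/-- Bounds used for the constants. -/
noncomputable def C03 : ℝ := 1 + (A3 / 2) ^ 2 / (2 * kap3)

noncomputable def D3 : ℝ := 100 * C03

noncomputable def K13 : ℝ := 315 * (1 + (D3 + A3 / 2) ^ 2 / kap3) + 10

theorem kink_WI : ∃ B : ℕ, 2 ≤ B ∧ ∃ μ : ℝ,
    ¬ DifferentiableAt ℝ (fun μ => PW (WI B) (μ + A3 / 2)) μ := by
  have hκ := one_le_kap3
  have hκ0 : 0 < kap3 := by linarith
  have hA := A3_pos
  have hK1 : 0 ≤ K13 := by unfold K13; positivity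
  obtain ⟨B, hBge⟩ := exists_nat_gt (max 4 (4 * K13 * 2 ^ 23))
  have hB4 : (4 : ℝ) < B := lt_of_le_of_lt (le_max_left _ _) hBge
  have hBK : 4 * K13 * 2 ^ 23 < (B : ℝ) := lt_of_le_of_lt (le_max_right _ _) hBge
  have hB4' : 4 < B := by exact_mod_cast hB4
  have hB : 2 ≤ B := by omega
  refine ⟨B, hB, ?_⟩
  refine iter_nondiff (p := fun k μ => PW (WK B k) (μ + A3 / 2)) (α := al3 B)
    (err := errf K13 B) (ε := fun K => ∑' j, al3 B (j + K)) (C₀ := C03) (D := D3)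
    (Cb := fun ν => 1 + (ν + A3 / 2) ^ 2 / (2 * kap3))
    ?_ ?_ (al3_pos hB) ?_ ?_ ?_ ?_ ?_ ?_ ?_ ?_ ?_ (errf_lt hK1 hB hBK) (errf_tendsto hK1 hB)
    ?_ ?_ ?_
  · -- convexity
    intro k
    refine ⟨convex_univ, fun x _ y _ a b ha hb hab => ?_⟩
    have h := PW_convex hκ (nice_WK hB k) hκ (nice_WK hB k) (x + A3 / 2) (y + A3 / 2) hb
      (by linarith : b ≤ 1)
    have ea : 1 - b = a := by linarith
    rw [ea] at h
    have e1 : (fun u v => a * WK B k u v + b * WK B k u v) = WK B k := by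
      funext u v
      rw [← add_mul, hab, one_mul]
    have e2 : a * (x + A3 / 2) + b * (y + A3 / 2) = a * x + b * y + A3 / 2 := by
      have : b = 1 - a := by linarith
      rw [this]; ring
    rw [e1, e2] at h
    simpa [smul_eq_mul] using h
  · -- monotone
    intro k x y hxy
    exact PW_mono_nu hκ (nice_WK hB k) (by linarith)
  · -- growth
    intro k
    refine ⟨1 + (A3 / 2) ^ 2 / kap3, fun ν => ?_⟩
    refine (PW_le hκ (nice_WK hB k) _).trans ?_
    have hal : al3 B k ≤ 2 ^ 22 := by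
      unfold al3; split_ifs
      · exact le_rfl
      · have := two_le_bBr hB k
        have h1 : ((bB B k : ℕ) : ℝ)⁻¹ ≤ 1 := inv_le_one_of_one_le₀ (by linarith)
        norm_num; linarith
    have hal0 := al3_pos hB k
    have h1 : (ν + A3 / 2) ^ 2 ≤ 2 * (ν ^ 2 + (A3 / 2) ^ 2) := by
      nlinarith [sq_nonneg (ν - A3 / 2)]
    have h2 : (ν + A3 / 2) ^ 2 / (2 * kap3) ≤ ν ^ 2 / kap3 + (A3 / 2) ^ 2 / kap3 := by
      rw [← add_div, div_le_div_iff₀ (by positivity) hκ0]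
      nlinarith
    have h3 : ν ^ 2 / kap3 ≤ ν ^ 2 / (8 * al3 B k) := by
      apply div_le_div_of_nonneg_left (sq_nonneg _) (by positivity)
      unfold kap3; linarith
    linarith
  · -- lower
    intro k μ y hy
    have h := lower3 hκ hκ (nice_WK hB k) (al3_pos hB k).le
      (by have := (coef3 hB).rad2 k; linarith : 0 < rr3 B k)
      (by rw [← WK_succ' hB]; exact nice_WK hB (k + 1)) (μ + A3 / 2) y
    rw [← WK_succ' hB] at h
    have e : μ + A3 / 2 + al3 B k * y = μ + al3 B k * y + A3 / 2 := by ring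
    rw [e] at h
    exact h
  · -- upper
    intro k μ S hμ hS0 hS
    have hb := two_le_bBr hB k
    have hb4 : (4 : ℝ) ≤ (bB B k : ℝ) := by
      have : B ≤ bB B k := B_le_bB (by omega) k
      have : (B : ℝ) ≤ (bB B k : ℝ) := by exact_mod_cast this
      linarith
    have hb4' : 4 ≤ bB B k := by exact_mod_cast hb4
    have hal0 := al3_pos hB k
    have h := step3 (κ₀ := core3 A3) (f := gsum (rr3 B) (trunc (al3 B) k)) (R := RR3 B k)
      (l := ll3 B k) (α := al3 B k) (r := rr3 B k) (κ := kap3) (A := A3) (D := D3) (μ := μ)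
      (S := S)
      (measurable_core3 _) (measurable_gsum ((coef3 hB).trunc k)) (core3_nonneg hA.le)
      (gsum_nonneg ((coef3 hB).trunc k)) (gsum3_zero hB k)
      (by
        unfold ll3
        calc 1000 ≤ 4 ^ 12 := by norm_num
          _ ≤ bB B k ^ 12 := Nat.pow_le_pow_left hb4' 12)
      (by
        unfold RR3 ll3
        split_ifs
        · positivity
        · calc 100 * (2 * bB B k ^ 8) = 200 * bB B k ^ 8 := by ring
            _ ≤ 4 ^ 4 * bB B k ^ 8 := Nat.mul_le_mul_right _ (by norm_num)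
            _ ≤ bB B k ^ 4 * bB B k ^ 8 := Nat.mul_le_mul_right _ (Nat.pow_le_pow_left hb4' 4)
            _ = bB B k ^ 12 := by ring)
      hal0
      (by
        unfold al3 ll3
        push_cast
        split_ifs
        · have : (1 : ℝ) ≤ (bB B k : ℝ) ^ 12 := one_le_pow₀ (by linarith)
          nlinarith
        · have e : ((bB B k : ℕ) : ℝ)⁻¹ * (bB B k : ℝ) ^ 12 = (bB B k : ℝ) ^ 11 := by
            field_simp
          rw [e]
          exact one_le_pow₀ (by linarith))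
      (by
        unfold ll3 rr3
        push_cast
        have h4 : (200 : ℝ) ≤ (bB B k : ℝ) ^ 4 := by
          calc (200 : ℝ) ≤ 4 ^ 4 := by norm_num
            _ ≤ _ := pow_le_pow_left₀ (by norm_num) hb4 4
        calc 200 * (bB B k : ℝ) ^ 12 ≤ (bB B k : ℝ) ^ 4 * (bB B k : ℝ) ^ 12 :=
              mul_le_mul_of_nonneg_right h4 (by positivity)
          _ = (bB B k : ℝ) ^ 16 := by ring)
      hκ
      (by
        unfold al3 kap3
        split_ifs
        · norm_num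
        · have h1 : ((bB B k : ℕ) : ℝ)⁻¹ ≤ 1 := inv_le_one_of_one_le₀ (by linarith)
          norm_num; linarith)
      (nice_WK hB k) (by rw [← WK_succ hB]; exact nice_WK hB (k + 1)) (nice_WK2 hB k)
      hμ hA.le hS0 hS
    rw [← WK_succ hB] at h
    exact h
  · -- nonneg
    intro k ν
    exact PW_nonneg hκ (nice_WK hB k) _
  · -- trial
    intro k ν
    have h := PW_ge_trial hκ (nice_WK hB k) (A := A3) (fun x => by
      simp only [WK, rad, sub_self, norm_zero]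
      have h1 := core3_le hA.le 0
      have h2 := gsum_nonneg ((coef3 hB).trunc k) 0
      linarith) (ν + A3 / 2)
    have e : (ν + A3 / 2 - A3 / 2) / 64 = ν / 64 := by ring
    rw [e] at h
    exact h
  · -- p 0 0 ≤ 1
    refine PW_le_one hκ (nice_WK hB 0) (fun {ι} _ x => ?_)
    have h1 : quad (WK B 0) x = quad (rad (core3 A3)) x := by
      unfold WK quad rad
      refine Finset.sum_congr rfl fun i _ => Finset.sum_congr rfl fun j _ => ?_
      change core3 A3 ‖x i - x j‖ - gsum (rr3 B) (trunc (al3 B) 0) ‖x i - x j‖ = _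
      rw [gsum_trunc_zero, sub_zero]
    rw [h1]
    have h2 : ∑ i : ι, A3 ≤ quad (rad (core3 A3)) x := by
      unfold quad
      refine Finset.sum_le_sum fun i _ => ?_
      have h3 : A3 = rad (core3 A3) (x i) (x i) := by
        unfold rad; rw [sub_self, norm_zero, core3_eq (by norm_num)]
      calc A3 = rad (core3 A3) (x i) (x i) := h3
        _ ≤ ∑ j, rad (core3 A3) (x i) (x j) :=
          Finset.single_le_sum (f := fun j => rad (core3 A3) (x i) (x j))
            (fun j _ => core3_nonneg hA.le _) (Finset.mem_univ i)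
    rw [Finset.sum_const, Finset.card_univ, nsmul_eq_mul] at h2
    linarith
  · -- C₀
    intro k
    refine (PW_le hκ (nice_WK hB k) _).trans ?_
    unfold C03
    rw [zero_add]
  · -- D
    exact le_rfl
  · -- α 0
    unfold al3; simp
  · -- tails
    exact tendsto_sum_nat_add (al3 B)
  · -- P ≥ p k
    intro k ν
    exact PW_mono hκ (nice_WK hB k) hκ (nice_WI hB) (WI_le_WK hB k) _
  · -- P ≤ p k + error
    intro k ν
    exact PW_WI_le hB k _

end Vale.Agent.P171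
end
end

section

section

open MeasureTheory Filter Topology
open scoped ENNReal

namespace Vale.Agent.P171

theorem main3 : ∃ φ : ℝ → ℝ, Continuous φ ∧ (∃ M : ℝ, ∀ r : ℝ, |φ r| ≤ M) ∧
    (∃ C ε : ℝ, 0 < C ∧ 0 < ε ∧ ∀ r : ℝ, 0 < r → |φ r| ≤ C * r ^ (-(3 + ε))) ∧
    (∀ r : ℝ, 3 ≤ r → φ r ≤ 0) ∧
    IsPotential φ ∧ Stable φ ∧ Tempered φ ∧ HasPhaseTransition φ := by
  obtain ⟨B, hB, μ, hμ⟩ := kink_WI
  obtain ⟨φ, hφ⟩ : ∃ φ : ℝ → ℝ, φ = fun ρ => core3 A3 ρ - gsum (rr3 B) (al3 B) ρ := ⟨_, rfl⟩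
  have hN : Nice kap3 (rad φ) := by rw [hφ]; exact nice_WI hB
  have hb : ∀ r, |φ r| ≤ A3 + ∑' k, al3 B k := by
    intro r; rw [hφ]; exact prof3_bounded A3_pos.le (coef3 hB) r
  have hc : Continuous φ := by rw [hφ]; exact continuous_prof3 A3 (coef3 hB)
  have hneg : ∀ r : ℝ, 3 ≤ r → φ r ≤ 0 := by
    intro r hr
    rw [hφ]
    change core3 A3 r - gsum (rr3 B) (al3 B) r ≤ 0
    rw [core3_eq_zero hr]
    linarith [gsum_nonneg (coef3 hB) r]
  have hd : ¬ DifferentiableAt ℝ (fun μ => PW (rad φ) (μ + A3 / 2)) μ := by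
    rw [hφ]; exact hμ
  refine ⟨φ, hc, ⟨_, hb⟩, ?_, hneg, isPotential_of_bdd hc.measurable hb,
    stable_of_nice (by linarith [one_le_kap3]) hN, tempered_of_nonpos hneg,
    hasPhaseTransition_of_kink one_le_kap3 hN hd⟩
  rw [hφ]
  exact two_sided3 A3_pos.le hB

end Vale.Agent.P171
end
end
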